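import Vale.Agent.P372.Defs

/-! Key distillation by local operations and public communication, and positive key rate (P372). -/

namespace Vale.Agent.P372.Key

open Matrix Finset
open Vale.Agent.P372
open scoped Kronecker ComplexOrder

/-- Values of a key register of `l` bits. -/
abbrev KeyVal (l : ℕ) : Type := Fin l → Bool

/-- `n` copies of a local system with basis `Fin d`. -/
abbrev Copies (d n : ℕ) : Type := Fin n → Fin d

/-- Effects of the protocols made of finitely many local instruments of Alice and Bob whose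
outcomes are announced publicly, ended by local measurements giving the two keys.
`Eff t ka kb` is the effect of the event that the transcript is `t` and the keys are `ka`, `kb`.

* `measure`: Alice and Bob measure POVMs giving their keys, no further communication;
* `alice`: Alice applies an instrument with Kraus operators `K m r` (new system `X'`), announces
  `m`, and the parties go on with a protocol that may depend on `m`;
* `bob`: the same with Bob and Alice exchanged. -/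
inductive LOPC (l : ℕ) :
    (X Y T : Type) → (T → KeyVal l → KeyVal l → Matrix (X × Y) (X × Y) ℂ) → Prop
  | measure {X Y : Type} [Fintype X] [DecidableEq X] [Fintype Y] [DecidableEq Y]
      (M : KeyVal l → Matrix X X ℂ) (N : KeyVal l → Matrix Y Y ℂ)
      (hM : ∀ k, (M k).PosSemidef) (hN : ∀ k, (N k).PosSemidef)
      (hM1 : ∑ k, M k = 1) (hN1 : ∑ k, N k = 1) :
      LOPC l X Y Unit (fun _ ka kb => M ka ⊗ₖ N kb)
  | alice {X X' Y T Msg R : Type} [Fintype X] [DecidableEq X] [Fintype X'] [DecidableEq X']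
      [Fintype Y] [DecidableEq Y] [Fintype T] [Fintype Msg] [Fintype R]
      (K : Msg → R → Matrix X' X ℂ) (hK : ∑ m, ∑ r, (K m r)ᴴ * K m r = 1)
      (Eff : Msg → T → KeyVal l → KeyVal l → Matrix (X' × Y) (X' × Y) ℂ)
      (h : ∀ m, LOPC l X' Y T (Eff m)) :
      LOPC l X Y (Msg × T) (fun t ka kb => ∑ r, (K t.1 r ⊗ₖ (1 : Matrix Y Y ℂ))ᴴ *
        Eff t.1 t.2 ka kb * (K t.1 r ⊗ₖ (1 : Matrix Y Y ℂ)))
  | bob {X Y Y' T Msg R : Type} [Fintype X] [DecidableEq X] [Fintype Y] [DecidableEq Y]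
      [Fintype Y'] [DecidableEq Y'] [Fintype T] [Fintype Msg] [Fintype R]
      (K : Msg → R → Matrix Y' Y ℂ) (hK : ∑ m, ∑ r, (K m r)ᴴ * K m r = 1)
      (Eff : Msg → T → KeyVal l → KeyVal l → Matrix (X × Y') (X × Y') ℂ)
      (h : ∀ m, LOPC l X Y' T (Eff m)) :
      LOPC l X Y (Msg × T) (fun t ka kb => ∑ r, ((1 : Matrix X X ℂ) ⊗ₖ K t.1 r)ᴴ *
        Eff t.1 t.2 ka kb * ((1 : Matrix X X ℂ) ⊗ₖ K t.1 r))

/-- `n` copies of a bipartite state. -/
def powState {dA dB : ℕ} (ρ : Matrix (Fin dA × Fin dB) (Fin dA × Fin dB) ℂ) (n : ℕ) :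
    Matrix (Copies dA n × Copies dB n) (Copies dA n × Copies dB n) ℂ :=
  Matrix.of fun p q => ∏ i, ρ (p.1 i, p.2 i) (q.1 i, q.2 i)

/-- `n` copies of a purification (rows: Alice and Bob, columns: Eve). -/
def powPsi {dA dB : ℕ} {E : Type} (ψ : Matrix (Fin dA × Fin dB) E ℂ) (n : ℕ) :
    Matrix (Copies dA n × Copies dB n) (Fin n → E) ℂ :=
  Matrix.of fun p z => ∏ i, ψ (p.1 i, p.2 i) (z i)

/-- `K_D(ρ) > 0`: for some rate `κ > 0`, every error `ε > 0` and all large `n`, some protocol on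
`n` copies gives at least `κ n` key bits with error `≤ ε` against Eve holding any purification
and a copy of the transcript. -/
def PositiveKeyRate {dA dB : ℕ} (ρ : Matrix (Fin dA × Fin dB) (Fin dA × Fin dB) ℂ) : Prop :=
  ∃ κ : ℝ, 0 < κ ∧ ∀ ε : ℝ, 0 < ε → ∃ n₀ : ℕ, ∀ n : ℕ, n₀ ≤ n →
    ∃ (l : ℕ) (T : Type) (_ : Fintype T) (_ : DecidableEq T)
      (Eff : T → KeyVal l → KeyVal l →
        Matrix (Copies dA n × Copies dB n) (Copies dA n × Copies dB n) ℂ),
      LOPC l (Copies dA n) (Copies dB n) T Eff ∧ κ * n ≤ l ∧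
      ∀ (E : Type) [Fintype E] [DecidableEq E] (ψ : Matrix (Fin dA × Fin dB) E ℂ),
        ψ * ψᴴ = ρ → ∃ σ : Matrix (T × (Fin n → E)) (T × (Fin n → E)) ℂ, IsState σ ∧
          traceNorm (finalState (powPsi ψ n) Eff - idealState σ) ≤ ε

/-- The key criterion for a state `ρ` of `A ⊗ B`: local Kraus operators `a₀, a₁` of Alice and
`b₀, b₁` of Bob with `‖(a₀⊗b₀) ρ (a₁⊗b₁)*‖₁² > √(p₀₀ p₁₁ p₀₁ p₁₀)`, where
`p_xy = tr((a_x⊗b_y) ρ (a_x⊗b_y)*)`. -/
def KeyWitness {A B : Type} [Fintype A] [Fintype B] (ρ : Matrix (A × B) (A × B) ℂ) : Prop :=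
  ∃ (k k' : ℕ) (a : Bool → Matrix (Fin k) A ℂ) (b : Bool → Matrix (Fin k') B ℂ),
    let p : Bool → Bool → ℝ := fun x y =>
      (((a x ⊗ₖ b y) * ρ * (a x ⊗ₖ b y)ᴴ).trace).re
    Real.sqrt (p false false * p true true * (p false true * p true false)) <
      traceNorm ((a false ⊗ₖ b false) * ρ * (a true ⊗ₖ b true)ᴴ) ^ 2

end Vale.Agent.P372.Key
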