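import Vale.Agent.P372.Key.Block
import Vale.Agent.P372.Key.Defs

/-! Normalising a key witness and amplifying it by tensor powers (P372). -/

namespace Vale.Agent.P372.Key

open Matrix Finset
open Vale.Agent.P372
open scoped Kronecker ComplexOrder

/-- Normalised data: local Kraus operators with sub-unital sums, diagonal weights `≤ pa`,
off-diagonal weights `≤ e` and fidelity `X` with `pa e < X²`. -/
structure Normalised {P Q : Type} [Fintype P] [DecidableEq P] [Fintype Q] [DecidableEq Q]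
    (σ : Matrix (P × Q) (P × Q) ℂ) where
  k : ℕ
  k' : ℕ
  a : Bool → Matrix (Fin k) P ℂ
  b : Bool → Matrix (Fin k') Q ℂ
  X : ℝ
  pa : ℝ
  e : ℝ
  hA : (1 - ((a false)ᴴ * a false + (a true)ᴴ * a true)).PosSemidef
  hB : (1 - ((b false)ᴴ * b false + (b true)ᴴ * b true)).PosSemidef
  hX : X ≤ traceNorm ((a false ⊗ₖ b false) * σ * (a true ⊗ₖ b true)ᴴ)
  hX0 : 0 ≤ X
  hdiag : ∀ x, (((a x ⊗ₖ b x) * σ * (a x ⊗ₖ b x)ᴴ).trace).re ≤ pa
  hoff : ∀ x, (((a x ⊗ₖ b (!x)) * σ * (a x ⊗ₖ b (!x))ᴴ).trace).re ≤ e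
  he : 0 < e
  he1 : e < 1
  hepa : e < pa
  hlt : pa * e < X ^ 2

section

variable {P Q : Type} [Fintype P] [DecidableEq P] [Fintype Q] [DecidableEq Q]

omit [DecidableEq P] [DecidableEq Q] in
lemma weight_smul {k k' : ℕ} (σ : Matrix (P × Q) (P × Q) ℂ) (a : Matrix (Fin k) P ℂ)
    (b : Matrix (Fin k') Q ℂ) (c d : ℝ) :
    (((((c : ℂ) • a) ⊗ₖ ((d : ℂ) • b)) * σ * (((c : ℂ) • a) ⊗ₖ ((d : ℂ) • b))ᴴ).trace).re
      = c ^ 2 * d ^ 2 * (((a ⊗ₖ b) * σ * (a ⊗ₖ b)ᴴ).trace).re := by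
  simp only [smul_kronecker, kronecker_smul, smul_smul, conjTranspose_smul, Matrix.smul_mul,
    Matrix.mul_smul, trace_smul, smul_eq_mul, star_mul', Complex.star_def, Complex.conj_ofReal]
  rw [← Complex.ofReal_mul, ← Complex.ofReal_mul, Complex.re_ofReal_mul]
  ring

omit [DecidableEq P] [DecidableEq Q] in
lemma traceNorm_smul_le {k k' : ℕ} (σ : Matrix (P × Q) (P × Q) ℂ) (a a' : Matrix (Fin k) P ℂ)
    (b b' : Matrix (Fin k') Q ℂ) {c c' d d' : ℝ} (hc : 0 ≤ c * d * (c' * d')) :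
    c * d * (c' * d') * traceNorm ((a ⊗ₖ b) * σ * (a' ⊗ₖ b')ᴴ)
      ≤ traceNorm ((((c : ℂ) • a) ⊗ₖ ((d : ℂ) • b)) * σ *
          (((c' : ℂ) • a') ⊗ₖ ((d' : ℂ) • b'))ᴴ) := by
  obtain ⟨W, hW, e⟩ := exists_contr_trace_eq ((a ⊗ₖ b) * σ * (a' ⊗ₖ b')ᴴ)
  rw [← e]
  refine le_of_eq_of_le ?_ (re_trace_le_traceNorm hW _)
  simp only [smul_kronecker, kronecker_smul, smul_smul, conjTranspose_smul, Matrix.smul_mul,
    Matrix.mul_smul, trace_smul, smul_eq_mul, star_mul', Complex.star_def, Complex.conj_ofReal]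
  rw [← Complex.ofReal_mul, ← Complex.ofReal_mul, ← Complex.ofReal_mul, Complex.re_ofReal_mul]
  ring

omit [DecidableEq P] [DecidableEq Q] in
lemma weight_nonneg {k k' : ℕ} {σ : Matrix (P × Q) (P × Q) ℂ} (hσ : σ.PosSemidef)
    (a : Matrix (Fin k) P ℂ) (b : Matrix (Fin k') Q ℂ) :
    0 ≤ (((a ⊗ₖ b) * σ * (a ⊗ₖ b)ᴴ).trace).re :=
  (Complex.le_def.mp (hσ.mul_mul_conjTranspose_same (a ⊗ₖ b)).trace_nonneg).1

lemma traceNorm_sq_le {k k' : ℕ} {σ : Matrix (P × Q) (P × Q) ℂ} (hσ : σ.PosSemidef)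
    (a a' : Matrix (Fin k) P ℂ) (b b' : Matrix (Fin k') Q ℂ) :
    traceNorm ((a ⊗ₖ b) * σ * (a' ⊗ₖ b')ᴴ) ^ 2
      ≤ (((a ⊗ₖ b) * σ * (a ⊗ₖ b)ᴴ).trace).re * (((a' ⊗ₖ b') * σ * (a' ⊗ₖ b')ᴴ).trace).re := by
  obtain ⟨L, hL⟩ := psd_factor hσ
  obtain ⟨W, hW, e⟩ := exists_contr_trace_eq ((a ⊗ₖ b) * σ * (a' ⊗ₖ b')ᴴ)
  set K := a ⊗ₖ b
  set K' := a' ⊗ₖ b'
  have e2 : (W * (K * σ * K'ᴴ)).trace = (((L * Kᴴ * Wᴴ))ᴴ * (L * K'ᴴ)).trace := by
    rw [hL]
    simp only [conjTranspose_mul, conjTranspose_conjTranspose, Matrix.mul_assoc]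
  have hh : ∀ K : Matrix (Fin k × Fin k') (P × Q) ℂ, hs (L * Kᴴ) = ((K * σ * Kᴴ).trace).re := by
    intro K
    rw [hs, hL]
    simp only [conjTranspose_mul, conjTranspose_conjTranspose, Matrix.mul_assoc]
  have h1 : hs (L * Kᴴ * Wᴴ) ≤ hs (L * Kᴴ) := by
    rw [← hs_conjTranspose, conjTranspose_mul, conjTranspose_conjTranspose,
      ← hs_conjTranspose (L * Kᴴ)]
    exact hs_mul_le hW _
  have : traceNorm (K * σ * K'ᴴ) ≤ √(hs (L * Kᴴ)) * √(hs (L * K'ᴴ)) := by
    rw [← e, e2]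
    exact (Complex.re_le_norm _).trans ((norm_trace_mul_le _ _).trans
      (mul_le_mul_of_nonneg_right (Real.sqrt_le_sqrt h1) (Real.sqrt_nonneg _)))
  refine (pow_le_pow_left₀ (traceNorm_nonneg' _) this 2).trans (le_of_eq ?_)
  rw [mul_pow, Real.sq_sqrt (hs_nonneg _), Real.sq_sqrt (hs_nonneg _), hh, hh]

/-- Scalings that make the two diagonal and the two off-diagonal weights equal. -/
lemma balance {p00 p11 u v X2 : ℝ} (h00 : 0 < p00) (h11 : 0 < p11) (hu : 0 < u) (hv : 0 < v)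
    (hlt : √(p00 * p11 * (u * v)) < X2) (hle : X2 ≤ p00 * p11) :
    ∃ S T : ℝ, 0 < S ∧ 0 < T ∧ S * T = p11 / p00 ∧ S * u = T * v ∧
      p00 * (S * u) < X2 ∧ S * u < p11 := by
  obtain ⟨R, hR, hR2⟩ : ∃ R : ℝ, R = √(p00 * p11 * (u * v)) ∧ R ^ 2 = p00 * p11 * (u * v) :=
    ⟨_, rfl, Real.sq_sqrt (by positivity)⟩
  have hR0 : 0 < R := by rw [hR]; positivity
  rw [← hR] at hlt
  refine ⟨R / (p00 * u), R / (p00 * v), by positivity, by positivity, ?_, ?_, ?_, ?_⟩
  · field_simp; linear_combination hR2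
  · field_simp
  · refine lt_of_eq_of_lt ?_ hlt; field_simp
  · rw [show R / (p00 * u) * u = R / p00 by field_simp, div_lt_iff₀ h00]
    linarith

lemma subunital {R : Type} [Fintype R] [DecidableEq R] {j : ℕ} (f : Bool → Matrix (Fin j) R ℂ)
    (w : Bool → ℝ) (h : w false ^ 2 * (((f false)ᴴ * f false).trace).re +
      w true ^ 2 * (((f true)ᴴ * f true).trace).re ≤ 1) :
    (1 - (((w false : ℂ) • f false)ᴴ * ((w false : ℂ) • f false) +
      ((w true : ℂ) • f true)ᴴ * ((w true : ℂ) • f true))).PosSemidef := by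
  set Y := ((w false : ℂ) • f false)ᴴ * ((w false : ℂ) • f false) +
      ((w true : ℂ) • f true)ᴴ * ((w true : ℂ) • f true) with hY
  have hYp : Y.PosSemidef :=
    (posSemidef_conjTranspose_mul_self _).add (posSemidef_conjTranspose_mul_self _)
  have htr : Y.trace.re ≤ 1 := by
    refine le_of_eq_of_le ?_ h
    rw [hY]
    simp [conjTranspose_smul, Matrix.smul_mul, Matrix.mul_smul, smul_smul, trace_add, trace_smul,
      pow_two]
  have h3 := (psd_trace_smul_one_sub hYp).add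
    (psd_smul_real (PosSemidef.one (n := R)) (c := 1 - Y.trace.re) (by linarith))
  convert h3 using 1
  rw [sub_add_eq_add_sub, ← add_smul, ← Complex.ofReal_add, add_sub_cancel, Complex.ofReal_one,
    one_smul]

/-- Normalised data from real rescalings of given Kraus operators. -/
lemma of_scalings {σ : Matrix (P × Q) (P × Q) ℂ} {k k' : ℕ} (a : Bool → Matrix (Fin k) P ℂ)
    (b : Bool → Matrix (Fin k') Q ℂ) (p : Bool → Bool → ℝ) (X : ℝ)
    (hp : ∀ x y, p x y = (((a x ⊗ₖ b y) * σ * (a x ⊗ₖ b y)ᴴ).trace).re)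
    (hX : X = traceNorm ((a false ⊗ₖ b false) * σ * (a true ⊗ₖ b true)ᴴ))
    (sc tc : Bool → ℝ) (hs : ∀ x, 0 ≤ sc x) (ht : ∀ x, 0 ≤ tc x) (pa e : ℝ)
    (hA : sc false ^ 2 * (((a false)ᴴ * a false).trace).re +
      sc true ^ 2 * (((a true)ᴴ * a true).trace).re ≤ 1)
    (hB : tc false ^ 2 * (((b false)ᴴ * b false).trace).re +
      tc true ^ 2 * (((b true)ᴴ * b true).trace).re ≤ 1)
    (hd : ∀ x, sc x ^ 2 * tc x ^ 2 * p x x ≤ pa)
    (ho : ∀ x, sc x ^ 2 * tc (!x) ^ 2 * p x (!x) ≤ e)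
    (he : 0 < e) (he1 : e < 1) (hepa : e < pa)
    (hlt : pa * e < (sc false * tc false * (sc true * tc true) * X) ^ 2) :
    Nonempty (Normalised σ) := by
  have h0 : 0 ≤ sc false * tc false * (sc true * tc true) :=
    mul_nonneg (mul_nonneg (hs _) (ht _)) (mul_nonneg (hs _) (ht _))
  refine ⟨⟨k, k', fun x => (sc x : ℂ) • a x, fun y => (tc y : ℂ) • b y,
    sc false * tc false * (sc true * tc true) * X, pa, e, subunital a sc hA, subunital b tc hB,
    ?_, mul_nonneg h0 (hX ▸ traceNorm_nonneg' _), ?_, ?_, he, he1, hepa, hlt⟩⟩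
  · rw [hX]; exact traceNorm_smul_le σ _ _ _ _ h0
  · intro x; rw [weight_smul, ← hp]; exact hd x
  · intro x; rw [weight_smul, ← hp]; exact ho x

/-- The scalar part of the normalisation. -/
lemma exists_scalings (p : Bool → Bool → ℝ) (hp : ∀ x y, 0 ≤ p x y) {X : ℝ} (NA NB : Bool → ℝ)
    (hNA : ∀ x, 0 ≤ NA x) (hNB : ∀ x, 0 ≤ NB x) (hle : X ^ 2 ≤ p false false * p true true)
    (h : √(p false false * p true true * (p false true * p true false)) < X ^ 2) :
    ∃ (sc tc : Bool → ℝ) (pa e : ℝ), (∀ x, 0 ≤ sc x) ∧ (∀ x, 0 ≤ tc x) ∧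
      sc false ^ 2 * NA false + sc true ^ 2 * NA true ≤ 1 ∧
      tc false ^ 2 * NB false + tc true ^ 2 * NB true ≤ 1 ∧
      (∀ x, sc x ^ 2 * tc x ^ 2 * p x x ≤ pa) ∧
      (∀ x, sc x ^ 2 * tc (!x) ^ 2 * p x (!x) ≤ e) ∧ 0 < e ∧ e < 1 ∧ e < pa ∧
      pa * e < (sc false * tc false * (sc true * tc true) * X) ^ 2 := by
  have hX2 : 0 < X ^ 2 := lt_of_le_of_lt (Real.sqrt_nonneg _) h
  have hpp : 0 < p false false * p true true := lt_of_lt_of_le hX2 hle
  have h00 : 0 < p false false := pos_of_mul_pos_left hpp (hp _ _)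
  have h11 : 0 < p true true := pos_of_mul_pos_right hpp (hp _ _)
  obtain ⟨η, hη, hlt⟩ : ∃ η : ℝ, 0 < η ∧ √(p false false * p true true *
      ((p false true + η) * (p true false + η))) < X ^ 2 := by
    have hcont : Continuous fun η : ℝ => √(p false false * p true true *
        ((p false true + η) * (p true false + η))) := by fun_prop
    have h0 : (fun η : ℝ => √(p false false * p true true *
        ((p false true + η) * (p true false + η)))) 0 < X ^ 2 := by simpa using h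
    obtain ⟨δ, hδ, hball⟩ := Metric.eventually_nhds_iff.mp
      (hcont.continuousAt.eventually_lt continuousAt_const h0)
    exact ⟨δ / 2, half_pos hδ,
      hball (by rw [Real.dist_eq, sub_zero, abs_of_pos (half_pos hδ)]; linarith)⟩
  have h01 := hp false true
  have h10 := hp true false
  obtain ⟨S, T, hS0, hT0, hST, hSu, h6, h7⟩ :=
    balance h00 h11 (u := p false true + η) (v := p true false + η) (by linarith) (by linarith)
      hlt hle
  set D : ℝ := 1 + (S * NA false + NA true) + (T * NB false + NB true) + S * (p false true + η)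
    with hD
  have a1 : 0 ≤ S * NA false + NA true := add_nonneg (mul_nonneg hS0.le (hNA _)) (hNA _)
  have b1 : 0 ≤ T * NB false + NB true := add_nonneg (mul_nonneg hT0.le (hNB _)) (hNB _)
  have u1 : 0 < S * (p false true + η) := mul_pos hS0 (by linarith)
  have hD1 : 1 < D := by rw [hD]; linarith
  set c : ℝ := D⁻¹
  have hc : 0 < c := inv_pos.mpr (by linarith)
  have hc1 : c ≤ 1 := inv_le_one_of_one_le₀ hD1.le
  have hcD : c * D = 1 := inv_mul_cancel₀ (by linarith)
  refine ⟨fun x => if x then √c else √(c * S), fun x => if x then √c else √(c * T),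
    c * c * p true true, c * c * (S * (p false true + η)),
    fun x => by cases x <;> simp, fun x => by cases x <;> simp,
    ?_, ?_, ?_, ?_, by positivity, ?_, ?_, ?_⟩
  · simp only [Bool.false_eq_true, if_false, if_true, Real.sq_sqrt hc.le,
      Real.sq_sqrt (mul_pos hc hS0).le]
    calc c * S * NA false + c * NA true = c * (S * NA false + NA true) := by ring
      _ ≤ c * D := mul_le_mul_of_nonneg_left (by rw [hD]; linarith) hc.le
      _ = 1 := hcD
  · simp only [Bool.false_eq_true, if_false, if_true, Real.sq_sqrt hc.le,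
      Real.sq_sqrt (mul_pos hc hT0).le]
    calc c * T * NB false + c * NB true = c * (T * NB false + NB true) := by ring
      _ ≤ c * D := mul_le_mul_of_nonneg_left (by rw [hD]; linarith) hc.le
      _ = 1 := hcD
  · intro x
    cases x <;> simp only [Bool.false_eq_true, if_false, if_true, Real.sq_sqrt hc.le,
      Real.sq_sqrt (mul_pos hc hS0).le, Real.sq_sqrt (mul_pos hc hT0).le]
    · refine le_of_eq ?_
      rw [show c * S * (c * T) * p false false = c * c * (S * T * p false false) by ring, hST,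
        div_mul_cancel₀ _ h00.ne']
    · exact le_refl _
  · intro x
    cases x <;> simp only [Bool.not_false, Bool.not_true, Bool.false_eq_true, if_false, if_true,
      Real.sq_sqrt hc.le, Real.sq_sqrt (mul_pos hc hS0).le, Real.sq_sqrt (mul_pos hc hT0).le]
    · calc c * S * c * p false true ≤ c * S * c * (p false true + η) :=
            mul_le_mul_of_nonneg_left (by linarith) (by positivity)
        _ = _ := by ring
    · calc c * (c * T) * p true false ≤ c * (c * T) * (p true false + η) :=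
            mul_le_mul_of_nonneg_left (by linarith) (by positivity)
        _ = _ := by rw [hSu]; ring
  · calc c * c * (S * (p false true + η)) = c * (c * (S * (p false true + η))) := by ring
      _ ≤ 1 * (c * (S * (p false true + η))) := mul_le_mul_of_nonneg_right hc1 (by positivity)
      _ < 1 := by
          rw [one_mul, ← hcD]
          exact mul_lt_mul_of_pos_left (by rw [hD]; linarith) hc
  · exact mul_lt_mul_of_pos_left h7 (by positivity)
  · simp only [Bool.false_eq_true, if_false, if_true]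
    rw [show (√(c * S) * √(c * T) * (√c * √c) * X) ^ 2
        = √(c * S) ^ 2 * √(c * T) ^ 2 * (√c ^ 2 * √c ^ 2) * X ^ 2 by ring,
      Real.sq_sqrt hc.le, Real.sq_sqrt (mul_pos hc hS0).le, Real.sq_sqrt (mul_pos hc hT0).le,
      show c * S * (c * T) * (c * c) * X ^ 2 = c ^ 4 * (S * T) * X ^ 2 by ring]
    calc c * c * p true true * (c * c * (S * (p false true + η)))
        = c ^ 4 * (S * T) * (p false false * (S * (p false true + η))) := by
          rw [hST]; field_simp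
      _ < c ^ 4 * (S * T) * X ^ 2 := mul_lt_mul_of_pos_left h6 (by positivity)

/-- A key witness can be balanced and scaled down. -/
theorem normalise {σ : Matrix (P × Q) (P × Q) ℂ} (hσ : σ.PosSemidef) (h : KeyWitness σ) :
    Nonempty (Normalised σ) := by
  obtain ⟨k, k', a, b, h⟩ := h
  dsimp only at h
  obtain ⟨sc, tc, pa, e, hs, ht, hA, hB, hd, ho, he, he1, hepa, hlt⟩ :=
    exists_scalings (fun x y => (((a x ⊗ₖ b y) * σ * (a x ⊗ₖ b y)ᴴ).trace).re)
      (fun x y => weight_nonneg hσ _ _) (X := traceNorm ((a false ⊗ₖ b false) * σ *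
        (a true ⊗ₖ b true)ᴴ)) (fun x => (((a x)ᴴ * a x).trace).re)
      (fun y => (((b y)ᴴ * b y).trace).re) (fun _ => hs_nonneg _) (fun _ => hs_nonneg _)
      (traceNorm_sq_le hσ _ _ _ _) h
  exact of_scalings a b _ _ (fun _ _ => rfl) rfl sc tc hs ht pa e hA hB hd ho he he1 hepa hlt

end

end Vale.Agent.P372.Key
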