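import Vale.Agent.P372.Key.Error

/-! Per-block bounds (P372). -/

namespace Vale.Agent.P372.Key

open Matrix Finset
open Vale.Agent.P372
open scoped Kronecker ComplexOrder

variable {P Q E : Type} [Fintype P] [Fintype Q] [Fintype E] [DecidableEq E]
  (ψ : Matrix (P × Q) E ℂ) {A : Fin 3 → Matrix P P ℂ} {B : Fin 3 → Matrix Q Q ℂ}

lemma blockOut_psd (hA : ∀ a, (A a).PosSemidef) (hB : ∀ b, (B b).PosSemidef) (a b : Fin 3) :
    (blockOut ψ A B a b).PosSemidef := eveState_psd ψ ((hA a).kronecker (hB b))

lemma flagOut_psd (hA : ∀ a, (A a).PosSemidef) (hB : ∀ b, (B b).PosSemidef) (φ : Bool × Bool)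
    (x' : Fin 3) : (flagOut ψ A B φ x').PosSemidef := by
  refine posSemidef_sum _ fun a _ => posSemidef_sum _ fun b _ => ?_
  split_ifs
  · simpa using blockOut_psd ψ hA hB a b
  · simp [PosSemidef.zero]

lemma flagOut_of_fail {φ : Bool × Bool} (hφ : φ ≠ (true, true)) :
    flagOut ψ A B φ 0 = 0 ∧ flagOut ψ A B φ 1 = 0 := by
  have h : ∀ a : Fin 3, ∀ φ : Bool × Bool, φ ≠ (true, true) → ∀ b : Fin 3,
      flag a = φ.1 → flag b = φ.2 → mask φ.2 a ≠ 0 ∧ mask φ.2 a ≠ 1 := by decide
  constructor <;>
  · refine sum_eq_zero fun a _ => sum_eq_zero fun b _ => ?_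
    rw [if_neg, zero_smul]
    rintro ⟨h1, h2, h3⟩
    have := h a φ hφ b h1 h2
    exact absurd h3 (by first | exact this.1 | exact this.2)

lemma flagOut_success :
    flagOut ψ A B (true, true) 0 = blockOut ψ A B 0 0 + blockOut ψ A B 0 1 ∧
    flagOut ψ A B (true, true) 1 = blockOut ψ A B 1 0 + blockOut ψ A B 1 1 ∧
    flagOut ψ A B (true, true) 2 = 0 := by
  simp [flagOut, Fin.sum_univ_three, flag, mask]

lemma sum_flagOut_trace : ∑ φ, ∑ x', ((flagOut ψ A B φ x').trace).re
    = ∑ a, ∑ b, ((blockOut ψ A B a b).trace).re := by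
  simp [flagOut, Fin.sum_univ_three, Fintype.sum_prod_type, flag, mask, trace_sum, trace_add]
  ring

/-- Weights for one block: the sum over flag patterns of the square roots of `mass * collision`
falls below `1` by the squared fidelity of Eve's two success states. -/
theorem exists_block_weights (hA : ∀ a, (A a).PosSemidef) (hB : ∀ b, (B b).PosSemidef)
    (h1 : ∑ a, ∑ b, ((blockOut ψ A B a b).trace).re = 1)
    {q : Type} [Fintype q] [DecidableEq q] (V : Bool → Matrix q E ℂ)
    (hV0 : (V false)ᴴ * V false = blockOut ψ A B 0 0)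
    (hV1 : (V true)ᴴ * V true = blockOut ψ A B 1 1)
    {U : Matrix q q ℂ} (hU : Contr U) {η : ℝ} (hη : 0 < η) :
    ∃ w : Bool × Bool → Weight E, ∑ φ, √((w φ).mass * ∑ x', (w φ).coll (flagOut ψ A B φ x'))
      ≤ 1 + 8 * η * Fintype.card E - ‖(U * (V false * (V true)ᴴ)).trace‖ ^ 2 /
          (6 * (((blockOut ψ A B 0 0).trace).re + ((blockOut ψ A B 0 1).trace).re
            + ((blockOut ψ A B 1 0).trace).re + ((blockOut ψ A B 1 1).trace).re
            + 2 * η * Fintype.card E)) := by
  obtain ⟨e0, e1, e2⟩ := flagOut_success ψ (A := A) (B := B)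
  have hfail : ∀ φ : Bool × Bool, ∃ w : Weight E,
      φ ≠ (true, true) → √(w.mass * ∑ x', w.coll (flagOut ψ A B φ x'))
        ≤ ∑ x', ((flagOut ψ A B φ x').trace).re + 2 * η * Fintype.card E := by
    intro φ
    obtain ⟨w, hm, hc⟩ := exists_weight_collision
      (fun x : Bool => if x then (0 : Matrix E E ℂ) else flagOut ψ A B φ 2)
      (fun x => by cases x <;> simp [PosSemidef.zero, flagOut_psd ψ hA hB])
      (fun _ => (0 : Matrix q E ℂ))
      (fun x => by cases x <;> simp [PosSemidef.zero, flagOut_psd ψ hA hB]) hU hη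
    refine ⟨w, fun hφ => ?_⟩
    obtain ⟨f0, f1⟩ := flagOut_of_fail ψ (A := A) (B := B) hφ
    simp only [Fin.sum_univ_three, f0, f1, trace_zero, Complex.zero_re, zero_add]
    simp only [if_true, Bool.false_eq_true, if_false, Matrix.zero_mul, Matrix.mul_zero,
      trace_zero, norm_zero, add_zero, zero_div, sub_zero, ne_eq, OfNat.ofNat_ne_zero,
      not_false_eq_true, zero_pow] at hm hc
    have hz : w.coll (0 : Matrix E E ℂ) = 0 := by simp [Weight.coll, hs]
    rw [hz, add_zero] at hc
    rw [hz, zero_add, zero_add, ← hm]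
    refine (Real.sqrt_le_sqrt (mul_le_mul_of_nonneg_left hc (hs_nonneg _))).trans (le_of_eq ?_)
    exact Real.sqrt_mul_self (hs_nonneg _)
  choose wf hwf using hfail
  obtain ⟨ws, hsm, hsc⟩ := exists_weight_collision
    (fun x : Bool => if x then flagOut ψ A B (true, true) 1 else flagOut ψ A B (true, true) 0)
    (fun x => by cases x <;> simp [flagOut_psd ψ hA hB]) V
    (fun x => by
      cases x
      · simp only [Bool.false_eq_true, if_false, e0, hV0, add_sub_cancel_left]
        exact blockOut_psd ψ hA hB 0 1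
      · simp only [if_true, e1, hV1, add_sub_cancel_right]
        exact blockOut_psd ψ hA hB 1 0) hU hη
  refine ⟨fun φ => if φ = (true, true) then ws else wf φ, ?_⟩
  have hD : (0 : ℝ) ≤ η * Fintype.card E := by positivity
  set F := ‖(U * (V false * (V true)ᴴ)).trace‖ ^ 2
  have hF : 0 ≤ F := sq_nonneg _
  simp only [if_true, Bool.false_eq_true, if_false, e0, e1, trace_add, Complex.add_re] at hsm hsc
  have hs0 : √(ws.mass * ∑ x', ws.coll (flagOut ψ A B (true, true) x'))
      ≤ ws.mass - F / (6 * ws.mass) := by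
    have hz : ws.coll (0 : Matrix E E ℂ) = 0 := by simp [Weight.coll, hs]
    rw [Fin.sum_univ_three, e0, e1, e2, hz, add_zero]
    set c := ws.coll (blockOut ψ A B 0 0 + blockOut ψ A B 0 1) +
      ws.coll (blockOut ψ A B 1 0 + blockOut ψ A B 1 1)
    have hc0 : 0 ≤ c := add_nonneg (hs_nonneg _) (hs_nonneg _)
    have hm0 : 0 ≤ ws.mass := hs_nonneg _
    rcases hm0.eq_or_lt with hm | hm
    · simp [← hm]
    · have h3 : F / (3 * ws.mass) = 2 * (F / (6 * ws.mass)) := by field_simp; ring
      have : 0 ≤ ws.mass - F / (6 * ws.mass) := by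
        have : 0 ≤ F / (6 * ws.mass) := by positivity
        linarith
      rw [Real.sqrt_le_left this]
      nlinarith [mul_le_mul_of_nonneg_left hsc hm.le, sq_nonneg (F / (6 * ws.mass))]
  have htot := sum_flagOut_trace ψ (A := A) (B := B)
  rw [h1, Fintype.sum_prod_type] at htot
  simp only [Fintype.sum_bool] at htot
  rw [Fintype.sum_prod_type]
  simp only [Fintype.sum_bool]
  have a1 := hwf (true, false) (by decide)
  have a2 := hwf (false, true) (by decide)
  have a3 := hwf (false, false) (by decide)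
  simp only [Prod.mk.injEq, Bool.false_eq_true, and_false, false_and, and_self, if_true, if_false]
  have hst : ∑ x', ((flagOut ψ A B (true, true) x').trace).re
      = ws.mass - 2 * η * Fintype.card E := by
    rw [Fin.sum_univ_three, e0, e1, e2, hsm]
    simp only [trace_add, Complex.add_re, trace_zero, Complex.zero_re]
    ring
  have hms : ws.mass = ((blockOut ψ A B 0 0).trace).re + ((blockOut ψ A B 0 1).trace).re
      + ((blockOut ψ A B 1 0).trace).re + ((blockOut ψ A B 1 1).trace).re
      + 2 * η * Fintype.card E := by rw [hsm]; ring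
  rw [← hms]
  linarith

end Vale.Agent.P372.Key
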