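import Vale.Agent.P372.Key.Secure

/-! Trace-norm error of the block protocol (P372). -/

namespace Vale.Agent.P372.Key

open Matrix Finset
open Vale.Agent.P372
open scoped Kronecker ComplexOrder

variable {ι : Type} [Fintype ι] [DecidableEq ι] {P Q E : ι → Type} [∀ i, Fintype (P i)]
  [∀ i, DecidableEq (P i)] [∀ i, Fintype (Q i)] [∀ i, DecidableEq (Q i)] [∀ i, Fintype (E i)]
  [∀ i, DecidableEq (E i)]

/-- Tensor product of weights. -/
def Weight.pi {Z : ι → Type} [∀ i, Fintype (Z i)] [∀ i, DecidableEq (Z i)]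
    (w : ∀ i, Weight (Z i)) : Weight (∀ i, Z i) where
  S := piMat fun i => (w i).S
  T := piMat fun i => (w i).T
  hS := piMat_herm fun i => (w i).hS
  hT := piMat_herm fun i => (w i).hT
  hST := by rw [piMat_mul]; simp [(w _).hST, piMat_one]

lemma Weight.pi_mass {Z : ι → Type} [∀ i, Fintype (Z i)] [∀ i, DecidableEq (Z i)]
    (w : ∀ i, Weight (Z i)) : (Weight.pi w).mass = ∏ i, (w i).mass := by
  rw [Weight.mass]
  simp only [Weight.pi, piMat_mul, hs_piMat]
  rfl

lemma Weight.pi_coll {Z : ι → Type} [∀ i, Fintype (Z i)] [∀ i, DecidableEq (Z i)]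
    (w : ∀ i, Weight (Z i)) (M : ∀ i, Matrix (Z i) (Z i) ℂ) :
    (Weight.pi w).coll (piMat M) = ∏ i, (w i).coll (M i) := by
  rw [Weight.coll]
  simp only [Weight.pi, piMat_mul, hs_piMat]
  rfl

variable {ψ : ∀ i, Matrix (P i × Q i) (E i) ℂ} {A : ∀ i, Fin 3 → Matrix (P i) (P i) ℂ}
  {B : ∀ i, Fin 3 → Matrix (Q i) (Q i) ℂ}

/-- The averaged decoding failure. -/
lemma failure_le {l r k : ℕ} {s : ℝ} (hs : 0 < s) (hs1 : s ≤ 1)
    (hA : ∀ i a, (A i a).PosSemidef) (hB : ∀ i a, (B i a).PosSemidef)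
    (hA1 : ∀ i, ∑ a, A i a = 1) (hB1 : ∀ i, ∑ a, B i a = 1)
    (hψ : ∀ i, (ψ i * (ψ i)ᴴ).trace = 1) :
    ∑ x, ∑ y, ((strOut ψ A B x y).trace).re * ((Fintype.card (Fam ι l r) : ℝ)⁻¹ *
      ∑ h : Fam ι l r, if decode k (flags x, flags y, (h, (h (maskStr (flags y) x)).2), ()) y
        = (h (maskStr (flags y) x)).1 then (0 : ℝ) else 1)
      ≤ (∏ i, (1 + badProb (ψ i) (A i) (B i))) / 2 ^ k
        + (1 + s) ^ Fintype.card ι / (s ^ k * 2 ^ r) := by
  set p : (ι → Fin 3) → (ι → Fin 3) → ℝ := fun x y => ((strOut ψ A B x y).trace).re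
  have hp : ∀ x y, 0 ≤ p x y := fun x y =>
    (Complex.le_def.mp (strOut_psd (ψ := ψ) hA hB x y).trace_nonneg).1
  have hp1 : ∑ x, ∑ y, p x y = 1 := by
    have h := congrArg Complex.re (sum_prob (ψ := ψ) hA1 hB1 hψ)
    simpa [Complex.re_sum] using h
  have hH : (0 : ℝ) < Fintype.card (Fam ι l r) := by exact_mod_cast Fintype.card_pos
  have havg : ∀ x y : ι → Fin 3, (Fintype.card (Fam ι l r) : ℝ)⁻¹ *
      (∑ h : Fam ι l r, if decode k (flags x, flags y, (h, (h (maskStr (flags y) x)).2), ()) y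
        = (h (maskStr (flags y) x)).1 then (0 : ℝ) else 1)
      ≤ 2 ^ errs x y / 2 ^ k + (1 + s) ^ Fintype.card ι / (s ^ k * 2 ^ r) := by
    intro x y
    rw [inv_mul_le_iff₀ hH]
    refine (sum_le_sum fun h _ => fail_le hs hs1 h x y).trans ?_
    rw [sum_add_distrib, sum_const, card_univ, nsmul_eq_mul, mul_add]
    refine add_le_add le_rfl ?_
    rw [sum_comm]
    set g : (ι → Fin 3) → ℝ := fun x' =>
      if ∀ i, flag (x' i) = (flags x i && flags y i) then s ^ errs x' y else 0
    have hg : ∀ x', 0 ≤ g x' := fun x' => by unfold g; split_ifs <;> positivity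
    calc _ ≤ ∑ x' : ι → Fin 3, (Fintype.card (Fam ι l r) : ℝ) / 2 ^ r * (g x' / s ^ k) := by
          refine sum_le_sum fun x' _ => ?_
          rw [← sum_mul]
          refine mul_le_mul_of_nonneg_right ?_ (div_nonneg (hg x') (by positivity))
          by_cases hx : x' = maskStr (flags y) x
          · simp [hx]; positivity
          · simp only [ne_eq, hx, not_false_eq_true, true_and]
            exact (card_syn_collide hx).le
      _ = (Fintype.card (Fam ι l r) : ℝ) / 2 ^ r * ((∑ x', g x') / s ^ k) := by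
          rw [← mul_sum, ← sum_div]
      _ ≤ (Fintype.card (Fam ι l r) : ℝ) / 2 ^ r * ((1 + s) ^ Fintype.card ι / s ^ k) :=
          mul_le_mul_of_nonneg_left
            (div_le_div_of_nonneg_right (sum_pattern_le hs.le x y) (by positivity)) (by positivity)
      _ = _ := by field_simp
  refine (sum_le_sum fun x _ => sum_le_sum fun y _ =>
    mul_le_mul_of_nonneg_left (havg x y) (hp x y)).trans (le_of_eq ?_)
  simp only [mul_add, sum_add_distrib]
  congr 1
  · simp only [mul_div_assoc', ← sum_div, pow_errs]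
    congr 1
    have e : ∀ x y, p x y * ∏ i, (if badPair (x i) (y i) then (2 : ℝ) else 1)
        = ∏ i, ((blockOut (ψ i) (A i) (B i) (x i) (y i)).trace).re *
            (if badPair (x i) (y i) then 2 else 1) := by
      intro x y
      show ((strOut ψ A B x y).trace).re * _ = _
      rw [strOut_eq, trace_piMat, prod_mul_distrib]
      congr 1
      have hb : ∀ i, (blockOut (ψ i) (A i) (B i) (x i) (y i)).trace
          = (((blockOut (ψ i) (A i) (B i) (x i) (y i)).trace).re : ℂ) := fun i =>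
        trace_ofReal (eveState_psd _ ((hA i (x i)).kronecker (hB i (y i))))
      rw [prod_congr rfl fun i _ => hb i, ← Complex.ofReal_prod, Complex.ofReal_re]
    simp only [e]
    have e2 : ∀ x : ι → Fin 3, ∑ y : ι → Fin 3, ∏ i,
        ((blockOut (ψ i) (A i) (B i) (x i) (y i)).trace).re * (if badPair (x i) (y i) then 2 else 1)
        = ∏ i, ∑ b, ((blockOut (ψ i) (A i) (B i) (x i) b).trace).re *
            (if badPair (x i) b then (2 : ℝ) else 1) := fun x =>
      (Fintype.prod_sum fun i b => ((blockOut (ψ i) (A i) (B i) (x i) b).trace).re *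
        (if badPair (x i) b then (2 : ℝ) else 1)).symm
    simp only [e2]
    rw [← Fintype.prod_sum (fun i a => ∑ b, ((blockOut (ψ i) (A i) (B i) a b).trace).re *
            (if badPair a b then (2 : ℝ) else 1))]
    refine prod_congr rfl fun i _ => ?_
    have h1 : ∑ a, ∑ b, ((blockOut (ψ i) (A i) (B i) a b).trace).re = 1 := by
      have := congrArg Complex.re
        (sum_prob (ι := Unit) (ψ := fun _ => ψ i) (A := fun _ => A i) (B := fun _ => B i)
          (fun _ => hA1 i) (fun _ => hB1 i) (fun _ => hψ i))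
      simp only [Complex.re_sum, strOut_eq, trace_piMat, univ_unique, prod_singleton,
        Complex.one_re] at this
      rw [← this]
      refine Fintype.sum_equiv (Equiv.funUnique Unit (Fin 3)).symm _ _ fun a => ?_
      exact Fintype.sum_equiv (Equiv.funUnique Unit (Fin 3)).symm _ _ fun b => rfl
    rw [badProb]
    conv_rhs => lhs; rw [← h1]
    rw [← sum_add_distrib]
    refine sum_congr rfl fun a _ => ?_
    rw [← sum_add_distrib]
    exact sum_congr rfl fun b _ => by split_ifs <;> ring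
  · simp only [← sum_mul]
    rw [hp1, one_mul]

lemma eve_blockEff {l r k : ℕ} (t : Tr ι l r) (ka kb : KeyVal l) :
    eveState (pairMat ψ) (blockEff l r k A B t ka kb)
      = ∑ x, ∑ y, (if flags x = t.1 ∧ flags y = t.2.1 ∧
          t.2.2.1.1 (maskStr t.2.1 x) = (ka, t.2.2.1.2) ∧ decode k t y = kb
        then (((Fintype.card (Fam ι l r) : ℝ)⁻¹ : ℝ) : ℂ) else 0) • strOut ψ A B x y := by
  simp only [blockEff, eveState_sum, eveState_smul]
  rfl

/-- The part of the final state where Bob decodes correctly, minus the ideal state. -/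
lemma eve_diag_sub_ideal {l r k : ℕ} (t : Tr ι l r) (ka : KeyVal l) :
    (∑ kb, eveState (pairMat ψ) (blockEff l r k A B t ka kb)) -
      ((2 : ℂ) ^ l)⁻¹ • ((((Fintype.card (Fam ι l r) : ℝ)⁻¹ * (2 ^ r : ℝ)⁻¹ : ℝ) : ℂ) •
        flagTot ψ A B t.1 t.2.1)
      = (((Fintype.card (Fam ι l r) : ℝ)⁻¹ : ℝ) : ℂ) • ∑ x' : ι → Fin 3,
          (((if t.2.2.1.1 x' = (ka, t.2.2.1.2) then 1 else 0) -
            (Fintype.card (KeyVal l × Syn r) : ℝ)⁻¹ : ℝ) : ℂ) •
            piMat (fun i => flagOut (ψ i) (A i) (B i) (t.1 i, t.2.1 i) (x' i)) := by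
  simp only [Complex.ofReal_sub, sub_smul, sum_sub_distrib, smul_sub]
  congr 1
  · simp only [eve_blockEff, piMat_flagOut, smul_sum, smul_smul]
    conv_lhs => rw [sum_comm]; enter [2, x]; rw [sum_comm]
    conv_rhs => rw [sum_comm]; enter [2, x]; rw [sum_comm]
    refine sum_congr rfl fun x _ => sum_congr rfl fun y _ => ?_
    rw [← sum_smul, ← sum_smul]
    congr 1
    by_cases h1 : flags x = t.1 <;> by_cases h2 : flags y = t.2.1 <;> simp [h1, h2, ite_and]
    split_ifs <;> simp
  · rw [← smul_sum, flagTot, smul_smul, smul_smul]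
    congr 1
    simp only [Fintype.card_prod, Fintype.card_fun, Fintype.card_bool, Fintype.card_fin]
    push_cast
    rw [mul_inv]
    ring

end Vale.Agent.P372.Key
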