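import Vale.Agent.P372.Key.Rate

/-! A positive key rate needs a key witness on some number of copies (P372). -/

namespace Vale.Agent.P372.Key

open Matrix Finset
open Vale.Agent.P372
open scoped Kronecker ComplexOrder

lemma sum_kronecker_left {X Y R : Type*} (s : Finset R) (f : R → Matrix X X ℂ)
    (N : Matrix Y Y ℂ) : ∑ r ∈ s, f r ⊗ₖ N = (∑ r ∈ s, f r) ⊗ₖ N := by
  ext p q; simp [kroneckerMap_apply, Matrix.sum_apply, sum_mul]

lemma sum_kronecker_right {X Y R : Type*} (s : Finset R) (M : Matrix X X ℂ)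
    (f : R → Matrix Y Y ℂ) : ∑ r ∈ s, M ⊗ₖ f r = M ⊗ₖ (∑ r ∈ s, f r) := by
  ext p q; simp [kroneckerMap_apply, Matrix.sum_apply, mul_sum]

/-- In every protocol the effects of each transcript are products. -/
theorem LOPC.product {l : ℕ} {X Y T : Type}
    {Eff : T → KeyVal l → KeyVal l → Matrix (X × Y) (X × Y) ℂ} (h : LOPC l X Y T Eff) (t : T) :
    ∃ (M : KeyVal l → Matrix X X ℂ) (N : KeyVal l → Matrix Y Y ℂ),
      (∀ k, (M k).PosSemidef) ∧ (∀ k, (N k).PosSemidef) ∧ ∀ ka kb, Eff t ka kb = M ka ⊗ₖ N kb := by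
  induction h with
  | measure M N hM hN hM1 hN1 => exact ⟨M, N, hM, hN, fun _ _ => rfl⟩
  | @alice X X' Y T Msg R _ _ _ _ _ _ _ _ _ K hK Eff h ih =>
    obtain ⟨M, N, hM, hN, e⟩ := ih t.1 t.2
    refine ⟨fun ka => ∑ r, (K t.1 r)ᴴ * M ka * K t.1 r, N,
      fun k => posSemidef_sum _ fun r _ => (hM k).conjTranspose_mul_mul_same _, hN, fun ka kb => ?_⟩
    simp only [e, sum_sandwich_left]
  | @bob X Y Y' T Msg R _ _ _ _ _ _ _ _ _ K hK Eff h ih =>
    obtain ⟨M, N, hM, hN, e⟩ := ih t.1 t.2
    refine ⟨M, fun kb => ∑ r, (K t.1 r)ᴴ * N kb * K t.1 r, hM,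
      fun k => posSemidef_sum _ fun r _ => (hN k).conjTranspose_mul_mul_same _, fun ka kb => ?_⟩
    simp only [e, sum_sandwich_right]

variable {n q : Type*} [Fintype n] [DecidableEq n] [Fintype q]

/-- Polar factors. -/
lemma exists_polar [DecidableEq q] (V : Matrix q n ℂ) :
    ∃ (C : Matrix q n ℂ) (R : Matrix n n ℂ),
      Contr C ∧ R.PosSemidef ∧ Cᴴ * V = R ∧ R * R = Vᴴ * V := by
  set hH := Matrix.isHermitian_conjTranspose_mul_self V
  set U : Matrix n n ℂ := (hH.eigenvectorUnitary : Matrix n n ℂ)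
  have hUU : U * Uᴴ = 1 := Unitary.coe_mul_star_self hH.eigenvectorUnitary
  have hUU' : Uᴴ * U = 1 := Unitary.coe_star_mul_self hH.eigenvectorUnitary
  set lam := hH.eigenvalues
  have hs : Vᴴ * V = U * diagonal (fun k => (lam k : ℂ)) * Uᴴ := by
    simpa [Unitary.conjStarAlgAut_apply, star_eq_conjTranspose, Function.comp_def] using
      hH.spectral_theorem
  have hnn : ∀ k, 0 ≤ lam k :=
    fun k => (posSemidef_conjTranspose_mul_self V).eigenvalues_nonneg k
  set D : Matrix n n ℂ := diagonal (fun k => (((√(lam k))⁻¹ : ℝ) : ℂ)) with hD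
  have hDs : Dᴴ = D := by rw [hD, diagonal_conjTranspose]; congr 1; ext k; simp
  have conj2 : ∀ A B : Matrix n n ℂ, U * A * Uᴴ * (U * B * Uᴴ) = U * (A * B) * Uᴴ := fun A B => by
    calc U * A * Uᴴ * (U * B * Uᴴ) = U * A * (Uᴴ * U) * B * Uᴴ := by simp only [Matrix.mul_assoc]
      _ = _ := by rw [hUU', Matrix.mul_one]; simp only [Matrix.mul_assoc]
  set S : Matrix n n ℂ := U * D * Uᴴ with hS
  have hSs : Sᴴ = S := by
    rw [hS]; simp only [conjTranspose_mul, conjTranspose_conjTranspose, hDs, Matrix.mul_assoc]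
  refine ⟨V * S, U * diagonal (fun k => ((√(lam k) : ℝ) : ℂ)) * Uᴴ, ?_,
    (PosSemidef.diagonal fun k => by simp [Real.sqrt_nonneg]).mul_mul_conjTranspose_same U, ?_, ?_⟩
  · unfold Contr
    have e : (V * S)ᴴ * (V * S) = U * (D * diagonal (fun k => (lam k : ℂ)) * D) * Uᴴ := by
      calc (V * S)ᴴ * (V * S) = Sᴴ * (Vᴴ * V) * S := by
            rw [conjTranspose_mul]; simp only [Matrix.mul_assoc]
        _ = _ := by rw [hSs, hs, hS, conj2, conj2]
    rw [e, ← hUU]
    nth_rewrite 1 [show U * Uᴴ = U * 1 * Uᴴ by rw [Matrix.mul_one]]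
    rw [← Matrix.sub_mul, ← Matrix.mul_sub]
    refine PosSemidef.mul_mul_conjTranspose_same ?_ U
    rw [hD, diagonal_mul_diagonal, diagonal_mul_diagonal, ← diagonal_one, diagonal_sub]
    refine PosSemidef.diagonal fun k => ?_
    simp only [Pi.zero_apply]
    rw [← Complex.ofReal_mul, ← Complex.ofReal_mul, ← Complex.ofReal_one, ← Complex.ofReal_sub,
      Complex.zero_le_real]
    rcases (hnn k).eq_or_lt with h0 | h0
    · simp [← h0]
    · have hk : 0 < √(lam k) := Real.sqrt_pos.mpr h0
      have : (√(lam k))⁻¹ * lam k * (√(lam k))⁻¹ = 1 := by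
        field_simp
        exact (Real.sq_sqrt h0.le).symm
      linarith
  · calc (V * S)ᴴ * V = Sᴴ * (Vᴴ * V) := by rw [conjTranspose_mul, Matrix.mul_assoc]
      _ = _ := by
        rw [hSs, hs, hS, conj2, hD, diagonal_mul_diagonal]
        congr 3
        ext k
        rw [← Complex.ofReal_mul, inv_mul_eq_div, Real.div_sqrt]
  · rw [hs, conj2, diagonal_mul_diagonal]
    congr 3
    ext k
    rw [← Complex.ofReal_mul, Real.mul_self_sqrt (hnn k)]

/-- Powers-Størmer in the basis where the difference is diagonal. -/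
lemma sign_test_diag {A B : Matrix n n ℂ} (hA : A.PosSemidef) (hB : B.PosSemidef) (d : n → ℝ)
    (hsub : A - B = diagonal (fun k => (d k : ℂ))) :
    ∑ k, d k ^ 2 ≤
      ((diagonal (fun k => if 0 ≤ d k then (1 : ℂ) else -1) * (A * A - B * B)).trace).re := by
  have e3 : A * A - B * B = diagonal (fun k => (d k : ℂ)) * A + B * diagonal (fun k => (d k : ℂ)) := by
    rw [← hsub, Matrix.sub_mul, Matrix.mul_sub]; abel
  rw [e3, Matrix.trace, Complex.re_sum]
  refine sum_le_sum fun k _ => ?_
  rw [diag_apply, diagonal_mul, Matrix.add_apply, diagonal_mul, mul_diagonal]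
  have ha := (Complex.le_def.mp (hA.diag_nonneg (i := k))).1
  have hb := (Complex.le_def.mp (hB.diag_nonneg (i := k))).1
  have hab := congrArg Complex.re (congrFun (congrFun hsub k) k)
  simp only [Matrix.sub_apply, diagonal_apply_eq, Complex.sub_re, Complex.ofReal_re] at hab
  simp only [Complex.zero_re] at ha hb
  by_cases hk : 0 ≤ d k
  · rw [if_pos hk]
    simp only [one_mul, Complex.add_re, Complex.mul_re, Complex.ofReal_re, Complex.ofReal_im,
      zero_mul, mul_zero, sub_zero]
    nlinarith [mul_nonneg hk hb]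
  · rw [if_neg hk]
    push Not at hk
    simp only [neg_mul, one_mul, Complex.neg_re, Complex.add_re, Complex.mul_re, Complex.ofReal_re,
      Complex.ofReal_im, zero_mul, mul_zero, sub_zero]
    nlinarith [mul_nonneg (neg_nonneg.mpr hk.le) ha]

/-- Powers-Størmer after a change of basis. -/
lemma sign_test_basis {R0 R1 : Matrix n n ℂ} (h0 : R0.PosSemidef) (h1 : R1.PosSemidef)
    (U : Matrix n n ℂ) (hUU : U * Uᴴ = 1) (hUU' : Uᴴ * U = 1) (d : n → ℝ)
    (hD : Uᴴ * (R0 - R1) * U = diagonal (fun k => (d k : ℂ))) :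
    ∃ S : Matrix n n ℂ, Contr S ∧ Contr (-S) ∧
      ∑ k, d k ^ 2 ≤ ((S * (R0 * R0 - R1 * R1)).trace).re := by
  set G : Matrix n n ℂ := diagonal (fun k => if 0 ≤ d k then (1 : ℂ) else -1) with hG
  have hGs : Gᴴ = G := by
    rw [hG, diagonal_conjTranspose]; congr 1; ext k
    simp only [Pi.star_apply]; split_ifs <;> simp
  have hGG : G * G = 1 := by
    rw [hG, diagonal_mul_diagonal, ← diagonal_one]; congr 1; ext k; split_ifs <;> simp
  have hSS : (U * G * Uᴴ)ᴴ * (U * G * Uᴴ) = 1 := by
    calc (U * G * Uᴴ)ᴴ * (U * G * Uᴴ) = U * G * (Uᴴ * U) * G * Uᴴ := by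
          simp only [conjTranspose_mul, conjTranspose_conjTranspose, hGs, Matrix.mul_assoc]
      _ = U * (G * G) * Uᴴ := by rw [hUU', Matrix.mul_one]; simp only [Matrix.mul_assoc]
      _ = 1 := by rw [hGG, Matrix.mul_one, hUU]
  refine ⟨U * G * Uᴴ, contr_of_unitary hSS,
    contr_of_unitary (by rw [conjTranspose_neg, Matrix.neg_mul, Matrix.mul_neg, neg_neg, hSS]), ?_⟩
  have hsub : Uᴴ * R0 * U - Uᴴ * R1 * U = diagonal (fun k => (d k : ℂ)) := by
    rw [← hD, Matrix.mul_sub, Matrix.sub_mul]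
  refine (sign_test_diag (h0.conjTranspose_mul_mul_same U) (h1.conjTranspose_mul_mul_same U) d
    hsub).trans_eq ?_
  rw [← hG]
  congr 1
  have e : ∀ R : Matrix n n ℂ, Uᴴ * R * U * (Uᴴ * R * U) = Uᴴ * (R * R) * U := fun R => by
    calc Uᴴ * R * U * (Uᴴ * R * U) = Uᴴ * R * (U * Uᴴ) * R * U := by simp only [Matrix.mul_assoc]
      _ = _ := by rw [hUU, Matrix.mul_one]; simp only [Matrix.mul_assoc]
  rw [e, e, ← Matrix.sub_mul, ← Matrix.mul_sub]
  calc (G * (Uᴴ * (R0 * R0 - R1 * R1) * U)).trace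
      = (G * Uᴴ * (R0 * R0 - R1 * R1) * U).trace := by simp only [Matrix.mul_assoc]
    _ = (U * (G * Uᴴ * (R0 * R0 - R1 * R1))).trace := Matrix.trace_mul_comm _ _
    _ = _ := by simp only [Matrix.mul_assoc]

/-- Powers-Størmer, through a test operator. -/
lemma exists_sign_test {R0 R1 : Matrix n n ℂ} (h0 : R0.PosSemidef) (h1 : R1.PosSemidef) :
    ∃ S : Matrix n n ℂ, Contr S ∧ Contr (-S) ∧
      hs (R0 - R1) ≤ ((S * (R0 * R0 - R1 * R1)).trace).re := by
  have hH : (R0 - R1).IsHermitian := h0.1.sub h1.1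
  have e2 : hs (R0 - R1) = ∑ k, hH.eigenvalues k ^ 2 := by
    rw [hs_herm hH, trace_mul_self_eq_sum hH, Complex.ofReal_re]
  rw [e2]
  refine sign_test_basis h0 h1 (hH.eigenvectorUnitary : Matrix n n ℂ)
    (Unitary.coe_mul_star_self hH.eigenvectorUnitary)
    (Unitary.coe_star_mul_self hH.eigenvectorUnitary) hH.eigenvalues ?_
  have h := hH.conjStarAlgAut_star_eigenvectorUnitary
  rw [Unitary.conjStarAlgAut_apply] at h
  simpa [Matrix.mul_assoc, star_eq_conjTranspose, Function.comp_def] using h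

/-- Per transcript: fidelity `X` of Eve's two agreeing states bounds their distance from above. -/
lemma exists_test_fidelity [DecidableEq q] (V0 V1 : Matrix q n ℂ) :
    ∃ (S : Matrix n n ℂ) (W : Matrix q q ℂ), Contr S ∧ Contr (-S) ∧ Contr W ∧
      ((V0ᴴ * V0).trace).re + ((V1ᴴ * V1).trace).re - 2 * ((W * (V0 * V1ᴴ)).trace).re
        ≤ ((S * (V0ᴴ * V0 - V1ᴴ * V1)).trace).re := by
  obtain ⟨C0, R0, hC0, hR0, e0, f0⟩ := exists_polar V0
  obtain ⟨C1, R1, hC1, hR1, e1, f1⟩ := exists_polar V1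
  obtain ⟨S, hS, hS', hle⟩ := exists_sign_test hR0 hR1
  refine ⟨S, C1 * C0ᴴ, hS, hS', contr_mul hC1 (contr_conjTranspose hC0), ?_⟩
  rw [← f0, ← f1]
  refine le_of_eq_of_le ?_ hle
  have e : (C1 * C0ᴴ * (V0 * V1ᴴ)).trace = (R0 * R1).trace := by
    have h1 : R1 = V1ᴴ * C1 := by
      rw [← hR1.1.eq, ← e1, conjTranspose_mul, conjTranspose_conjTranspose]
    calc (C1 * C0ᴴ * (V0 * V1ᴴ)).trace = (C1 * ((C0ᴴ * V0) * V1ᴴ)).trace := by
          simp only [Matrix.mul_assoc]
      _ = ((C0ᴴ * V0) * V1ᴴ * C1).trace := Matrix.trace_mul_comm _ _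
      _ = _ := by rw [e0, Matrix.mul_assoc, ← h1]
  rw [e, hs_herm (hR0.1.sub hR1.1)]
  simp only [Matrix.sub_mul, Matrix.mul_sub, trace_sub, Complex.sub_re]
  rw [Matrix.trace_mul_comm R1 R0]
  ring

/-- Re-trace against a classical-quantum contraction. -/
lemma blockDiag_test {C : Type*} [Fintype C] [DecidableEq C] (X : Matrix (C × n) (C × n) ℂ)
    (W : C → Matrix n n ℂ) (hW : ∀ c, Contr (W c)) :
    ∑ c, ((W c * X.submatrix (fun i => (c, i)) (fun i => (c, i))).trace).re ≤ traceNorm X := by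
  set M : Matrix (C × n) (C × n) ℂ := (blockDiagonal W).submatrix Prod.swap Prod.swap with hM
  have hc : Contr M := by
    unfold Contr at hW ⊢
    choose L hL using fun c => psd_factor (hW c)
    have e : 1 - Mᴴ * M = ((blockDiagonal L)ᴴ * blockDiagonal L).submatrix Prod.swap Prod.swap := by
      have h1 : Mᴴ * M = (blockDiagonal fun c => (W c)ᴴ * W c).submatrix Prod.swap Prod.swap := by
        rw [hM, conjTranspose_submatrix, blockDiagonal_conjTranspose, blockDiagonal_mul]
        exact submatrix_mul_equiv _ _ _ (Equiv.prodComm C n) _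
      rw [h1, blockDiagonal_conjTranspose, ← blockDiagonal_mul,
        show (1 : Matrix (C × n) (C × n) ℂ)
          = (blockDiagonal fun _ : C => (1 : Matrix n n ℂ)).submatrix Prod.swap Prod.swap by
          rw [show (fun _ : C => (1 : Matrix n n ℂ)) = 1 from rfl, blockDiagonal_one]
          exact (submatrix_one_equiv (Equiv.prodComm C n)).symm]
      ext p r
      simp only [Matrix.sub_apply, submatrix_apply, blockDiagonal_apply, ← hL]
      split_ifs <;> simp
    rw [e]
    exact (posSemidef_conjTranspose_mul_self _).submatrix _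
  refine le_of_eq_of_le ?_ (re_trace_le_traceNorm hc X)
  rw [← Complex.re_sum]
  congr 1
  simp [hM, Matrix.trace, Matrix.mul_apply, Fintype.sum_prod_type, blockDiagonal_apply]

/-- One transcript: without a key witness Eve's two agreeing states differ by a fixed fraction. -/
lemma transcript_test {A B Z : Type} [Fintype A] [DecidableEq A] [Fintype B] [DecidableEq B]
    [Fintype Z] [DecidableEq Z] {σ : Matrix (A × B) (A × B) ℂ} (hno : ¬ KeyWitness σ)
    (Ψ : Matrix (A × B) Z ℂ) (hΨ : Ψ * Ψᴴ = σ) (M : Bool → Matrix A A ℂ) (N : Bool → Matrix B B ℂ)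
    (hM : ∀ x, (M x).PosSemidef) (hN : ∀ x, (N x).PosSemidef) :
    let R : Bool → Bool → Matrix Z Z ℂ := fun x y => eveState Ψ (M x ⊗ₖ N y)
    let p : Bool → Bool → ℝ := fun x y => ((R x y).trace).re
    ∃ S : Matrix Z Z ℂ, Contr S ∧ Contr (-S) ∧
      7 / 8 * (p false false + p true true) - 2 * (p false true + p true false) ≤
        ((S * (R false false - R true true)).trace).re := by
  intro R p
  choose LM hLM using fun x => psd_factor (hM x)
  choose LN hLN using fun x => psd_factor (hN x)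
  set eA := Fintype.equivFin A
  set eB := Fintype.equivFin B
  set a : Bool → Matrix (Fin (Fintype.card A)) A ℂ := fun x => (LM x).submatrix eA.symm id with ha
  set b : Bool → Matrix (Fin (Fintype.card B)) B ℂ := fun x => (LN x).submatrix eB.symm id with hb
  have hab : ∀ x y, (a x ⊗ₖ b y)ᴴ * (a x ⊗ₖ b y) = M x ⊗ₖ N y := by
    intro x y
    have h1 : (a x)ᴴ * a x = M x := by
      rw [hLM x, ha, conjTranspose_submatrix, submatrix_mul_equiv]; rfl
    have h2 : (b y)ᴴ * b y = N y := by
      rw [hLN y, hb, conjTranspose_submatrix, submatrix_mul_equiv]; rfl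
    rw [conjTranspose_kronecker, ← mul_kronecker_mul, h1, h2]
  set V : Bool → Bool → Matrix (Fin (Fintype.card A) × Fin (Fintype.card B)) Z ℂ := fun x y =>
    ((a x ⊗ₖ b y) * Ψ).map star with hV
  have hR : ∀ x y, R x y = (V x y)ᴴ * V x y := by
    intro x y
    simp only [R, hV, ← hab x y]
    exact eveState_kraus Ψ _
  have hp : ∀ x y, (((a x ⊗ₖ b y) * σ * (a x ⊗ₖ b y)ᴴ).trace).re = p x y := by
    intro x y
    simp only [p, R, eveState_trace, hΨ, ← hab x y]
    rw [Matrix.trace_mul_cycle]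
  have hp0 : ∀ x y, 0 ≤ p x y := fun x y =>
    (Complex.le_def.mp (eveState_psd Ψ ((hM x).kronecker (hN y))).trace_nonneg).1
  obtain ⟨S, W, hS, hS', hW, hle⟩ := exists_test_fidelity (V false false) (V true true)
  refine ⟨S, hS, hS', ?_⟩
  rw [hR false false, hR true true]
  refine le_trans ?_ hle
  rw [← hR false false, ← hR true true]
  set X := ((W * (V false false * (V true true)ᴴ)).trace).re
  set K : Matrix _ _ ℂ := (a false ⊗ₖ b false) * σ * (a true ⊗ₖ b true)ᴴ
  have hXK : X ≤ traceNorm K := by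
    have h := witness_conj (a false ⊗ₖ b false) (a true ⊗ₖ b true) Ψ hΨ (W.map star)
    rw [show (W.map star).map star = W by ext i j; simp] at h
    refine le_of_eq_of_le ?_ (re_trace_le_traceNorm (contr_map_star hW) K)
    simp only [X, hV, h]
    exact (Complex.conj_re _).symm
  set P := p false false + p true true
  set Q := p false true + p true false
  suffices h2 : 2 * X ≤ P / 8 + 2 * Q by
    change 7 / 8 * P - 2 * Q ≤ P - 2 * X
    linarith
  by_contra hc
  push Not at hc
  have hP : 0 ≤ P := add_nonneg (hp0 _ _) (hp0 _ _)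
  have hQ : 0 ≤ Q := add_nonneg (hp0 _ _) (hp0 _ _)
  have hno' := hno
  unfold KeyWitness at hno'
  push Not at hno'
  have h3 := hno' _ _ a b
  simp only [hp] at h3
  have h4 : √(p false false * p true true * (p false true * p true false)) ≤ P * Q / 4 := by
    rw [Real.sqrt_le_left (by positivity)]
    have u1 : p false false * p true true ≤ P ^ 2 / 4 := by
      nlinarith [sq_nonneg (p false false - p true true)]
    have u2 : p false true * p true false ≤ Q ^ 2 / 4 := by
      nlinarith [sq_nonneg (p false true - p true false)]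
    exact (mul_le_mul u1 u2 (mul_nonneg (hp0 _ _) (hp0 _ _)) (by positivity)).trans_eq (by ring)
  have h5 : X ^ 2 ≤ traceNorm K ^ 2 := by nlinarith
  nlinarith [sq_nonneg (P / 8 - 2 * Q)]

/-- The tests on the whole final state, with one contraction per key pair and transcript. -/
lemma final_test {l : ℕ} {T Z X : Type} [Fintype T] [DecidableEq T] [Fintype Z] [DecidableEq Z]
    [Fintype X] (Ψ : Matrix X Z ℂ) (Eff : T → KeyVal l → KeyVal l → Matrix X X ℂ)
    (σ : Matrix (T × Z) (T × Z) ℂ) (W : (KeyVal l × KeyVal l) → T → Matrix Z Z ℂ)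
    (hW : ∀ c t, Contr (W c t)) :
    (∑ c : KeyVal l × KeyVal l, ∑ t, ((W c t * eveState Ψ (Eff t c.1 c.2)).trace).re) -
        (∑ k : KeyVal l, ∑ t, ((W (k, k) t *
          σ.submatrix (fun z => (t, z)) (fun z => (t, z))).trace).re) / 2 ^ l
      ≤ traceNorm (finalState Ψ Eff - idealState σ) := by
  set e := Equiv.prodAssoc (KeyVal l × KeyVal l) T Z
  refine le_trans ?_ (traceNorm_submatrix_equiv_le e _)
  refine le_of_eq_of_le ?_ (blockDiag_test _ (fun ct => W ct.1 ct.2) fun ct => hW _ _)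
  have hblock : ∀ (c : KeyVal l × KeyVal l) (t : T),
      ((finalState Ψ Eff - idealState σ).submatrix e e).submatrix
          (fun i => ((c, t), i)) (fun i => ((c, t), i))
        = eveState Ψ (Eff t c.1 c.2) - (if c.1 = c.2 then ((2 : ℂ) ^ l)⁻¹ else 0) •
            σ.submatrix (fun z => (t, z)) (fun z => (t, z)) := by
    intro c t
    ext z z'
    simp only [e, finalState, idealState, submatrix_apply, Matrix.sub_apply, of_apply,
      Equiv.prodAssoc_apply, and_self, true_and, if_true]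
    split_ifs <;> simp
  have hd : ∀ g : KeyVal l × KeyVal l → ℝ,
      ∑ c, (if c.1 = c.2 then g c else 0) = ∑ k, g (k, k) := by
    intro g; simp [Fintype.sum_prod_type]
  conv_rhs => rw [Fintype.sum_prod_type]
  simp only [hblock, Matrix.mul_sub, Matrix.mul_smul, trace_sub, trace_smul, Complex.sub_re,
    sum_sub_distrib]
  congr 1
  rw [sum_div, ← hd fun c => (∑ t, ((W c t *
    σ.submatrix (fun z => (t, z)) (fun z => (t, z))).trace).re) / 2 ^ l]
  refine sum_congr rfl fun c _ => ?_
  split_ifs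
  · rw [sum_div]
    refine sum_congr rfl fun t _ => ?_
    rw [show ((2 : ℂ) ^ l)⁻¹ = (((2 : ℝ) ^ l)⁻¹ : ℝ) by push_cast; rfl, smul_eq_mul,
      Complex.re_ofReal_mul, inv_mul_eq_div]
  · simp

lemma sum_pairs_bit {l : ℕ} (i : Fin l) {M : Type*} [AddCommMonoid M]
    (f : KeyVal l → KeyVal l → M) (g : Bool → Bool → M → ℝ) (hadd : ∀ x y a b,
      g x y (a + b) = g x y a + g x y b) (h0 : ∀ x y, g x y 0 = 0) :
    ∑ c : KeyVal l × KeyVal l, g (c.1 i) (c.2 i) (f c.1 c.2) =
      ∑ x, ∑ y, g x y (∑ ka ∈ univ.filter (fun k => k i = x),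
        ∑ kb ∈ univ.filter (fun k => k i = y), f ka kb) := by
  have hs : ∀ x y (s : Finset (KeyVal l)) (h : KeyVal l → M),
      g x y (∑ k ∈ s, h k) = ∑ k ∈ s, g x y (h k) := fun x y s h =>
    map_sum (AddMonoidHom.mk ⟨g x y, h0 x y⟩ (hadd x y)) h s
  simp only [hs]
  rw [Fintype.sum_prod_type, ← sum_fiberwise univ (fun k : KeyVal l => k i)]
  refine sum_congr rfl fun x _ => ?_
  symm
  rw [sum_comm]
  refine sum_congr rfl fun ka hka => ?_
  rw [← sum_fiberwise univ (fun k : KeyVal l => k i) fun kb => g (ka i) (kb i) (f ka kb)]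
  refine sum_congr rfl fun y _ => sum_congr rfl fun kb hkb => ?_
  simp only [mem_filter] at hka hkb
  rw [hka.2, hkb.2]

lemma card_bit {l : ℕ} (i : Fin l) :
    ∑ k : KeyVal l, (if k i then (-1 : ℝ) else 1) = 0 := by
  set e : KeyVal l ≃ KeyVal l :=
    Function.Involutive.toPerm (fun k => Function.update k i (!k i)) fun k => by
      ext j; by_cases h : j = i <;> simp [h]
  have h := Equiv.sum_comp e (fun k : KeyVal l => if k i then (-1 : ℝ) else 1)
  have h2 : ∀ k, (if e k i then (-1 : ℝ) else 1) = -(if k i then (-1 : ℝ) else 1) := by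
    intro k; simp [e, Function.Involutive.toPerm]; cases k i <;> simp
  simp only [h2, sum_neg_distrib] at h
  linarith

/-- A positive key rate needs a key witness on some number of copies. -/
theorem witness_of_positiveKeyRate {dA dB : ℕ}
    {ρ : Matrix (Fin dA × Fin dB) (Fin dA × Fin dB) ℂ} (hρ : IsState ρ) (h : PositiveKeyRate ρ) :
    ∃ q, 0 < q ∧ KeyWitness (powState ρ q) := by
  classical
  obtain ⟨κ, hκ, hrate⟩ := h
  obtain ⟨n₀, hn₀⟩ := hrate (1 / 20) (by norm_num)
  set n := max n₀ 1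
  have hn : 0 < n := lt_of_lt_of_le one_pos (le_max_right _ _)
  refine ⟨n, hn, ?_⟩
  by_contra hno
  obtain ⟨l, T, instT, instD, Eff, hpro, hl, hsec⟩ := hn₀ n (le_max_left _ _)
  have hl0 : 0 < l := by
    have : (0 : ℝ) < l := lt_of_lt_of_le (by positivity) hl
    exact_mod_cast this
  set i : Fin l := ⟨0, hl0⟩
  obtain ⟨L, hL⟩ := psd_factor hρ.1
  have hψ : Lᴴ * Lᴴᴴ = ρ := by rw [conjTranspose_conjTranspose, ← hL]
  obtain ⟨σ, hσ, hbound⟩ := hsec _ Lᴴ hψ
  set Ψ := powPsi Lᴴ n
  have hΨ : Ψ * Ψᴴ = powState ρ n := powPsi_mul_conjTranspose hψ n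
  choose M N hM hN hEff using fun t => hpro.product t
  set R : T → Bool → Bool → Matrix (Fin n → _) (Fin n → _) ℂ := fun t x y =>
    eveState Ψ ((∑ k ∈ univ.filter (fun k => k i = x), M t k) ⊗ₖ
      (∑ k ∈ univ.filter (fun k => k i = y), N t k)) with hRdef
  have hR : ∀ t x y, R t x y = ∑ ka ∈ univ.filter (fun k => k i = x),
      ∑ kb ∈ univ.filter (fun k => k i = y), eveState Ψ (Eff t ka kb) := by
    intro t x y
    simp only [hRdef, ← eveState_sum, hEff, sum_kronecker_right, sum_kronecker_left]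
  choose S hS hS' hST using fun t => transcript_test hno Ψ hΨ
    (fun x => ∑ k ∈ univ.filter (fun k => k i = x), M t k)
    (fun y => ∑ k ∈ univ.filter (fun k => k i = y), N t k)
    (fun x => posSemidef_sum _ fun k _ => hM t k) (fun y => posSemidef_sum _ fun k _ => hN t k)
  -- coarse grained test
  have htest : ∀ W : Bool → Bool → T → Matrix _ _ ℂ, (∀ x y t, Contr (W x y t)) →
      (∑ t, ∑ x, ∑ y, ((W x y t * R t x y).trace).re) -
        (∑ k : KeyVal l, ∑ t, ((W (k i) (k i) t *
          σ.submatrix (fun z => (t, z)) (fun z => (t, z))).trace).re) / 2 ^ l ≤ 1 / 20 := by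
    intro W hW
    refine le_trans (le_of_eq ?_) ((final_test Ψ Eff σ (fun c t => W (c.1 i) (c.2 i) t)
      fun c t => hW _ _ t).trans hbound)
    congr 1
    conv_rhs => rw [sum_comm]
    refine sum_congr rfl fun t _ => ?_
    rw [sum_pairs_bit i (fun ka kb => eveState Ψ (Eff t ka kb))
      (fun x y Y => ((W x y t * Y).trace).re)
      (by intros; simp [Matrix.mul_add]) (by intros; simp)]
    simp only [hR]
  set P : ℝ := ∑ t, (((R t false false).trace).re + ((R t true true).trace).re)
  set Q : ℝ := ∑ t, (((R t false true).trace).re + ((R t true false).trace).re)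
  have hσ1 : ∑ t, ((σ.submatrix (fun z => (t, z)) (fun z => (t, z))).trace).re = 1 := by
    rw [← Complex.re_sum]
    have := congrArg Complex.re hσ.2
    rw [Matrix.trace, Fintype.sum_prod_type, Complex.one_re] at this
    exact this
  have hone : Contr (1 : Matrix (Fin n → Fin dA × Fin dB) (Fin n → Fin dA × Fin dB) ℂ) := contr_one
  have hneg : Contr (-1 : Matrix (Fin n → Fin dA × Fin dB) (Fin n → Fin dA × Fin dB) ℂ) :=
    contr_of_unitary (by simp)
  have hzero : Contr (0 : Matrix (Fin n → Fin dA × Fin dB) (Fin n → Fin dA × Fin dB) ℂ) := by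
    unfold Contr; simpa using PosSemidef.one
  have hcard : (Fintype.card (KeyVal l) : ℝ) = 2 ^ l := by simp
  -- total mass
  have h1 : 1 - 1 / 20 ≤ P + Q := by
    have := htest (fun _ _ _ => -1) fun _ _ _ => hneg
    simp only [Fintype.sum_bool, Matrix.neg_mul, Matrix.one_mul, trace_neg, Complex.neg_re,
      sum_neg_distrib, sum_add_distrib, hσ1, sum_const, card_univ, nsmul_eq_mul, hcard] at this
    rw [mul_one, neg_div, div_self (by positivity)] at this
    simp only [P, Q, sum_add_distrib]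
    linarith
  -- disagreements
  have h2 : Q ≤ 1 / 20 := by
    have := htest (fun x y _ => if x = y then 0 else 1) fun x y _ => by
      split_ifs
      · exact hzero
      · exact hone
    simpa [Q, sum_add_distrib, add_comm] using this
  -- secrecy
  have h3 : ∑ t, ((S t * (R t false false - R t true true)).trace).re ≤ 1 / 20 := by
    have := htest (fun x y t => if x = y then (if x then -S t else S t) else 0) fun x y t => by
      split_ifs
      · exact hS' t
      · exact hS t
      · exact hzero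
    have hc : ∑ k : KeyVal l, ∑ t, (((if k i = k i then (if k i then -S t else S t) else 0) *
        σ.submatrix (fun z => (t, z)) (fun z => (t, z))).trace).re = 0 := by
      rw [← zero_mul (∑ t, ((S t * σ.submatrix (fun z => (t, z)) (fun z => (t, z))).trace).re),
        ← card_bit i, sum_mul]
      refine sum_congr rfl fun k _ => ?_
      rw [mul_sum]
      refine sum_congr rfl fun t _ => ?_
      cases k i <;> simp
    rw [hc, zero_div, sub_zero] at this
    refine le_of_eq_of_le (sum_congr rfl fun t _ => ?_) this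
    simp [Matrix.mul_sub]
    ring
  have h4 : 7 / 8 * P - 2 * Q ≤ 1 / 20 := by
    refine le_trans ?_ h3
    simp only [P, Q, mul_sum, ← sum_sub_distrib]
    exact sum_le_sum fun t _ => hST t
  linarith

end Vale.Agent.P372.Key
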