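import Vale.Agent.P372.Key.Bound

/-! Distance of the block protocol's output to the ideal key state (P372). -/

namespace Vale.Agent.P372.Key

open Matrix Finset
open Vale.Agent.P372
open scoped Kronecker ComplexOrder

variable {ι : Type} [Fintype ι] [DecidableEq ι] {P Q E : ι → Type} [∀ i, Fintype (P i)]
  [∀ i, DecidableEq (P i)] [∀ i, Fintype (Q i)] [∀ i, DecidableEq (Q i)] [∀ i, Fintype (E i)]
  [∀ i, DecidableEq (E i)] {ψ : ∀ i, Matrix (P i × Q i) (E i) ℂ}
  {A : ∀ i, Fin 3 → Matrix (P i) (P i) ℂ} {B : ∀ i, Fin 3 → Matrix (Q i) (Q i) ℂ}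

/-- Secrecy part: hashing all masked strings. -/
lemma secrecy_le {l r : ℕ} (w : ∀ i, Bool × Bool → Weight (E i))
    (W : KeyVal l → Tr ι l r → Matrix (∀ i, E i) (∀ i, E i) ℂ) (hW : ∀ ka t, Contr (W ka t)) :
    ∑ t : Tr ι l r, ∑ ka, ((W ka t * ((((Fintype.card (Fam ι l r) : ℝ)⁻¹ : ℝ) : ℂ) •
      ∑ x' : ι → Fin 3, (((if t.2.2.1.1 x' = (ka, t.2.2.1.2) then 1 else 0) -
        (Fintype.card (KeyVal l × Syn r) : ℝ)⁻¹ : ℝ) : ℂ) •
        piMat (fun i => flagOut (ψ i) (A i) (B i) (t.1 i, t.2.1 i) (x' i)))).trace).re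
      ≤ √(2 ^ (l + r)) * ∏ i, ∑ φ, √((w i φ).mass *
          ∑ x', (w i φ).coll (flagOut (ψ i) (A i) (B i) φ x')) := by
  set c : ℝ := (Fintype.card (Fam ι l r) : ℝ)⁻¹ with hc
  have hM : (Fintype.card (KeyVal l × Syn r) : ℝ) = 2 ^ (l + r) := by
    simp [Fintype.card_prod, Fintype.card_fun, Fintype.card_bool, pow_add]
  have hstep : ∀ fA fB : ι → Bool,
      ∑ h : Fam ι l r, ∑ v : KeyVal l × Syn r,
        ((W v.1 (fA, fB, (h, v.2), ()) * ((c : ℂ) •
          ∑ x' : ι → Fin 3, (((if h x' = (v.1, v.2) then 1 else 0) -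
            (Fintype.card (KeyVal l × Syn r) : ℝ)⁻¹ : ℝ) : ℂ) •
            piMat (fun i => flagOut (ψ i) (A i) (B i) (fA i, fB i) (x' i)))).trace).re
      ≤ √(2 ^ (l + r)) * ∏ i, √((w i (fA i, fB i)).mass *
          ∑ x', (w i (fA i, fB i)).coll (flagOut (ψ i) (A i) (B i) (fA i, fB i) x')) := by
    intro fA fB
    set ω : (ι → Fin 3) → Matrix (∀ i, E i) (∀ i, E i) ℂ :=
      fun x' => piMat (fun i => flagOut (ψ i) (A i) (B i) (fA i, fB i) (x' i))
    set W' : Fam ι l r → KeyVal l × Syn r → Matrix (∀ i, E i) (∀ i, E i) ℂ :=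
      fun h v => W v.1 (fA, fB, (h, v.2), ())
    have hl := leftover (Weight.pi fun i => w i (fA i, fB i)) ω W' fun h v => hW _ _
    simp only [Prod.mk.eta, Matrix.mul_smul, trace_smul, smul_eq_mul, Complex.re_ofReal_mul,
      ← mul_sum]
    refine (mul_le_mul_of_nonneg_left hl (by positivity)).trans (le_of_eq ?_)
    rw [← mul_assoc, hc, inv_mul_cancel₀ (Nat.cast_ne_zero.mpr Fintype.card_ne_zero), one_mul, hM,
      Weight.pi_mass, mul_assoc, Real.sqrt_mul (by positivity)]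
    congr 1
    simp only [ω, Weight.pi_coll]
    rw [← Fintype.prod_sum (fun i x' => (w i (fA i, fB i)).coll
      (flagOut (ψ i) (A i) (B i) (fA i, fB i) x')), ← prod_mul_distrib, Real.sqrt_prod]
    intro i _
    exact mul_nonneg (hs_nonneg _) (sum_nonneg fun _ _ => hs_nonneg _)
  rw [Fintype.prod_sum, mul_sum, ← Equiv.sum_comp (Equiv.arrowProdEquivProdArrow ι
    (fun _ => Bool) (fun _ => Bool)).symm, Fintype.sum_prod_type]
  simp only [Fintype.sum_prod_type (α₁ := ι → Bool)]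
  refine sum_le_sum fun fA _ => sum_le_sum fun fB _ => le_of_eq_of_le ?_ (hstep fA fB)
  simp only [Fintype.sum_prod_type, univ_unique, sum_singleton]
  refine sum_congr rfl fun h _ => ?_
  rw [sum_comm]

lemma eve_blockEff_psd {l r k : ℕ} (hA : ∀ i a, (A i a).PosSemidef)
    (hB : ∀ i a, (B i a).PosSemidef) (t : Tr ι l r) (ka kb : KeyVal l) :
    (eveState (pairMat ψ) (blockEff l r k A B t ka kb)).PosSemidef := by
  rw [eve_blockEff]
  refine posSemidef_sum _ fun x _ => posSemidef_sum _ fun y _ => ?_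
  split_ifs
  · exact psd_smul_real (strOut_psd hA hB x y) (by positivity)
  · simp [PosSemidef.zero]

/-- The classical blocks of `final - ideal`. -/
noncomputable def errBlock (ψ : ∀ i, Matrix (P i × Q i) (E i) ℂ)
    (A : ∀ i, Fin 3 → Matrix (P i) (P i) ℂ) (B : ∀ i, Fin 3 → Matrix (Q i) (Q i) ℂ) (l r k : ℕ)
    (c : (KeyVal l × KeyVal l) × Tr ι l r) : Matrix (∀ i, E i) (∀ i, E i) ℂ :=
  eveState (pairMat ψ) (blockEff l r k A B c.2 c.1.1 c.1.2) -
    if c.1.1 = c.1.2 then ((2 : ℂ) ^ l)⁻¹ •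
      ((((Fintype.card (Fam ι l r) : ℝ)⁻¹ * (2 ^ r : ℝ)⁻¹ : ℝ) : ℂ) •
        flagTot ψ A B c.2.1 c.2.2.1) else 0

lemma final_sub_ideal_eq (l r k : ℕ) :
    finalState (pairMat ψ) (blockEff l r k A B) - idealState (sigmaOf ψ A B l r)
      = (Matrix.of fun p q : ((KeyVal l × KeyVal l) × Tr ι l r) × (∀ i, E i) =>
          if p.1 = q.1 then errBlock ψ A B l r k p.1 p.2 q.2 else 0).submatrix
          (Equiv.prodAssoc _ _ _).symm (Equiv.prodAssoc _ _ _).symm := by
  ext ⟨c, t, z⟩ ⟨c', t', z'⟩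
  simp only [Matrix.sub_apply, finalState, idealState, sigmaOf, submatrix_apply, of_apply,
    Equiv.prodAssoc_symm_apply, errBlock]
  by_cases h1 : c = c'
  · by_cases h2 : t = t'
    · subst h1 h2
      by_cases h3 : c.1 = c.2
      · simp only [h3, and_self, if_true, Matrix.sub_apply]
        rfl
      · simp only [h3, and_self, and_false, if_true, if_false, Matrix.sub_apply, Matrix.zero_apply]
    · have hne : (c, t) ≠ (c', t') := fun h => h2 (congrArg Prod.snd h)
      simp only [h2, and_false, hne, if_false, mul_zero, ite_self, sub_zero]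
  · have hne : (c, t) ≠ (c', t') := fun h => h1 (congrArg Prod.fst h)
    simp only [h1, false_and, hne, if_false, sub_zero]

/-- Total weight of the wrong outputs. -/
lemma wrong_le {l r k : ℕ} {s : ℝ} (hs : 0 < s) (hs1 : s ≤ 1)
    (hA : ∀ i a, (A i a).PosSemidef) (hB : ∀ i a, (B i a).PosSemidef)
    (hA1 : ∀ i, ∑ a, A i a = 1) (hB1 : ∀ i, ∑ a, B i a = 1)
    (hψ : ∀ i, (ψ i * (ψ i)ᴴ).trace = 1) :
    ∑ t : Tr ι l r, ∑ ka, ∑ kb, (if ka = kb then (0 : ℝ) else
        ((eveState (pairMat ψ) (blockEff l r k A B t ka kb)).trace).re)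
      ≤ (∏ i, (1 + badProb (ψ i) (A i) (B i))) / 2 ^ k
          + (1 + s) ^ Fintype.card ι / (s ^ k * 2 ^ r) := by
  refine le_of_eq_of_le ?_ (failure_le (ψ := ψ) (l := l) hs hs1 hA hB hA1 hB1 hψ)
  set c : ℝ := (Fintype.card (Fam ι l r) : ℝ)⁻¹
  set F : Tr ι l r → KeyVal l → KeyVal l → (ι → Fin 3) → (ι → Fin 3) → ℝ := fun t ka kb x y =>
    if ka ≠ kb ∧ flags x = t.1 ∧ flags y = t.2.1 ∧
      t.2.2.1.1 (maskStr t.2.1 x) = (ka, t.2.2.1.2) ∧ decode k t y = kb
    then ((strOut ψ A B x y).trace).re * c else 0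
  have hg : ∀ t ka kb, (if ka = kb then (0 : ℝ) else
      ((eveState (pairMat ψ) (blockEff l r k A B t ka kb)).trace).re)
        = ∑ x, ∑ y, F t ka kb x y := by
    intro t ka kb
    rw [eve_blockEff]
    simp only [F]
    by_cases hk : ka = kb
    · simp [hk]
    · simp only [if_neg hk, trace_sum, trace_smul, Complex.re_sum, smul_eq_mul, ne_eq, hk,
        not_false_eq_true, true_and]
      refine sum_congr rfl fun x _ => sum_congr rfl fun y _ => ?_
      split_ifs
      · rw [Complex.re_ofReal_mul]; exact mul_comm _ _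
      · simp
  simp only [hg]
  calc (∑ t, ∑ ka, ∑ kb, ∑ x, ∑ y, F t ka kb x y)
      = ∑ p : Tr ι l r × (KeyVal l × KeyVal l), ∑ q : (ι → Fin 3) × (ι → Fin 3),
          F p.1 p.2.1 p.2.2 q.1 q.2 := by simp only [Fintype.sum_prod_type]
    _ = ∑ q : (ι → Fin 3) × (ι → Fin 3), ∑ p : Tr ι l r × (KeyVal l × KeyVal l),
          F p.1 p.2.1 p.2.2 q.1 q.2 := sum_comm
    _ = _ := by
      rw [Fintype.sum_prod_type]
      refine sum_congr rfl fun x _ => sum_congr rfl fun y _ => ?_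
      simp only [Fintype.sum_prod_type, univ_unique, sum_singleton, mul_sum, F]
      rw [sum_eq_single_of_mem (flags x) (mem_univ _) (fun b _ hb => by simp [Ne.symm hb]),
        sum_eq_single_of_mem (flags y) (mem_univ _) (fun b _ hb => by simp [Ne.symm hb])]
      refine sum_congr rfl fun h _ => ?_
      set xm := maskStr (flags y) x
      rw [sum_eq_single_of_mem (h xm).2 (mem_univ _)
          (fun b _ hb => by simp [Prod.ext_iff, Ne.symm hb, xm]),
        sum_eq_single_of_mem (h xm).1 (mem_univ _)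
          (fun b _ hb => by simp [Prod.ext_iff, Ne.symm hb, xm]),
        sum_eq_single_of_mem (decode k (flags x, flags y, (h, (h xm).2), ()) y) (mem_univ _)
          (fun b _ hb => by simp [Ne.symm hb, xm])]
      by_cases hd : decode k (flags x, flags y, (h, (h xm).2), ()) y = (h xm).1
      · simp [hd, xm]
      · simp [hd, Ne.symm hd, xm, c, mul_comm]

/-- Error bound of the block protocol. -/
theorem protocol_error {l r k : ℕ} [DecidableEq (Final l (Tr ι l r) (∀ i, E i))] {s : ℝ}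
    (hs : 0 < s) (hs1 : s ≤ 1) (hA : ∀ i a, (A i a).PosSemidef) (hB : ∀ i a, (B i a).PosSemidef)
    (hA1 : ∀ i, ∑ a, A i a = 1) (hB1 : ∀ i, ∑ a, B i a = 1)
    (hψ : ∀ i, (ψ i * (ψ i)ᴴ).trace = 1) (w : ∀ i, Bool × Bool → Weight (E i)) :
    traceNorm (finalState (pairMat ψ) (blockEff l r k A B) - idealState (sigmaOf ψ A B l r))
      ≤ 2 * ((∏ i, (1 + badProb (ψ i) (A i) (B i))) / 2 ^ k
          + (1 + s) ^ Fintype.card ι / (s ^ k * 2 ^ r))
        + √(2 ^ (l + r)) * ∏ i, ∑ φ, √((w i φ).mass *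
          ∑ x', (w i φ).coll (flagOut (ψ i) (A i) (B i) φ x')) := by
  classical
  rw [final_sub_ideal_eq]
  refine (traceNorm_submatrix_equiv_le _ _).trans ?_
  obtain ⟨W, hW, hle⟩ := exists_contr_blocks (errBlock ψ A B l r k)
  refine hle.trans ?_
  obtain ⟨ev, hev⟩ : ∃ ev : Tr ι l r → KeyVal l → KeyVal l → Matrix (∀ i, E i) (∀ i, E i) ℂ,
      ev = fun t ka kb => eveState (pairMat ψ) (blockEff l r k A B t ka kb) := ⟨_, rfl⟩
  obtain ⟨σt, hσt⟩ : ∃ σt : Tr ι l r → Matrix (∀ i, E i) (∀ i, E i) ℂ, σt = fun t =>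
      ((2 : ℂ) ^ l)⁻¹ • ((((Fintype.card (Fam ι l r) : ℝ)⁻¹ * (2 ^ r : ℝ)⁻¹ : ℝ) : ℂ) •
        flagTot ψ A B t.1 t.2.1) := ⟨_, rfl⟩
  have hB' : ∀ t ka kb, errBlock ψ A B l r k ((ka, kb), t)
      = ev t ka kb - if ka = kb then σt t else 0 := by
    intro t ka kb; rw [hev, hσt]; rfl
  have hblock : ∀ t ka, ∑ kb, ((W ((ka, kb), t) * errBlock ψ A B l r k ((ka, kb), t)).trace).re
      ≤ ((W ((ka, ka), t) * ((∑ kb, ev t ka kb) - σt t)).trace).re
        + 2 * ∑ kb, (if ka = kb then (0 : ℝ) else ((ev t ka kb).trace).re) := by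
    intro t ka
    have hpsd : ∀ kb, (ev t ka kb).PosSemidef := fun kb => by
      rw [hev]; exact eve_blockEff_psd hA hB t ka kb
    have h1 : ∀ kb, ((W ((ka, kb), t) * errBlock ψ A B l r k ((ka, kb), t)).trace).re
        ≤ (if ka = kb then ((W ((ka, ka), t) * ((∑ kb, ev t ka kb) - σt t)).trace).re -
              ∑ kb' ∈ univ.erase ka, ((W ((ka, ka), t) * ev t ka kb').trace).re
            else ((ev t ka kb).trace).re) := by
      intro kb
      rw [hB']
      split_ifs with hk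
      · subst hk
        rw [← add_sum_erase _ (ev t ka) (mem_univ ka), ← Complex.re_sum, ← trace_sum,
          ← Matrix.mul_sum, ← Complex.sub_re, ← trace_sub, ← Matrix.mul_sub, add_sub_right_comm,
          add_sub_cancel_right]
      · rw [sub_zero]
        exact (Complex.re_le_norm _).trans (re_trace_mul_psd_le (hW _) (hpsd kb))
    have h2 : ∀ kb, -((W ((ka, ka), t) * ev t ka kb).trace).re ≤ ((ev t ka kb).trace).re :=
      fun kb => by
        have a := (Complex.abs_re_le_norm _).trans (re_trace_mul_psd_le (hW ((ka, ka), t)) (hpsd kb))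
        rw [abs_le] at a
        linarith
    refine (sum_le_sum fun kb _ => h1 kb).trans ?_
    rw [← add_sum_erase _ _ (mem_univ ka), if_pos rfl,
      ← add_sum_erase _ (fun kb => if ka = kb then (0 : ℝ) else ((ev t ka kb).trace).re)
        (mem_univ ka), if_pos rfl, zero_add]
    have h4 : ∀ kb ∈ univ.erase ka, ka ≠ kb := fun kb hk => (ne_of_mem_erase hk).symm
    rw [sum_congr rfl fun kb hk => if_neg (h4 kb hk),
      sum_congr rfl fun kb (hk : kb ∈ univ.erase ka) => if_neg (h4 kb hk)]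
    have := sum_le_sum fun kb (_ : kb ∈ univ.erase ka) => h2 kb
    rw [sum_neg_distrib] at this
    linarith
  rw [Fintype.sum_prod_type, sum_comm]
  refine (sum_le_sum fun t _ => ?_ : _ ≤ ∑ t, ∑ ka, (((W ((ka, ka), t) *
      ((∑ kb, ev t ka kb) - σt t)).trace).re
      + 2 * ∑ kb, (if ka = kb then (0 : ℝ) else ((ev t ka kb).trace).re))).trans ?_
  · rw [Fintype.sum_prod_type]
    exact sum_le_sum fun ka _ => hblock t ka
  subst hev hσt
  simp only [sum_add_distrib, ← mul_sum, eve_diag_sub_ideal]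
  rw [add_comm]
  exact add_le_add (mul_le_mul_of_nonneg_left (wrong_le hs hs1 hA hB hA1 hB1 hψ) zero_le_two)
    (secrecy_le w (fun ka t => W ((ka, ka), t)) fun ka t => hW _)

end Vale.Agent.P372.Key
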