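import Vale.Agent.P372.Basic

/-! Contractions, Cauchy-Schwarz and the variational form of the trace norm (P372). -/

namespace Vale.Agent.P372.Key

open Matrix Finset
open Vale.Agent.P372
open scoped Kronecker ComplexOrder MatrixOrder

variable {m n p : Type*} [Fintype m] [Fintype n] [Fintype p]

/-- `W` is a contraction. -/
def Contr [DecidableEq n] (W : Matrix m n ℂ) : Prop := (1 - Wᴴ * W).PosSemidef

/-- Squared Hilbert-Schmidt norm. -/
def hs (A : Matrix m n ℂ) : ℝ := ((Aᴴ * A).trace).re

lemma hs_eq_sum (A : Matrix m n ℂ) : hs A = ∑ j, ∑ i, ‖A i j‖ ^ 2 := by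
  simp only [hs, Matrix.trace, diag_apply, Matrix.mul_apply, conjTranspose_apply, Complex.re_sum]
  refine sum_congr rfl fun j _ => sum_congr rfl fun i _ => ?_
  rw [Complex.sq_norm, Complex.normSq_apply]
  simp [Complex.mul_re]

lemma hs_nonneg (A : Matrix m n ℂ) : 0 ≤ hs A := by
  rw [hs_eq_sum]; positivity

lemma hs_conjTranspose (A : Matrix m n ℂ) : hs Aᴴ = hs A := by
  rw [hs_eq_sum, hs_eq_sum, sum_comm]
  simp

lemma norm_trace_mul_le (A : Matrix m n ℂ) (B : Matrix m n ℂ) :
    ‖(Aᴴ * B).trace‖ ≤ √(hs A) * √(hs B) := by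
  rw [hs_eq_sum, hs_eq_sum, ← Fintype.sum_prod_type', ← Fintype.sum_prod_type']
  refine le_trans ?_ (Real.sum_mul_le_sqrt_mul_sqrt _ _ _)
  simp only [Matrix.trace, diag_apply, Matrix.mul_apply, conjTranspose_apply]
  refine (norm_sum_le _ _).trans ?_
  rw [Fintype.sum_prod_type]
  refine sum_le_sum fun j _ => (norm_sum_le _ _).trans (le_of_eq ?_)
  simp

lemma hs_mul_le [DecidableEq m] {W : Matrix p m ℂ} (hW : Contr W) (A : Matrix m n ℂ) :
    hs (W * A) ≤ hs A := by
  classical
  have h := Complex.le_def.mp (hW.conjTranspose_mul_mul_same A).trace_nonneg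
  have e : Aᴴ * (1 - Wᴴ * W) * A = Aᴴ * A - (W * A)ᴴ * (W * A) := by
    rw [conjTranspose_mul, Matrix.mul_sub, Matrix.sub_mul, Matrix.mul_one]
    simp only [Matrix.mul_assoc]
  rw [e, trace_sub, Complex.sub_re] at h
  have := h.1
  simp only [Complex.zero_re, hs] at this ⊢
  linarith

lemma contr_conjTranspose [DecidableEq m] [DecidableEq n] {W : Matrix m n ℂ} (hW : Contr W) :
    Contr Wᴴ := by
  unfold Contr at hW ⊢
  have h1 := hW.mul_mul_conjTranspose_same W
  have e : (1 : Matrix m m ℂ) - Wᴴᴴ * Wᴴ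
      = (1 - W * Wᴴ)ᴴ * (1 - W * Wᴴ) + W * (1 - Wᴴ * W) * Wᴴ := by
    simp only [conjTranspose_sub, conjTranspose_one, conjTranspose_mul, conjTranspose_conjTranspose,
      Matrix.mul_sub, Matrix.sub_mul, Matrix.mul_one, Matrix.one_mul, Matrix.mul_assoc]
    abel
  rw [e]
  exact (posSemidef_conjTranspose_mul_self _).add h1

lemma contr_mul [DecidableEq m] [DecidableEq n] {V : Matrix p m ℂ} {W : Matrix m n ℂ}
    (hV : Contr V) (hW : Contr W) : Contr (V * W) := by
  unfold Contr at hV hW ⊢
  have e : (1 : Matrix n n ℂ) - (V * W)ᴴ * (V * W)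
      = Wᴴ * (1 - Vᴴ * V) * W + (1 - Wᴴ * W) := by
    simp only [conjTranspose_mul, Matrix.mul_sub, Matrix.sub_mul, Matrix.mul_one, Matrix.one_mul,
      Matrix.mul_assoc]
    abel
  rw [e]
  exact (hV.conjTranspose_mul_mul_same W).add hW

lemma contr_one [DecidableEq n] : Contr (1 : Matrix n n ℂ) := by
  simp [Contr, PosSemidef.zero]

lemma contr_of_unitary [DecidableEq n] {W : Matrix m n ℂ} (h : Wᴴ * W = 1) : Contr W := by
  simp [Contr, h, PosSemidef.zero]

/-- The trace norm dominates `Re tr (W X)` for every contraction `W`. -/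
lemma re_trace_le_traceNorm [DecidableEq n] {W : Matrix n n ℂ} (hW : Contr W) (X : Matrix n n ℂ) :
    ((W * X).trace).re ≤ traceNorm X := by
  set hH := Matrix.isHermitian_conjTranspose_mul_self X
  set U : Matrix n n ℂ := (hH.eigenvectorUnitary : Matrix n n ℂ) with hU
  have hUU : U * Uᴴ = 1 := Unitary.coe_mul_star_self hH.eigenvectorUnitary
  have hUU' : Uᴴ * U = 1 := Unitary.coe_star_mul_self hH.eigenvectorUnitary
  have hdiag : (X * U)ᴴ * (X * U) = diagonal (fun k => (hH.eigenvalues k : ℂ)) := by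
    have h := hH.conjStarAlgAut_star_eigenvectorUnitary
    rw [Unitary.conjStarAlgAut_apply] at h
    simp only [Unitary.coe_star, star_eq_conjTranspose, conjTranspose_conjTranspose] at h
    rw [conjTranspose_mul]
    simpa [Matrix.mul_assoc, hU, Function.comp_def] using h
  set A := Wᴴ * U with hA
  have hcol : ∀ k, ∑ i, ‖A i k‖ ^ 2 ≤ 1 := by
    intro k
    have h := ((contr_conjTranspose hW).conjTranspose_mul_mul_same U).diag_nonneg (i := k)
    rw [Matrix.mul_sub, Matrix.sub_mul, Matrix.mul_one, hUU', conjTranspose_conjTranspose] at h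
    have e : Uᴴ * (W * Wᴴ) * U = Aᴴ * A := by
      rw [hA, conjTranspose_mul, conjTranspose_conjTranspose]; simp only [Matrix.mul_assoc]
    rw [e] at h
    have h' := (Complex.le_def.mp h).1
    simp only [Matrix.sub_apply, one_apply_eq, Matrix.mul_apply, conjTranspose_apply,
      Complex.sub_re, Complex.one_re, Complex.re_sum, Complex.zero_re] at h'
    refine le_trans (le_of_eq (sum_congr rfl fun i _ => ?_)) (by linarith)
    rw [Complex.sq_norm, Complex.normSq_apply]
    simp [Complex.mul_re]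
  have hcolX : ∀ k, ∑ i, ‖(X * U) i k‖ ^ 2 = hH.eigenvalues k := by
    intro k
    have h := congrFun (congrFun hdiag k) k
    rw [diagonal_apply_eq, Matrix.mul_apply] at h
    have h2 := congrArg Complex.re h
    rw [Complex.re_sum, Complex.ofReal_re] at h2
    rw [← h2]
    refine sum_congr rfl fun i _ => ?_
    rw [conjTranspose_apply, Complex.sq_norm, Complex.normSq_apply]
    simp [Complex.mul_re]
  have e : (W * X).trace = (Aᴴ * (X * U)).trace := by
    rw [hA, conjTranspose_mul, conjTranspose_conjTranspose]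
    calc (W * X).trace = ((W * X) * (U * Uᴴ)).trace := by rw [hUU, Matrix.mul_one]
      _ = (Uᴴ * (W * X * U)).trace := by rw [← Matrix.mul_assoc, Matrix.trace_mul_comm]
      _ = _ := by simp only [Matrix.mul_assoc]
  rw [e, Matrix.trace, Complex.re_sum, traceNorm]
  refine sum_le_sum fun k _ => ?_
  rw [diag_apply, Matrix.mul_apply]
  refine (Complex.re_le_norm _).trans ((norm_sum_le _ _).trans ?_)
  calc ∑ i, ‖Aᴴ k i * (X * U) i k‖ = ∑ i, ‖A i k‖ * ‖(X * U) i k‖ := by simp
    _ ≤ √(∑ i, ‖A i k‖ ^ 2) * √(∑ i, ‖(X * U) i k‖ ^ 2) := Real.sum_mul_le_sqrt_mul_sqrt _ _ _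
    _ ≤ 1 * √(hH.eigenvalues k) := by
        rw [hcolX]
        exact mul_le_mul_of_nonneg_right (Real.sqrt_le_one.mpr (hcol k)) (Real.sqrt_nonneg _)
    _ = _ := one_mul _

/-- The trace norm is attained at a contraction. -/
lemma exists_contr_trace_eq [DecidableEq n] (X : Matrix n n ℂ) :
    ∃ W : Matrix n n ℂ, Contr W ∧ ((W * X).trace).re = traceNorm X := by
  set hH := Matrix.isHermitian_conjTranspose_mul_self X
  set U : Matrix n n ℂ := (hH.eigenvectorUnitary : Matrix n n ℂ) with hU
  have hUU : U * Uᴴ = 1 := Unitary.coe_mul_star_self hH.eigenvectorUnitary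
  have hUU' : Uᴴ * U = 1 := Unitary.coe_star_mul_self hH.eigenvectorUnitary
  have hdiag : (X * U)ᴴ * (X * U) = diagonal (fun k => (hH.eigenvalues k : ℂ)) := by
    have h := hH.conjStarAlgAut_star_eigenvectorUnitary
    rw [Unitary.conjStarAlgAut_apply] at h
    simp only [Unitary.coe_star, star_eq_conjTranspose, conjTranspose_conjTranspose] at h
    rw [conjTranspose_mul]
    simpa [Matrix.mul_assoc, hU, Function.comp_def] using h
  have hnn : ∀ k, 0 ≤ hH.eigenvalues k :=
    fun k => (posSemidef_conjTranspose_mul_self X).eigenvalues_nonneg k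
  set D : Matrix n n ℂ := diagonal (fun k => (((√(hH.eigenvalues k))⁻¹ : ℝ) : ℂ)) with hD
  have hDs : Dᴴ = D := by
    rw [hD, diagonal_conjTranspose]; congr 1; ext k; simp
  refine ⟨U * D * (X * U)ᴴ, ?_, ?_⟩
  · have : Contr (U * D * (X * U)ᴴ)ᴴ := by
      unfold Contr
      have e : ((U * D * (X * U)ᴴ)ᴴ)ᴴ * (U * D * (X * U)ᴴ)ᴴ
          = U * (D * diagonal (fun k => (hH.eigenvalues k : ℂ)) * D) * Uᴴ := by
        simp only [conjTranspose_mul, conjTranspose_conjTranspose, hDs, ← hdiag]
        simp only [Matrix.mul_assoc]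
      rw [e]
      conv => congr; lhs; rw [← hUU, ← Matrix.mul_one U]
      rw [Matrix.mul_one, show U * Uᴴ = U * 1 * Uᴴ by rw [Matrix.mul_one], ← Matrix.sub_mul,
        ← Matrix.mul_sub]
      refine PosSemidef.mul_mul_conjTranspose_same ?_ U
      rw [hD, diagonal_mul_diagonal, diagonal_mul_diagonal, ← diagonal_one, diagonal_sub]
      refine PosSemidef.diagonal fun k => ?_
      simp only [Pi.zero_apply]
      rw [← Complex.ofReal_mul, ← Complex.ofReal_mul, ← Complex.ofReal_one, ← Complex.ofReal_sub,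
        Complex.zero_le_real]
      rcases (hnn k).eq_or_lt with h0 | h0
      · simp [← h0]
      · have hs : 0 < √(hH.eigenvalues k) := Real.sqrt_pos.mpr h0
        have : (√(hH.eigenvalues k))⁻¹ * hH.eigenvalues k * (√(hH.eigenvalues k))⁻¹ = 1 := by
          field_simp
          exact (Real.sq_sqrt h0.le).symm
        linarith
    simpa using contr_conjTranspose this
  · have e : (U * D * (X * U)ᴴ * X).trace
        = (D * diagonal (fun k => (hH.eigenvalues k : ℂ))).trace := by
      rw [← hdiag]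
      calc (U * D * (X * U)ᴴ * X).trace = (U * (D * (X * U)ᴴ * X)).trace := by
            simp only [Matrix.mul_assoc]
        _ = (D * (X * U)ᴴ * X * U).trace := Matrix.trace_mul_comm _ _
        _ = _ := by simp only [Matrix.mul_assoc]
    rw [e, hD, diagonal_mul_diagonal, trace_diagonal, Complex.re_sum, traceNorm]
    refine sum_congr rfl fun k _ => ?_
    rw [← Complex.ofReal_mul, Complex.ofReal_re, inv_mul_eq_div, Real.div_sqrt]

lemma traceNorm_le [DecidableEq n] {X : Matrix n n ℂ} {b : ℝ}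
    (h : ∀ W : Matrix n n ℂ, Contr W → ((W * X).trace).re ≤ b) : traceNorm X ≤ b := by
  obtain ⟨W, hW, e⟩ := exists_contr_trace_eq X
  exact e ▸ h W hW

lemma traceNorm_nonneg' [DecidableEq n] (X : Matrix n n ℂ) : 0 ≤ traceNorm X :=
  sum_nonneg fun _ _ => Real.sqrt_nonneg _

lemma traceNorm_add_le [DecidableEq n] (X Y : Matrix n n ℂ) :
    traceNorm (X + Y) ≤ traceNorm X + traceNorm Y := by
  refine traceNorm_le fun W hW => ?_
  rw [Matrix.mul_add, trace_add, Complex.add_re]
  exact add_le_add (re_trace_le_traceNorm hW X) (re_trace_le_traceNorm hW Y)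

/-- Trace norm of a positive matrix is at most its trace. -/
lemma re_trace_mul_psd_le [DecidableEq n] {W : Matrix n n ℂ} (hW : Contr W) {X : Matrix n n ℂ}
    (hX : X.PosSemidef) : ‖(W * X).trace‖ ≤ X.trace.re := by
  obtain ⟨L, rfl⟩ := psd_factor hX
  have e : (W * (Lᴴ * L)).trace = ((Lᴴ)ᴴ * (W * Lᴴ)).trace := by
    rw [conjTranspose_conjTranspose, ← Matrix.mul_assoc, Matrix.trace_mul_comm]
  rw [e]
  refine (norm_trace_mul_le _ _).trans ?_
  have h1 : hs Lᴴ = ((Lᴴ * L).trace).re := by
    rw [hs, conjTranspose_conjTranspose, Matrix.trace_mul_comm]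
  calc √(hs Lᴴ) * √(hs (W * Lᴴ)) ≤ √(hs Lᴴ) * √(hs Lᴴ) :=
        mul_le_mul_of_nonneg_left (Real.sqrt_le_sqrt (hs_mul_le hW _)) (Real.sqrt_nonneg _)
    _ = _ := by rw [Real.mul_self_sqrt (hs_nonneg _), h1]

/-- The diagonal block of a contraction is a contraction. -/
lemma contr_block {C : Type*} [Fintype C] [DecidableEq C] [DecidableEq n]
    {W : Matrix (C × n) (C × n) ℂ} (hW : Contr W) (c : C) :
    Contr (W.submatrix (fun i : n => (c, i)) (fun i : n => (c, i))) := by
  unfold Contr at hW ⊢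
  set f : n → C × n := fun i => (c, i)
  have e : (1 : Matrix n n ℂ) - (W.submatrix f f)ᴴ * (W.submatrix f f)
      = (1 - Wᴴ * W).submatrix f f
        + ∑ c' ∈ univ.erase c, (W.submatrix (fun i : n => (c', i)) f)ᴴ *
            (W.submatrix (fun i : n => (c', i)) f) := by
    ext i j
    simp only [Matrix.sub_apply, Matrix.add_apply, submatrix_apply, Matrix.sum_apply,
      Matrix.mul_apply, conjTranspose_apply, Fintype.sum_prod_type, f]
    rw [← add_sum_erase _ (fun c' => ∑ k, star (W (c', k) (c, i)) * W (c', k) (c, j)) (mem_univ c)]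
    simp only [one_apply, Prod.mk.injEq, true_and]
    ring
  rw [e]
  exact (hW.submatrix f).add (posSemidef_sum _ fun _ _ => posSemidef_conjTranspose_mul_self _)

/-- Trace norm of a classical-quantum (block diagonal) matrix. -/
lemma traceNorm_blockDiag_le {C : Type*} [Fintype C] [DecidableEq C] [DecidableEq n]
    (X : Matrix (C × n) (C × n) ℂ) (B : C → Matrix n n ℂ)
    (hX : ∀ p q, X p q = if p.1 = q.1 then B p.1 p.2 q.2 else 0) (b : C → ℝ)
    (hb : ∀ c, ∀ W : Matrix n n ℂ, Contr W → ((W * B c).trace).re ≤ b c) :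
    traceNorm X ≤ ∑ c, b c := by
  refine traceNorm_le fun W hW => ?_
  have e : (W * X).trace
      = ∑ c, ((W.submatrix (fun i : n => (c, i)) (fun i : n => (c, i))) * B c).trace := by
    simp only [Matrix.trace, diag_apply, Matrix.mul_apply, Fintype.sum_prod_type, hX, mul_ite,
      mul_zero, submatrix_apply]
    refine sum_congr rfl fun c _ => sum_congr rfl fun i _ => ?_
    rw [Finset.sum_comm]
    simp
  rw [e, Complex.re_sum]
  exact sum_le_sum fun c _ => hb c _ (contr_block hW c)

end Vale.Agent.P372.Key
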