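import Vale.Agent.P372.Prod
import Vale.Agent.P372.Key.TN
import Vale.Agent.P372.Key.Defs

/-! Eve's conditional states (P372). -/

namespace Vale.Agent.P372.Key

open Matrix Finset
open Vale.Agent.P372
open scoped Kronecker ComplexOrder

variable {X Z : Type*} [Fintype X] [Fintype Z]

omit [Fintype Z] in
lemma eveState_eq (Ψ : Matrix X Z ℂ) (M : Matrix X X ℂ) :
    eveState Ψ M = Ψᵀ * Mᵀ * (Ψᵀ)ᴴ := by
  ext z z'
  simp only [eveState, of_apply, Matrix.mul_apply, conjTranspose_apply, transpose_apply, sum_mul]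
  rw [sum_comm]
  refine sum_congr rfl fun y _ => sum_congr rfl fun x _ => ?_
  ring

lemma eveState_psd (Ψ : Matrix X Z ℂ) {M : Matrix X X ℂ} (hM : M.PosSemidef) :
    (eveState Ψ M).PosSemidef := by
  rw [eveState_eq]; exact hM.transpose.mul_mul_conjTranspose_same _

omit [Fintype Z] in
lemma eveState_add (Ψ : Matrix X Z ℂ) (M N : Matrix X X ℂ) :
    eveState Ψ (M + N) = eveState Ψ M + eveState Ψ N := by
  simp [eveState_eq, Matrix.mul_add, Matrix.add_mul]

omit [Fintype Z] in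
lemma eveState_zero (Ψ : Matrix X Z ℂ) : eveState Ψ 0 = 0 := by simp [eveState_eq]

omit [Fintype Z] in
lemma eveState_smul (Ψ : Matrix X Z ℂ) (c : ℂ) (M : Matrix X X ℂ) :
    eveState Ψ (c • M) = c • eveState Ψ M := by
  simp [eveState_eq, Matrix.mul_smul, Matrix.smul_mul]

omit [Fintype Z] in
lemma eveState_sum (Ψ : Matrix X Z ℂ) {κ : Type*} (s : Finset κ) (M : κ → Matrix X X ℂ) :
    eveState Ψ (∑ i ∈ s, M i) = ∑ i ∈ s, eveState Ψ (M i) := by
  simp [eveState_eq, transpose_sum, Matrix.mul_sum, Matrix.sum_mul]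

lemma eveState_trace (Ψ : Matrix X Z ℂ) (M : Matrix X X ℂ) :
    (eveState Ψ M).trace = (M * (Ψ * Ψᴴ)).trace := by
  simp only [Matrix.trace, diag_apply, eveState, of_apply, Matrix.mul_apply, conjTranspose_apply,
    mul_sum]
  rw [sum_comm]
  conv_lhs => enter [2, x]; rw [sum_comm]
  rw [sum_comm]
  refine sum_congr rfl fun y _ => sum_congr rfl fun x _ => sum_congr rfl fun z _ => ?_
  ring

omit [Fintype Z] in
/-- Eve's state for a Kraus operator `K` is `V* V` with `V = conj(K Ψ)`. -/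
lemma eveState_kraus {K' : Type*} [Fintype K'] (Ψ : Matrix X Z ℂ) (K : Matrix K' X ℂ) :
    eveState Ψ (Kᴴ * K) = ((K * Ψ).map star)ᴴ * (K * Ψ).map star := by
  have h : ∀ (A : Matrix K' Z ℂ), (A.map star)ᴴ * A.map star = Aᵀ * (Aᵀ)ᴴ := by
    intro A; ext i j; simp [Matrix.mul_apply]
  rw [h, eveState_eq, transpose_mul, transpose_mul, conjTranspose_mul]
  have e : (Kᴴ)ᵀ = (Kᵀ)ᴴ := by ext; simp
  rw [e]
  simp only [Matrix.mul_assoc]

variable {ι : Type} [Fintype ι] [DecidableEq ι] {P Q E : ι → Type} [∀ i, Fintype (P i)]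
  [∀ i, Fintype (Q i)]

/-- For independent blocks Eve's state factorises. -/
lemma eveState_pairMat (ψ : ∀ i, Matrix (P i × Q i) (E i) ℂ) (A : ∀ i, Matrix (P i) (P i) ℂ)
    (B : ∀ i, Matrix (Q i) (Q i) ℂ) :
    eveState (pairMat ψ) (piMat A ⊗ₖ piMat B) = piMat fun i => eveState (ψ i) (A i ⊗ₖ B i) := by
  have hB : piMat A ⊗ₖ piMat B = pairSq (fun i => A i ⊗ₖ B i) := by
    ext p q
    simp [pairSq, piMat, kroneckerMap_apply, prod_mul_distrib]
  rw [hB]
  ext z z'
  simp only [eveState, of_apply, pairMat, pairSq, piMat, submatrix_apply, id, star_prod]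
  let e := (Equiv.arrowProdEquivProdArrow ι P Q).symm
  calc _ = ∑ p : ∀ i, P i × Q i, ∑ q : ∀ i, P i × Q i,
        (∏ i, (A i ⊗ₖ B i) (q i) (p i)) * (∏ i, ψ i (p i) (z i)) * ∏ i, star (ψ i (q i) (z' i)) := by
        refine Fintype.sum_equiv e _ _ fun x => Fintype.sum_equiv e _ _ fun y => rfl
    _ = _ := by
        rw [Fintype.prod_sum]
        refine sum_congr rfl fun p _ => ?_
        rw [Fintype.prod_sum]
        refine sum_congr rfl fun q _ => ?_
        simp only [← prod_mul_distrib]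

/-- Trace of a tensor product. -/
lemma trace_piMat {Y : ι → Type} [∀ i, Fintype (Y i)] (M : ∀ i, Matrix (Y i) (Y i) ℂ) :
    (piMat M).trace = ∏ i, (M i).trace := by
  simp only [Matrix.trace, diag_apply, piMat, of_apply]
  rw [Fintype.prod_sum]

lemma hs_piMat {Y W : ι → Type} [∀ i, Fintype (Y i)] [∀ i, Fintype (W i)]
    (M : ∀ i, Matrix (Y i) (W i) ℂ) : hs (piMat M) = ∏ i, hs (M i) := by
  simp only [hs_eq_sum, piMat, of_apply, norm_prod, ← prod_pow]
  rw [Fintype.prod_sum]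
  refine sum_congr rfl fun b _ => ?_
  rw [Fintype.prod_sum]

lemma piMat_herm {Y : ι → Type} [∀ i, Fintype (Y i)] {M : ∀ i, Matrix (Y i) (Y i) ℂ}
    (h : ∀ i, (M i).IsHermitian) : (piMat M).IsHermitian := by
  rw [Matrix.IsHermitian, piMat_conjTranspose]; exact congrArg piMat (funext fun i => (h i).eq)

end Vale.Agent.P372.Key
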