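import Vale.Agent.P372.Key.Rate

/-! Key witnesses for phase-covariant states (P372). -/

namespace Vale.Agent.P372.Key

open Matrix Finset
open Vale.Agent.P372
open scoped Kronecker ComplexOrder

/-- The vector `∑ i, |i i⟩⟨i i|` off-diagonal part and the weights `α` on `|i j⟩`, `i ≠ j`:
`|g⟩⟨g| + ∑_{i≠j} α i j |ij⟩⟨ij|` with `g = ∑ i, |ii⟩`. -/
def pcRaw {ι : Type*} [DecidableEq ι] (α : ι → ι → ℝ) : Matrix (ι × ι) (ι × ι) ℂ :=
  Matrix.of fun p q => (if p.1 = p.2 ∧ q.1 = q.2 then 1 else 0) +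
    (if p = q ∧ p.1 ≠ p.2 then (α p.1 p.2 : ℂ) else 0)

/-- The normalised phase-covariant state with weights `α`. -/
noncomputable def phaseCov {d : ℕ} (α : Fin d → Fin d → ℝ) :
    Matrix (Fin d × Fin d) (Fin d × Fin d) ℂ :=
  ((((d : ℝ) + ∑ i, ∑ j, if i = j then 0 else α i j)⁻¹ : ℝ) : ℂ) • pcRaw α

lemma norm_const_pos {d : ℕ} (hd : 0 < d) {α : Fin d → Fin d → ℝ} (h : ∀ i j, i ≠ j → 0 ≤ α i j) :
    0 < ((d : ℝ) + ∑ i, ∑ j, if i = j then 0 else α i j) := by
  refine add_pos_of_pos_of_nonneg (by exact_mod_cast hd)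
    (sum_nonneg fun i _ => sum_nonneg fun j _ => ?_)
  split_ifs with hij
  · exact le_rfl
  · exact h i j hij

lemma pcRaw_eq {ι : Type*} [DecidableEq ι] (α : ι → ι → ℝ) :
    pcRaw α = vecMulVec (fun p : ι × ι => if p.1 = p.2 then (1 : ℂ) else 0)
        (star fun p : ι × ι => if p.1 = p.2 then (1 : ℂ) else 0)
      + diagonal (fun p : ι × ι => ((if p.1 = p.2 then 0 else α p.1 p.2 : ℝ) : ℂ)) := by
  ext p q
  simp only [pcRaw, of_apply, Matrix.add_apply, vecMulVec_apply, Pi.star_apply, diagonal_apply]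
  by_cases h1 : p.1 = p.2 <;> by_cases h2 : q.1 = q.2 <;> by_cases h3 : p = q <;>
    simp [h1, h2, h3] <;> simp_all

lemma phaseCov_isState {d : ℕ} (hd : 0 < d) {α : Fin d → Fin d → ℝ}
    (h : ∀ i j, i ≠ j → 0 ≤ α i j) : IsState (phaseCov α) := by
  have hc := norm_const_pos hd h
  constructor
  · refine PosSemidef.smul ?_ (by exact_mod_cast (inv_pos.mpr hc).le)
    rw [pcRaw_eq]
    refine (posSemidef_vecMulVec_self_star _).add (PosSemidef.diagonal fun p => ?_)
    rw [Pi.zero_apply, Complex.zero_le_real]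
    split_ifs with hp
    · exact le_rfl
    · exact h _ _ hp
  · have e : (pcRaw α).trace = (((d : ℝ) + ∑ i, ∑ j, if i = j then 0 else α i j : ℝ) : ℂ) := by
      simp only [Matrix.trace, diag_apply, Fintype.sum_prod_type, pcRaw, of_apply, and_self,
        true_and, sum_add_distrib, Complex.ofReal_add, Complex.ofReal_sum, Complex.ofReal_natCast]
      congr 1
      · simp
      · refine sum_congr rfl fun i _ => sum_congr rfl fun j _ => ?_
        split_ifs <;> simp_all
    rw [phaseCov, trace_smul, e, smul_eq_mul, ← Complex.ofReal_mul, inv_mul_cancel₀ hc.ne',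
      Complex.ofReal_one]

/-- A key witness after local operators is a key witness before. -/
lemma keyWitness_local {A B A' B' : Type} [Fintype A] [Fintype B] [Fintype A'] [Fintype B']
    {σ : Matrix (A × B) (A × B) ℂ} (G : Matrix A' A ℂ) (H : Matrix B' B ℂ)
    (h : KeyWitness ((G ⊗ₖ H) * σ * (G ⊗ₖ H)ᴴ)) : KeyWitness σ := by
  obtain ⟨k, k', a, b, h⟩ := h
  refine ⟨k, k', fun x => a x * G, fun y => b y * H, ?_⟩
  have e : ∀ x x' y y', (a x ⊗ₖ b y) * ((G ⊗ₖ H) * σ * (G ⊗ₖ H)ᴴ) * (a x' ⊗ₖ b y')ᴴ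
      = ((a x * G) ⊗ₖ (b y * H)) * σ * ((a x' * G) ⊗ₖ (b y' * H))ᴴ := by
    intro x x' y y'
    rw [mul_kronecker_mul, mul_kronecker_mul, conjTranspose_mul]
    simp only [Matrix.mul_assoc]
  simpa only [e] using h

lemma keyWitness_smul {A B : Type} [Fintype A] [DecidableEq A] [Fintype B] [DecidableEq B]
    {σ : Matrix (A × B) (A × B) ℂ} {c : ℝ} (hc : 0 ≤ c) (h : KeyWitness ((c : ℂ) • σ)) :
    KeyWitness σ := by
  refine keyWitness_local (((√c : ℝ) : ℂ) • (1 : Matrix A A ℂ)) (1 : Matrix B B ℂ) ?_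
  rw [smul_kronecker, one_kronecker_one, Matrix.smul_mul, Matrix.one_mul, conjTranspose_smul,
    conjTranspose_one, Matrix.mul_smul, Matrix.mul_one, smul_smul, Complex.star_def,
    Complex.conj_ofReal, ← Complex.ofReal_mul, Real.mul_self_sqrt hc]
  exact h

/-- Entries of the compressed state for real filters. -/
def pcEntry {ι r r' : Type*} [Fintype ι] [DecidableEq ι] (β : ι → ι → ℝ) (a a' : Matrix r ι ℝ)
    (b b' : Matrix r' ι ℝ) (u v : r × r') : ℝ :=
  (∑ i, a u.1 i * b u.2 i) * (∑ i, a' v.1 i * b' v.2 i) +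
    ∑ i, ∑ j, if i = j then 0 else β i j * (a u.1 i * b u.2 j * (a' v.1 i * b' v.2 j))

lemma pc_compress {ι r r' : Type*} [Fintype ι] [DecidableEq ι]
    (β : ι → ι → ℝ) (a a' : Matrix r ι ℝ) (b b' : Matrix r' ι ℝ) :
    (a.map Complex.ofReal ⊗ₖ b.map Complex.ofReal) * pcRaw β *
        (a'.map Complex.ofReal ⊗ₖ b'.map Complex.ofReal)ᴴ
      = (Matrix.of fun u v => pcEntry β a a' b b' u v).map Complex.ofReal := by
  rw [pcRaw_eq, Matrix.mul_add, Matrix.add_mul]
  ext u v
  rw [Matrix.add_apply, Matrix.map_apply, of_apply, pcEntry, Complex.ofReal_add]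
  congr 1
  · rw [mul_vecMulVec, vecMulVec_mul, vecMulVec_apply]
    simp only [mulVec, vecMul, dotProduct, conjTranspose_apply, kroneckerMap_apply,
      Matrix.map_apply, Fintype.sum_prod_type, Pi.star_apply]
    simp
  · rw [Matrix.mul_apply]
    simp only [mul_diagonal, Fintype.sum_prod_type, conjTranspose_apply, kroneckerMap_apply,
      Matrix.map_apply]
    rw [Complex.ofReal_sum]
    refine sum_congr rfl fun i _ => ?_
    rw [Complex.ofReal_sum]
    refine sum_congr rfl fun j _ => ?_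
    split_ifs with h
    · simp
    · simp only [Complex.star_def, map_mul, Complex.conj_ofReal, Complex.ofReal_mul]
      ring

/-- A key witness from real filters and a real test. -/
lemma keyWitness_pcRaw {ι : Type} [Fintype ι] [DecidableEq ι] {k k' : ℕ} (β : ι → ι → ℝ)
    (a : Bool → Matrix (Fin k) ι ℝ) (b : Bool → Matrix (Fin k') ι ℝ)
    (W : Matrix (Fin k × Fin k') (Fin k × Fin k') ℝ)
    (hW : Contr (W.map Complex.ofReal))
    (hX0 : 0 < ∑ u, ∑ v, W u v * pcEntry β (a false) (a true) (b false) (b true) v u)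
    (hlt : (∑ u, pcEntry β (a false) (a false) (b false) (b false) u u) *
        (∑ u, pcEntry β (a true) (a true) (b true) (b true) u u) *
        ((∑ u, pcEntry β (a false) (a false) (b true) (b true) u u) *
          (∑ u, pcEntry β (a true) (a true) (b false) (b false) u u))
        < (∑ u, ∑ v, W u v * pcEntry β (a false) (a true) (b false) (b true) v u) ^ 4) :
    KeyWitness (pcRaw β) := by
  refine ⟨k, k', fun x => (a x).map Complex.ofReal, fun y => (b y).map Complex.ofReal, ?_⟩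
  simp only [pc_compress]
  have et : ∀ M : Matrix (Fin k × Fin k') (Fin k × Fin k') ℝ,
      ((M.map Complex.ofReal).trace).re = ∑ u, M u u := by
    intro M; simp [Matrix.trace]
  simp only [et, of_apply]
  set X := ∑ u, ∑ v, W u v * pcEntry β (a false) (a true) (b false) (b true) v u
  set K := (Matrix.of fun u v => pcEntry β (a false) (a true) (b false) (b true) u v).map
    Complex.ofReal
  have hXK : X ≤ traceNorm K := by
    refine le_of_eq_of_le ?_ (re_trace_le_traceNorm hW K)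
    simp [X, K, Matrix.trace, Matrix.mul_apply]
  refine lt_of_lt_of_le ((Real.sqrt_lt' ?_).mpr ?_) (pow_le_pow_left₀ hX0.le hXK 2)
  · positivity
  · calc _ < X ^ 4 := hlt
      _ = _ := by ring

/-- Weights with small products on two opposite edges give a key witness. -/
lemma witness_pair (β : Fin 2 → Fin 2 → ℝ) (h0 : 0 ≤ β 0 1) (h1 : 0 ≤ β 1 0)
    (h0' : β 0 1 ≤ 1 / 4) (h1' : β 1 0 ≤ 1 / 4) : KeyWitness (pcRaw β) := by
  refine keyWitness_pcRaw (k := 1) (k' := 1) β
    (fun x => !![1, if x then -1 else 1]) (fun x => !![1, if x then -1 else 1])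
    (Matrix.of fun _ _ => 1) ?_ ?_ ?_
  · refine contr_of_unitary ?_
    ext u v
    obtain rfl := Subsingleton.elim u v
    simp [Matrix.mul_apply]
  · simp [pcEntry, Fin.sum_univ_two, Fintype.sum_prod_type]
    linarith
  · simp [pcEntry, Fin.sum_univ_two, Fintype.sum_prod_type]
    nlinarith

/-- Alice's filters on a triangle. -/
def triA (y : ℝ) (x : Bool) : Matrix (Fin 2) (Fin 3) ℝ := !![1, 0, if x then -y else y; 0, 1, 0]

/-- Bob's filters on a triangle. -/
def triB (y : ℝ) (x : Bool) : Matrix (Fin 2) (Fin 3) ℝ := !![y, 0, if x then -1 else 1; 0, 1, 0]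

lemma tri_prob (β : Fin 3 → Fin 3 → ℝ) (y : ℝ) (σ τ : Bool) :
    ∑ u, pcEntry β (triA y σ) (triA y σ) (triB y τ) (triB y τ) u u
      = (if σ = τ then 4 * y ^ 2 else 0) + 1 + (β 0 2 + β 2 0 * y ^ 4) + β 0 1 + β 1 2
        + y ^ 2 * (β 2 1 + β 1 0) := by
  cases σ <;> cases τ <;>
    simp [pcEntry, triA, triB, Fin.sum_univ_three, Fin.sum_univ_two, Fintype.sum_prod_type] <;> ring

lemma tri_cross (β : Fin 3 → Fin 3 → ℝ) (y c s : ℝ) :
    ∑ u, ∑ v, (Matrix.of fun p q : Fin 2 × Fin 2 =>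
      (![![![![-c, 0], ![0, s]], ![![0, 1], ![0, 0]]], ![![![0, 0], ![-1, 0]], ![![s, 0], ![0, c]]]]
        : Fin 2 → Fin 2 → Fin 2 → Fin 2 → ℝ) p.1 p.2 q.1 q.2) u v *
          pcEntry β (triA y false) (triA y true) (triB y false) (triB y true) v u
      = -c * (4 * y ^ 2 - (β 0 2 + β 2 0 * y ^ 4)) + 4 * y * s + c + β 0 1 + β 1 2
        - y ^ 2 * (β 2 1 + β 1 0) := by
  simp [pcEntry, triA, triB, Fin.sum_univ_three, Fin.sum_univ_two, Fintype.sum_prod_type]
  ring

/-- Filters on a triangle whose forward edges are light. -/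
lemma witness_triangle (β : Fin 3 → Fin 3 → ℝ) (hnn : ∀ i j, i ≠ j → 0 ≤ β i j)
    (h10 : β 1 0 ≤ 1 / 16) (h21 : β 2 1 ≤ 1 / 16) (h02 : β 0 2 ≤ 1 / 16) :
    KeyWitness (pcRaw β) := by
  have n01 := hnn 0 1 (by decide)
  have n10 := hnn 1 0 (by decide)
  have n12 := hnn 1 2 (by decide)
  have n21 := hnn 2 1 (by decide)
  have n02 := hnn 0 2 (by decide)
  have n20 := hnn 2 0 (by decide)
  obtain ⟨y, hy, hy8, hy20⟩ : ∃ y : ℝ, 0 < y ∧ y ≤ 1 / 8 ∧ β 2 0 * y ^ 4 ≤ 1 / 16 := by
    refine ⟨min (1 / 8) (1 / (16 * (1 + β 2 0))), by positivity, min_le_left _ _, ?_⟩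
    set y := min (1 / 8 : ℝ) (1 / (16 * (1 + β 2 0)))
    have hy : 0 ≤ y := by positivity
    have hy1 : y ≤ 1 := (min_le_left _ _).trans (by norm_num)
    calc β 2 0 * y ^ 4 ≤ β 2 0 * y :=
          mul_le_mul_of_nonneg_left (pow_le_of_le_one hy hy1 (by norm_num)) n20
      _ ≤ β 2 0 * (1 / (16 * (1 + β 2 0))) := mul_le_mul_of_nonneg_left (min_le_right _ _) n20
      _ ≤ _ := by rw [mul_one_div, div_le_div_iff₀ (by positivity) (by norm_num)]; nlinarith
  set P := β 0 2 + β 2 0 * y ^ 4 with hP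
  set w := 1 + P with hw
  set v := y ^ 2 with hv
  have hw1 : 1 ≤ w := by rw [hw, hP]; linarith [mul_nonneg n20 (pow_nonneg hy.le 4)]
  have hw2 : w ≤ 9 / 8 := by rw [hw, hP]; linarith
  have hv0 : 0 < v := by positivity
  have hv64 : v ≤ 1 / 64 := by rw [hv]; nlinarith
  have hden : 0 < w ^ 2 + 4 * v := by positivity
  set c := (w ^ 2 - 4 * v) / (w ^ 2 + 4 * v) with hc
  set s := 4 * y * w / (w ^ 2 + 4 * v) with hs
  have hcs : c * c + s * s = 1 := by
    rw [hc, hs]; field_simp; rw [hv]; ring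
  set e := 1 + P + β 0 1 + β 1 2 + v * (β 2 1 + β 1 0) with he
  set X := -c * (4 * v - P) + 4 * y * s + c + β 0 1 + β 1 2 - v * (β 2 1 + β 1 0) with hX
  have hXe : e + 2 * v ≤ X := by
    have key : -c * (4 * v - P) + 4 * y * s + c
        = w + 4 * v * (w * (2 - w) + 4 * v) / (w ^ 2 + 4 * v) := by
      rw [hc, hs, hw]; field_simp; rw [hv]; ring
    have h2 : 4 * v * (5 / 8) ≤ 4 * v * (w * (2 - w) + 4 * v) / (w ^ 2 + 4 * v) := by
      rw [le_div_iff₀ hden]
      have : 5 / 8 * (w ^ 2 + 4 * v) ≤ w * (2 - w) + 4 * v := by nlinarith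
      nlinarith
    have h3 : v * (β 2 1 + β 1 0) ≤ v * (1 / 8) := mul_le_mul_of_nonneg_left (by linarith) hv0.le
    rw [hX, key, he, hw]
    linarith
  have he1 : 1 ≤ e := by
    rw [he]; nlinarith [mul_nonneg hv0.le (add_nonneg n21 n10), mul_nonneg n20 (pow_nonneg hy.le 4)]
  refine keyWitness_pcRaw (k := 2) (k' := 2) β (triA y) (triB y)
    (Matrix.of fun p q =>
      (![![![![-c, 0], ![0, s]], ![![0, 1], ![0, 0]]], ![![![0, 0], ![-1, 0]], ![![s, 0], ![0, c]]]]
        : Fin 2 → Fin 2 → Fin 2 → Fin 2 → ℝ) p.1 p.2 q.1 q.2) ?_ ?_ ?_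
  · refine contr_of_unitary ?_
    ext ⟨u1, u2⟩ ⟨v1, v2⟩
    fin_cases u1 <;> fin_cases u2 <;> fin_cases v1 <;> fin_cases v2 <;>
      simp [Matrix.mul_apply, Fintype.sum_prod_type, Fin.sum_univ_two] <;>
      first | ring1 | (norm_cast; linarith) | norm_cast
  · rw [tri_cross, ← hv, ← hP, ← hX]
    linarith
  · rw [tri_cross, tri_prob, tri_prob, tri_prob, tri_prob, ← hv, ← hP, ← hX]
    have e1 : 4 * v + 1 + P + β 0 1 + β 1 2 + v * (β 2 1 + β 1 0) = e + 4 * v := by rw [he]; ring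
    have e2 : (0 : ℝ) + 1 + P + β 0 1 + β 1 2 + v * (β 2 1 + β 1 0) = e := by rw [he]; ring
    simp only [if_true, if_false, Bool.false_eq_true, Bool.true_eq_false, e1, e2]
    have : e * (e + 4 * v) < X ^ 2 :=
      lt_of_lt_of_le (by linarith [mul_pos hv0 hv0]) (pow_le_pow_left₀ (by linarith) hXe 2)
    clear_value e v X
    calc _ = (e * (e + 4 * v)) ^ 2 := by ring
      _ < (X ^ 2) ^ 2 := pow_lt_pow_left₀ this (by positivity) two_ne_zero
      _ = _ := (pow_mul X 2 2).symm

/-- Compression of `n` copies to constant strings, with a gauge `r`. -/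
lemma witness_powState {d m n : ℕ} (hn : 0 < n) {α : Fin d → Fin d → ℝ} (hd : 0 < d)
    (hα : ∀ i j, i ≠ j → 0 ≤ α i j) (f : Fin m → Fin d) (hf : Function.Injective f)
    (s : Fin m → ℝ) (hs : ∀ i, 0 < s i)
    (h : KeyWitness (pcRaw fun i j => α (f i) (f j) ^ n * (s i / s j))) :
    KeyWitness (powState (phaseCov α) n) := by
  set c := (((d : ℝ) + ∑ i, ∑ j, if i = j then 0 else α i j)⁻¹) ^ n with hc
  have hc0 : 0 < c := pow_pos (inv_pos.mpr (norm_const_pos hd hα)) n
  refine keyWitness_local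
    (Matrix.of fun (i : Fin m) (x : Copies d n) => if x = fun _ => f i then ((√(s i) : ℝ) : ℂ) else 0)
    (Matrix.of fun (i : Fin m) (x : Copies d n) =>
      if x = fun _ => f i then (((√(s i))⁻¹ : ℝ) : ℂ) else 0) ?_
  refine keyWitness_smul (c := c⁻¹) (inv_pos.mpr hc0).le ?_
  convert h using 1
  ext ⟨i, j⟩ ⟨k, l⟩
  simp only [Matrix.smul_apply, Matrix.mul_apply, conjTranspose_apply, kroneckerMap_apply, of_apply,
    Fintype.sum_prod_type, ite_mul, zero_mul, mul_ite, mul_zero, sum_ite_eq', mem_univ, if_true,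
    apply_ite, star_zero, sum_ite_eq, sum_const_zero, smul_eq_mul]
  have hp : powState (phaseCov α) n ((fun _ => f i), fun _ => f j) ((fun _ => f k), fun _ => f l)
      = (c : ℂ) * (pcRaw α (f i, f j) (f k, f l)) ^ n := by
    simp only [powState, of_apply, prod_const, card_univ, Fintype.card_fin, phaseCov,
      Matrix.smul_apply, smul_eq_mul, mul_pow, hc, Complex.ofReal_pow]
  rw [hp]
  have hi := Real.sqrt_pos.mpr (hs i)
  have hj := Real.sqrt_pos.mpr (hs j)
  by_cases h1 : i = j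
  · subst h1
    by_cases h2 : k = l
    · subst h2
      have hk := Real.sqrt_pos.mpr (hs k)
      simp [pcRaw, ← Complex.ofReal_mul]
      field_simp
    · have h2' : f k ≠ f l := hf.ne h2
      simp [pcRaw, h2, h2', zero_pow hn.ne']
  · have h1' : f i ≠ f j := hf.ne h1
    by_cases h3 : (i, j) = (k, l)
    · obtain ⟨rfl, rfl⟩ := Prod.ext_iff.mp h3
      simp [pcRaw, h1, h1']
      norm_cast
      field_simp
      rw [Real.sq_sqrt (hs i).le, Real.sq_sqrt (hs j).le]
      field_simp [(hs j).ne']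
    · have h3' : (f i, f j) ≠ (f k, f l) := fun h => h3 (Prod.ext (hf (Prod.ext_iff.mp h).1) (hf (Prod.ext_iff.mp h).2))
      simp [pcRaw, h1', h3', zero_pow hn.ne', h1, h3]

lemma exists_pow_le {x δ : ℝ} (hx0 : 0 ≤ x) (hx : x < 1) (hδ : 0 < δ) :
    ∃ n : ℕ, 0 < n ∧ x ^ n ≤ δ := by
  obtain ⟨n, hn⟩ := exists_pow_lt_of_lt_one hδ hx
  exact ⟨n + 1, n.succ_pos, (pow_le_pow_of_le_one hx0 hx.le n.le_succ).trans hn.le⟩

/-- A light opposite pair of weights gives a positive key rate. -/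
theorem key_of_light_pair {d : ℕ} {α : Fin d → Fin d → ℝ} (hα : ∀ i j, i ≠ j → 0 ≤ α i j)
    {i j : Fin d} (hij : i ≠ j) (h : α i j * α j i < 1) : PositiveKeyRate (phaseCov α) := by
  have hd : 0 < d := i.pos
  obtain ⟨η, hη, hη1⟩ : ∃ η, 0 < η ∧ (α i j + η) * (α j i + η) < 1 := by
    have ht : Filter.Tendsto (fun η : ℝ => (α i j + η) * (α j i + η)) (nhdsWithin 0 (Set.Ioi 0))
        (nhds (α i j * α j i)) := by
      refine Filter.Tendsto.mono_left ?_ nhdsWithin_le_nhds
      exact Continuous.tendsto' (by fun_prop) _ _ (by simp)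
    exact ((eventually_mem_nhdsWithin).and (ht.eventually_lt_const h)).exists
  have a1 := hα i j hij
  have a2 := hα j i hij.symm
  obtain ⟨n, hn, hn'⟩ := exists_pow_le (mul_nonneg (by linarith) (by linarith : 0 ≤ α j i + η)) hη1
    (show (0 : ℝ) < 1 / 16 by norm_num)
  refine positiveKeyRate_of_witness (phaseCov_isState hd hα) hn
    (witness_powState hn hd hα ![i, j] ?_ ![1 / (4 * (α i j + η) ^ n), 1] ?_ ?_)
  · intro a b hab; fin_cases a <;> fin_cases b <;> simp_all
  · intro a; fin_cases a <;> simp <;> positivity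
  · have hA : 0 < (α i j + η) ^ n := by positivity
    refine witness_pair _ (by simp; positivity) (by simp; positivity) ?_ ?_
    · simp only [Matrix.cons_val_zero, Matrix.cons_val_one, Matrix.head_cons]
      calc α i j ^ n * (1 / (4 * (α i j + η) ^ n) / 1)
          ≤ (α i j + η) ^ n * (1 / (4 * (α i j + η) ^ n) / 1) := by gcongr; linarith
        _ = _ := by field_simp
    · simp only [Matrix.cons_val_zero, Matrix.cons_val_one, Matrix.head_cons]
      calc α j i ^ n * (1 / (1 / (4 * (α i j + η) ^ n)))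
          ≤ (α j i + η) ^ n * (1 / (1 / (4 * (α i j + η) ^ n))) := by gcongr; linarith
        _ = 4 * ((α i j + η) * (α j i + η)) ^ n := by rw [mul_pow]; field_simp
        _ ≤ _ := by linarith

/-- A light triangle of weights gives a positive key rate. -/
theorem key_of_light_triangle {d : ℕ} {α : Fin d → Fin d → ℝ} (hα : ∀ i j, i ≠ j → 0 ≤ α i j)
    {i j k : Fin d} (hij : i ≠ j) (hjk : j ≠ k) (hki : k ≠ i)
    (h : α i j * α j k * α k i < 1) : PositiveKeyRate (phaseCov α) := by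
  have hd : 0 < d := i.pos
  obtain ⟨η, hη, hη1⟩ : ∃ η, 0 < η ∧ (α i j + η) * (α j k + η) * (α k i + η) < 1 := by
    have ht : Filter.Tendsto (fun η : ℝ => (α i j + η) * (α j k + η) * (α k i + η))
        (nhdsWithin 0 (Set.Ioi 0)) (nhds (α i j * α j k * α k i)) := by
      refine Filter.Tendsto.mono_left ?_ nhdsWithin_le_nhds
      exact Continuous.tendsto' (by fun_prop) _ _ (by simp)
    exact ((eventually_mem_nhdsWithin).and (ht.eventually_lt_const h)).exists
  have a1 := hα i j hij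
  have a2 := hα j k hjk
  have a3 := hα k i hki
  set δ : ℝ := 1 / 16 with hδ
  obtain ⟨n, hn, hn'⟩ := exists_pow_le
    (show 0 ≤ (α i j + η) * (α j k + η) * (α k i + η) by positivity) hη1
    (show (0 : ℝ) < δ ^ 3 by norm_num [hδ])
  set A := (α i j + η) ^ n with hA
  set B := (α j k + η) ^ n with hB
  set C := (α k i + η) ^ n with hC
  have hA0 : 0 < A := by positivity
  have hB0 : 0 < B := by positivity
  have hC0 : 0 < C := by positivity
  have hABC : A * B * C ≤ δ ^ 3 := by rw [hA, hB, hC, ← mul_pow, ← mul_pow]; exact hn'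
  refine positiveKeyRate_of_witness (phaseCov_isState hd hα) hn
    (witness_powState hn hd hα ![i, k, j] ?_ ![1, B * (A / δ) / δ, A / δ] ?_ ?_)
  · intro a b hab; fin_cases a <;> fin_cases b <;> simp_all
  · intro a; fin_cases a <;> simp <;> positivity
  · refine witness_triangle _ (fun a b hab => ?_) ?_ ?_ ?_
    · refine mul_nonneg (pow_nonneg (hα _ _ ?_) _) (div_nonneg ?_ ?_)
      · fin_cases a <;> fin_cases b <;> simp_all [eq_comm]
      all_goals (fin_cases a <;> fin_cases b <;> simp <;> positivity)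
    · simp
      calc α k i ^ n * (B * (A / δ) / δ) ≤ C * (B * (A / δ) / δ) := by
            rw [hC]; gcongr; linarith
        _ = A * B * C / δ ^ 2 := by ring
        _ ≤ δ ^ 3 / δ ^ 2 := by gcongr
        _ = _ := by norm_num [hδ]
    · simp
      calc α j k ^ n * (A / δ / (B * (A / δ) / δ)) ≤ B * (A / δ / (B * (A / δ) / δ)) := by
            rw [hB]; gcongr; linarith
        _ = δ := by field_simp
        _ ≤ _ := by norm_num [hδ]
    · simp
      calc α i j ^ n * (δ / A) ≤ A * (δ / A) := by rw [hA]; gcongr; linarith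
        _ = δ := by field_simp
        _ ≤ _ := by norm_num [hδ]

end Vale.Agent.P372.Key
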