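import Vale.Agent.P372.Key.Mean

/-! Leftover hashing against quantum side information with uniformly random functions (P372). -/

namespace Vale.Agent.P372.Key

open Matrix Finset
open Vale.Agent.P372
open scoped Kronecker ComplexOrder

variable {α β : Type*} [Fintype α] [DecidableEq α] [Fintype β] [DecidableEq β]
variable {Z : Type*} [Fintype Z] [DecidableEq Z]

/-- Two distinct points collide with probability exactly `1 / card β`. -/
lemma card_collide {x x' : α} (hx : x ≠ x') :
    (univ.filter fun h : α → β => h x = h x').card * Fintype.card β = Fintype.card (α → β) := by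
  rw [← Fintype.card_subtype (fun h : α → β => h x = h x'), ← Fintype.card_prod]
  refine Fintype.card_congr
    { toFun := fun p => Function.update p.1.1 x p.2
      invFun := fun g => (⟨Function.update g x (g x'), by simp [Function.update_of_ne hx.symm]⟩, g x)
      left_inv := ?_
      right_inv := ?_ }
  · rintro ⟨⟨h, hh⟩, v⟩
    simp [Function.update_of_ne hx.symm, ← hh]
  · intro g
    simp

lemma sum_ite_collide {x x' : α} :
    ((∑ h : α → β, if h x = h x' then (1 : ℝ) else 0) - Fintype.card (α → β) / Fintype.card β)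
      = if x = x' then
          (Fintype.card (α → β) : ℝ) - Fintype.card (α → β) / Fintype.card β else 0 := by
  by_cases hx : x = x'
  · subst hx; simp
  · rw [if_neg hx, sum_boole, sub_eq_zero]
    rcases Nat.eq_zero_or_pos (Fintype.card β) with h0 | h0
    · have : IsEmpty β := Fintype.card_eq_zero_iff.mp h0
      have : Nonempty α := ⟨x⟩
      simp [h0]
    · rw [eq_div_iff (by exact_mod_cast h0.ne')]
      exact_mod_cast card_collide (β := β) hx

omit [DecidableEq Z] in
lemma hs_sum_smul {ι : Type*} [Fintype ι] (c : ι → ℝ) (K : ι → Matrix Z Z ℂ) :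
    hs (∑ i, (c i : ℂ) • K i) = ∑ i, ∑ j, c i * c j * (((K i)ᴴ * K j).trace).re := by
  simp only [hs, conjTranspose_sum, conjTranspose_smul, Matrix.mul_sum]
  simp only [Matrix.sum_mul, Matrix.smul_mul, Matrix.mul_smul, trace_sum, trace_smul,
    Complex.re_sum, smul_eq_mul]
  rw [sum_comm]
  refine sum_congr rfl fun i _ => ?_
  rw [Finset.mul_sum, Complex.re_sum]
  refine sum_congr rfl fun j _ => ?_
  simp [Complex.mul_re]
  ring

/-- Second moment of the hashed states around their average. -/
lemma hash_second_moment [Nonempty β] (K : α → Matrix Z Z ℂ) :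
    ∑ h : α → β, ∑ v, hs (∑ x, (((if h x = v then 1 else 0) - (Fintype.card β : ℝ)⁻¹ : ℝ) : ℂ) • K x)
      ≤ Fintype.card (α → β) * ∑ x, hs (K x) := by
  set M : ℝ := (Fintype.card β : ℝ) with hM
  have hM1 : 1 ≤ M := by rw [hM]; exact_mod_cast Fintype.card_pos
  set G : α → α → ℝ := fun x y => (((K x)ᴴ * K y).trace).re
  have e : ∀ h : α → β, ∑ v, hs (∑ x, (((if h x = v then 1 else 0) - M⁻¹ : ℝ) : ℂ) • K x)
      = ∑ x, ∑ y, ((if h x = h y then 1 else 0) - M⁻¹) * G x y := by
    intro h
    simp only [hs_sum_smul]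
    rw [sum_comm]
    refine sum_congr rfl fun x _ => ?_
    rw [sum_comm]
    refine sum_congr rfl fun y _ => ?_
    rw [← sum_mul]
    congr 1
    have : ∀ v, ((if h x = v then (1:ℝ) else 0) - M⁻¹) * ((if h y = v then 1 else 0) - M⁻¹)
        = (if h x = v then (if h y = v then 1 else 0) else 0)
          - M⁻¹ * (if h x = v then 1 else 0) - M⁻¹ * (if h y = v then 1 else 0) + M⁻¹ * M⁻¹ := by
      intro v; split_ifs <;> ring
    simp only [this, sum_add_distrib, sum_sub_distrib, ← mul_sum, sum_ite_eq, mem_univ, if_true,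
      sum_const, card_univ, nsmul_eq_mul, ← hM]
    rw [mul_inv_cancel₀ (by linarith : M ≠ 0)]
    simp only [eq_comm (a := h y)]
    ring
  simp only [e]
  rw [sum_comm, mul_sum]
  refine sum_le_sum fun x _ => ?_
  rw [sum_comm]
  simp only [← sum_mul]
  have hc : ∀ y, ∑ h : α → β, ((if h x = h y then (1:ℝ) else 0) - M⁻¹)
      = if x = y then (Fintype.card (α → β) : ℝ) - Fintype.card (α → β) / M else 0 := by
    intro y
    rw [sum_sub_distrib, ← sum_ite_collide (β := β) (x := x) (x' := y), sum_const, card_univ,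
      nsmul_eq_mul, div_eq_mul_inv]
  simp only [hc, ite_mul, zero_mul, sum_ite_eq, mem_univ, if_true]
  exact mul_le_mul_of_nonneg_right (sub_le_self _ (div_nonneg (Nat.cast_nonneg _) (by linarith)))
    (hs_nonneg _)

lemma Weight.hs_sandwich_le (w : Weight Z) {W : Matrix Z Z ℂ} (hW : Contr W) :
    hs (w.S * W * w.S) ≤ w.mass := by
  have e : hs (w.S * W * w.S) = (((w.S * w.S * W)ᴴ) * (W * (w.S * w.S))).trace.re := by
    rw [hs]
    congr 1
    simp only [conjTranspose_mul, w.hS.eq]
    calc (w.S * (Wᴴ * w.S) * (w.S * W * w.S)).trace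
        = (w.S * (Wᴴ * w.S * w.S * W * w.S)).trace := by simp only [Matrix.mul_assoc]
      _ = (Wᴴ * w.S * w.S * W * w.S * w.S).trace := Matrix.trace_mul_comm _ _
      _ = _ := by simp only [Matrix.mul_assoc]
  rw [e]
  refine (Complex.re_le_norm _).trans ((norm_trace_mul_le _ _).trans ?_)
  have h1 : hs (W * (w.S * w.S)) ≤ w.mass := hs_mul_le hW _
  have h2 : hs (w.S * w.S * W) ≤ w.mass := by
    rw [← hs_conjTranspose, conjTranspose_mul]
    refine (hs_mul_le (contr_conjTranspose hW) _).trans (le_of_eq ?_)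
    rw [hs_conjTranspose]; rfl
  calc √(hs (w.S * w.S * W)) * √(hs (W * (w.S * w.S))) ≤ √w.mass * √w.mass :=
        mul_le_mul (Real.sqrt_le_sqrt h2) (Real.sqrt_le_sqrt h1) (Real.sqrt_nonneg _)
          (Real.sqrt_nonneg _)
    _ = _ := Real.mul_self_sqrt (hs_nonneg _)

lemma Weight.re_trace_le (w : Weight Z) {W : Matrix Z Z ℂ} (hW : Contr W) (Y : Matrix Z Z ℂ) :
    ((W * Y).trace).re ≤ √w.mass * √(w.coll Y) := by
  have hTS : w.T * w.S = 1 := mul_eq_one_comm.mp w.hST
  have e : (W * Y).trace = (((w.S * W * w.S)ᴴ)ᴴ * (w.T * Y * w.T)).trace := by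
    rw [conjTranspose_conjTranspose]
    calc (W * Y).trace = ((W * ((w.S * w.T) * Y)) * (w.T * w.S)).trace := by
          rw [hTS, w.hST, Matrix.one_mul, Matrix.mul_one]
      _ = ((W * w.S * w.T * Y * w.T) * w.S).trace := by simp only [Matrix.mul_assoc]
      _ = (w.S * (W * w.S * w.T * Y * w.T)).trace := Matrix.trace_mul_comm _ _
      _ = _ := by simp only [Matrix.mul_assoc]
  rw [e]
  refine (Complex.re_le_norm _).trans ((norm_trace_mul_le _ _).trans ?_)
  rw [hs_conjTranspose]
  exact mul_le_mul_of_nonneg_right (Real.sqrt_le_sqrt (w.hs_sandwich_le hW)) (Real.sqrt_nonneg _)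

/-- Leftover hashing: averaged over all functions `h`, the hashed value is close to uniform and
decoupled from the quantum side information. -/
theorem leftover [Nonempty β] (w : Weight Z) (ω : α → Matrix Z Z ℂ)
    (W : (α → β) → β → Matrix Z Z ℂ) (hW : ∀ h v, Contr (W h v)) :
    ∑ h : α → β, ∑ v, ((W h v *
        ∑ x, (((if h x = v then 1 else 0) - (Fintype.card β : ℝ)⁻¹ : ℝ) : ℂ) • ω x).trace).re
      ≤ Fintype.card (α → β) *
          √((Fintype.card β : ℝ) * w.mass * ∑ x, w.coll (ω x)) := by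
  set c : (α → β) → β → α → ℂ :=
    fun h v x => (((if h x = v then 1 else 0) - (Fintype.card β : ℝ)⁻¹ : ℝ) : ℂ)
  have hsm := hash_second_moment (β := β) (fun x => w.T * ω x * w.T)
  have e : ∀ h v, w.coll (∑ x, c h v x • ω x) = hs (∑ x, c h v x • (w.T * ω x * w.T)) := by
    intro h v
    simp [Weight.coll, Matrix.mul_sum, Matrix.sum_mul, Matrix.mul_smul, Matrix.smul_mul]
  calc _ ≤ ∑ h : α → β, ∑ v, √w.mass * √(w.coll (∑ x, c h v x • ω x)) :=
        sum_le_sum fun h _ => sum_le_sum fun v _ => w.re_trace_le (hW h v) _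
    _ = √w.mass * ∑ p : (α → β) × β, 1 * √(w.coll (∑ x, c p.1 p.2 x • ω x)) := by
        simp only [← mul_sum, Fintype.sum_prod_type, one_mul]
    _ ≤ √w.mass * (√(∑ p : (α → β) × β, (1:ℝ)) * √(∑ p : (α → β) × β,
          hs (∑ x, c p.1 p.2 x • (w.T * ω x * w.T)))) := by
        refine mul_le_mul_of_nonneg_left ?_ (Real.sqrt_nonneg _)
        refine (Real.sum_mul_le_sqrt_mul_sqrt _ _ _).trans (le_of_eq ?_)
        congr 2
        · simp
        · refine sum_congr rfl fun p _ => ?_
          rw [e, Real.sq_sqrt (hs_nonneg _)]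
    _ ≤ √w.mass * (√((Fintype.card (α → β) : ℝ) * Fintype.card β) *
          √(Fintype.card (α → β) * ∑ x, w.coll (ω x))) := by
        refine mul_le_mul_of_nonneg_left ?_ (Real.sqrt_nonneg _)
        refine mul_le_mul (le_of_eq ?_) (Real.sqrt_le_sqrt ?_) (Real.sqrt_nonneg _)
          (Real.sqrt_nonneg _)
        · simp [Fintype.card_prod]
        · rw [Fintype.sum_prod_type]; exact hsm
    _ = _ := by
        have h0 : (0:ℝ) ≤ Fintype.card (α → β) := Nat.cast_nonneg _
        have hm : 0 ≤ w.mass := hs_nonneg _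
        have hM : (0:ℝ) ≤ Fintype.card β := Nat.cast_nonneg _
        set H : ℝ := (Fintype.card (α → β) : ℝ)
        set C := ∑ x, w.coll (ω x)
        rw [Real.sqrt_mul h0, Real.sqrt_mul h0, Real.sqrt_mul (mul_nonneg hM hm),
          Real.sqrt_mul hM]
        calc _ = (√H * √H) * (√(Fintype.card β : ℝ) * √w.mass * √C) := by ring
          _ = _ := by rw [Real.mul_self_sqrt h0]

end Vale.Agent.P372.Key
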