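import Vale.Agent.P372.Key.TN

/-! Weighted collision bounds: fidelity of Eve's two states lowers the collision sum (P372). -/

namespace Vale.Agent.P372.Key

open Matrix Finset
open Vale.Agent.P372
open scoped Kronecker ComplexOrder MatrixOrder

variable {Z q : Type*} [Fintype Z] [DecidableEq Z] [Fintype q] [DecidableEq q]

/-- A weight: a Hermitian matrix with a two-sided Hermitian inverse (`S⁴` plays the role of `σ`). -/
structure Weight (Z : Type*) [Fintype Z] [DecidableEq Z] where
  S : Matrix Z Z ℂ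
  T : Matrix Z Z ℂ
  hS : S.IsHermitian
  hT : T.IsHermitian
  hST : S * T = 1

/-- `tr σ` for a weight. -/
def Weight.mass (w : Weight Z) : ℝ := hs (w.S * w.S)

/-- The collision quantity `tr(σ^{-1/2} ω σ^{-1/2} ω)`. -/
def Weight.coll (w : Weight Z) (ω : Matrix Z Z ℂ) : ℝ := hs (w.T * ω * w.T)

lemma re_trace_mul_psd {A B : Matrix Z Z ℂ} (hA : A.PosSemidef) (hB : B.PosSemidef) :
    0 ≤ ((A * B).trace).re := trace_mul_psd_re_nonneg hA hB

lemma hs_herm {A : Matrix Z Z ℂ} (hA : A.IsHermitian) : hs A = ((A * A).trace).re := by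
  rw [hs, hA.eq]

lemma hs_le_hs_add {A B : Matrix Z Z ℂ} (hA : A.PosSemidef) (hB : B.PosSemidef) :
    hs A ≤ hs (A + B) := by
  rw [hs_herm hA.1, hs_herm (hA.add hB).1]
  simp only [Matrix.add_mul, Matrix.mul_add, trace_add, Complex.add_re]
  have h1 := re_trace_mul_psd hA hB
  have h2 := re_trace_mul_psd hB hA
  have h3 := re_trace_mul_psd hB hB
  linarith

lemma Weight.coll_mono (w : Weight Z) {ω δ : Matrix Z Z ℂ} (hω : ω.PosSemidef)
    (hδ : δ.PosSemidef) : w.coll ω ≤ w.coll (ω + δ) := by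
  simp only [Weight.coll, Matrix.mul_add, Matrix.add_mul]
  have h1 := hω.mul_mul_conjTranspose_same w.T
  have h2 := hδ.mul_mul_conjTranspose_same w.T
  rw [w.hT.eq] at h1 h2
  exact hs_le_hs_add h1 h2

lemma sub_sq_psd {R : Matrix Z Z ℂ} (hR : R.PosSemidef) (h1 : (1 - R * R).PosSemidef) :
    (R - R * R).PosSemidef := by
  set U : Matrix Z Z ℂ := (hR.1.eigenvectorUnitary : Matrix Z Z ℂ) with hU
  have hUU : U * Uᴴ = 1 := Unitary.coe_mul_star_self hR.1.eigenvectorUnitary
  have hUU' : Uᴴ * U = 1 := Unitary.coe_star_mul_self hR.1.eigenvectorUnitary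
  have hs : R = U * diagonal (RCLike.ofReal ∘ hR.1.eigenvalues) * Uᴴ := by
    simpa [Unitary.conjStarAlgAut_apply, star_eq_conjTranspose] using hR.1.spectral_theorem
  set D := diagonal (RCLike.ofReal (K := ℂ) ∘ hR.1.eigenvalues) with hD
  have hRR : R * R = U * (D * D) * Uᴴ := by
    conv_lhs => rw [hs]
    calc U * D * Uᴴ * (U * D * Uᴴ) = U * D * (Uᴴ * U) * D * Uᴴ := by
          simp only [Matrix.mul_assoc]
      _ = _ := by rw [hUU', Matrix.mul_one]; simp only [Matrix.mul_assoc]
  have hr : ∀ k, hR.1.eigenvalues k ≤ 1 := by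
    intro k
    have h := (h1.conjTranspose_mul_mul_same U).diag_nonneg (i := k)
    rw [Matrix.mul_sub, Matrix.sub_mul, Matrix.mul_one, hUU', hRR] at h
    have e : Uᴴ * (U * (D * D) * Uᴴ) * U = D * D := by
      calc Uᴴ * (U * (D * D) * Uᴴ) * U = (Uᴴ * U) * (D * D) * (Uᴴ * U) := by
            simp only [Matrix.mul_assoc]
        _ = _ := by rw [hUU', Matrix.one_mul, Matrix.mul_one]
    rw [e, hD, diagonal_mul_diagonal, Matrix.sub_apply, one_apply_eq, diagonal_apply_eq,
      Function.comp_apply] at h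
    have h' : (0 : ℂ) ≤ ((1 - hR.1.eigenvalues k * hR.1.eigenvalues k : ℝ) : ℂ) := by
      simpa using h
    have h'' := Complex.zero_le_real.mp h'
    have := hR.eigenvalues_nonneg k
    nlinarith
  have e : R - R * R = U * diagonal (fun k =>
      ((hR.1.eigenvalues k - hR.1.eigenvalues k * hR.1.eigenvalues k : ℝ) : ℂ)) * Uᴴ := by
    conv_lhs => rw [hRR]; lhs; rw [hs]
    rw [← Matrix.sub_mul, ← Matrix.mul_sub, hD, diagonal_mul_diagonal, diagonal_sub]
    congr 3
    ext k
    simp
  rw [e]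
  refine (PosSemidef.diagonal fun k => ?_).mul_mul_conjTranspose_same U
  simp only [Pi.zero_apply]
  rw [Complex.zero_le_real]
  nlinarith [hR.eigenvalues_nonneg k, hr k]

/-- The central inequality `|tr(U C₀ √P σ √Q C₁*)|² ≤ 6 tr σ · tr(√σ P √σ Q)`. -/
lemma fidelity_sq_le {A P Q RP RQ M : Matrix Z Z ℂ} (hA : A.IsHermitian)
    (hP : RP.PosSemidef) (hQ : RQ.PosSemidef) (eP : RP * RP = P) (eQ : RQ * RQ = Q)
    (hPQ : P + Q = 1) (hM : Contr M) :
    ‖(M * (RP * (A * A) * RQ)).trace‖ ^ 2
      ≤ 6 * ((A * A).trace).re * ((A * P * A * Q).trace).re := by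
  have hPp : P.PosSemidef := by
    rw [← eP]; have := posSemidef_conjTranspose_mul_self RP; rwa [hP.1.eq] at this
  have hQp : Q.PosSemidef := by
    rw [← eQ]; have := posSemidef_conjTranspose_mul_self RQ; rwa [hQ.1.eq] at this
  have hAPA : (A * P * A).PosSemidef := by
    have := hPp.mul_mul_conjTranspose_same A; rwa [hA.eq] at this
  set z := ((A * P * A * Q).trace).re with hz
  set s := ((A * A).trace).re with hs'
  have hz0 : 0 ≤ z := re_trace_mul_psd hAPA hQp
  have hs0 : 0 ≤ s := by rw [hs', ← hs_herm hA]; exact hs_nonneg A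
  have h1 : hs (RP * A * RQ) = z := by
    rw [hs, hz, conjTranspose_mul, conjTranspose_mul, hP.1.eq, hQ.1.eq, hA.eq]
    congr 1
    calc (RQ * (A * RP) * (RP * A * RQ)).trace = (RQ * (A * (RP * RP) * A * RQ)).trace := by
          simp only [Matrix.mul_assoc]
      _ = (A * P * A * RQ * RQ).trace := by rw [Matrix.trace_mul_comm, eP]
      _ = _ := by rw [Matrix.mul_assoc _ RQ RQ, eQ]
  have h2 : hs (RP * A) ≤ s := by
    have e : hs (RP * A) = ((A * A * P).trace).re := by
      rw [hs, conjTranspose_mul, hP.1.eq, hA.eq]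
      congr 1
      calc (A * RP * (RP * A)).trace = (A * (RP * RP * A)).trace := by
            simp only [Matrix.mul_assoc]
        _ = (RP * RP * A * A).trace := Matrix.trace_mul_comm _ _
        _ = _ := by rw [eP, Matrix.mul_assoc, Matrix.trace_mul_comm]
    have : 0 ≤ ((A * A * Q).trace).re := by
      refine re_trace_mul_psd ?_ hQp
      have := posSemidef_conjTranspose_mul_self A; rwa [hA.eq] at this
    have e2 : s = ((A * A * P).trace).re + ((A * A * Q).trace).re := by
      rw [hs', ← Complex.add_re, ← trace_add, ← Matrix.mul_add, hPQ, Matrix.mul_one]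
    linarith
  have h3 : hs (A * RQ - RQ * A) ≤ 2 * z := by
    have e : hs (A * RQ - RQ * A)
        = 2 * ((A * A * Q).trace).re - 2 * ((A * RQ * A * RQ).trace).re := by
      rw [hs, conjTranspose_sub, conjTranspose_mul, conjTranspose_mul, hQ.1.eq, hA.eq]
      simp only [Matrix.sub_mul, Matrix.mul_sub, trace_sub, Complex.sub_re]
      have a1 : (RQ * A * (A * RQ)).trace = (A * A * Q).trace := by
        calc (RQ * A * (A * RQ)).trace = (RQ * (A * A * RQ)).trace := by
              simp only [Matrix.mul_assoc]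
          _ = _ := by rw [Matrix.trace_mul_comm, Matrix.mul_assoc _ RQ RQ, eQ]
      have a2 : (RQ * A * (RQ * A)).trace = (A * RQ * A * RQ).trace := by
        calc (RQ * A * (RQ * A)).trace = (RQ * (A * RQ * A)).trace := by
              simp only [Matrix.mul_assoc]
          _ = _ := Matrix.trace_mul_comm _ _
      have a3 : (A * RQ * (A * RQ)).trace = (A * RQ * A * RQ).trace := by
        simp only [Matrix.mul_assoc]
      have a4 : (A * RQ * (RQ * A)).trace = (A * A * Q).trace := by
        calc (A * RQ * (RQ * A)).trace = (A * Q * A).trace := by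
              rw [← eQ]; simp only [Matrix.mul_assoc]
          _ = _ := Matrix.trace_mul_cycle _ _ _
      rw [a1, a2, a3, a4]
      ring
    have hQ1 : (1 - RQ * RQ).PosSemidef := by
      rw [eQ, ← hPQ, add_sub_cancel_right]; exact hPp
    have hD := sub_sq_psd hQ hQ1
    rw [eQ] at hD
    have hAQA : (A * Q * A).PosSemidef := by
      have := hQp.mul_mul_conjTranspose_same A; rwa [hA.eq] at this
    have hARA : (A * RQ * A).PosSemidef := by
      have := hQ.mul_mul_conjTranspose_same A; rwa [hA.eq] at this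
    have hge : ((A * Q * A * Q).trace).re ≤ ((A * RQ * A * RQ).trace).re := by
      have b1 := re_trace_mul_psd hARA hD
      have b2 := re_trace_mul_psd hAQA hD
      have c : (A * Q * A * RQ).trace = (A * RQ * A * Q).trace := by
        calc (A * Q * A * RQ).trace = ((A * Q) * (A * RQ)).trace := by
              simp only [Matrix.mul_assoc]
          _ = ((A * RQ) * (A * Q)).trace := Matrix.trace_mul_comm _ _
          _ = _ := by simp only [Matrix.mul_assoc]
      rw [Matrix.mul_sub, trace_sub, Complex.sub_re] at b1 b2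
      rw [c] at b2
      linarith
    have e2 : ((A * A * Q).trace).re = z + ((A * Q * A * Q).trace).re := by
      rw [hz, ← Complex.add_re, ← trace_add, ← Matrix.add_mul, ← Matrix.add_mul, ← Matrix.mul_add,
        hPQ, Matrix.mul_one]
    linarith
  have hsplit : RP * (A * A) * RQ = RP * A * RQ * A + RP * A * (A * RQ - RQ * A) := by
    simp only [Matrix.mul_sub, Matrix.mul_assoc]
    abel
  have bound : ∀ (X Y : Matrix Z Z ℂ), ‖(M * (X * Y)).trace‖ ≤ √(hs X) * √(hs Y) := by
    intro X Y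
    have e : (M * (X * Y)).trace = (((M * X)ᴴ)ᴴ * Y).trace := by
      rw [conjTranspose_conjTranspose, Matrix.mul_assoc]
    rw [e]
    refine (norm_trace_mul_le _ _).trans ?_
    rw [hs_conjTranspose]
    exact mul_le_mul_of_nonneg_right (Real.sqrt_le_sqrt (hs_mul_le hM _)) (Real.sqrt_nonneg _)
  have hb : ‖(M * (RP * (A * A) * RQ)).trace‖ ≤ (1 + √2) * (√z * √s) := by
    rw [hsplit, Matrix.mul_add, trace_add]
    refine (norm_add_le _ _).trans ?_
    have t1 := bound (RP * A * RQ) A
    have t2 := bound (RP * A) (A * RQ - RQ * A)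
    rw [h1, hs_herm hA] at t1
    have t2' : ‖(M * (RP * A * (A * RQ - RQ * A))).trace‖ ≤ √s * (√2 * √z) := by
      refine t2.trans (mul_le_mul (Real.sqrt_le_sqrt h2) ?_ (Real.sqrt_nonneg _)
        (Real.sqrt_nonneg _))
      rw [← Real.sqrt_mul (by norm_num : (0:ℝ) ≤ 2)]
      exact Real.sqrt_le_sqrt h3
    rw [← hs'] at t1
    linarith
  refine (pow_le_pow_left₀ (norm_nonneg _) hb 2).trans ?_
  rw [mul_pow, mul_pow, Real.sq_sqrt hz0, Real.sq_sqrt hs0]
  have h6 : (1 + √2) ^ 2 ≤ 6 := by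
    nlinarith [Real.sq_sqrt (show (0:ℝ) ≤ 2 by norm_num), Real.sqrt_nonneg 2]
  nlinarith [mul_nonneg hz0 hs0]

lemma psd_of_eq {n : Type*} {A B : Matrix n n ℂ} (h : A = B) (hB : B.PosSemidef) :
    A.PosSemidef := h ▸ hB

/-- A positive definite `σ` is the fourth power of a weight. -/
lemma exists_weight {σ : Matrix Z Z ℂ} (hσp : σ.PosDef) :
    ∃ w : Weight Z, (w.S * w.S).PosSemidef ∧ (w.S * w.S) * (w.S * w.S) = σ ∧ w.T * w.S = 1 := by
  set A := CFC.sqrt σ with hA
  have hAA : A * A = σ := CFC.sqrt_mul_sqrt_self σ hσp.posSemidef.nonneg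
  have hAp : A.PosSemidef := Matrix.nonneg_iff_posSemidef.mp (CFC.sqrt_nonneg σ)
  set S := CFC.sqrt A with hS
  have hSS : S * S = A := CFC.sqrt_mul_sqrt_self A hAp.nonneg
  have hSp : S.PosSemidef := Matrix.nonneg_iff_posSemidef.mp (CFC.sqrt_nonneg A)
  have hσu : IsUnit σ := hσp.isUnit
  have hAu : IsUnit A := by rw [← hAA] at hσu; exact isUnit_of_mul_isUnit_left hσu
  have hSu : IsUnit S := by rw [← hSS] at hAu; exact isUnit_of_mul_isUnit_left hAu
  have hSd := (Matrix.isUnit_iff_isUnit_det S).mp hSu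
  refine ⟨⟨S, S⁻¹, hSp.1, hSp.1.inv, Matrix.mul_nonsing_inv S hSd⟩, ?_, ?_,
    Matrix.nonsing_inv_mul S hSd⟩
  · exact hSS.symm ▸ hAp
  · exact hSS.symm ▸ hAA

lemma Weight.mul_sq (w : Weight Z) (h : w.T * w.S = 1) :
    (w.S * w.S) * (w.T * w.T) = 1 ∧ (w.T * w.T) * (w.S * w.S) = 1 := by
  constructor
  · calc w.S * w.S * (w.T * w.T) = w.S * (w.S * w.T) * w.T := by simp only [Matrix.mul_assoc]
      _ = 1 := by rw [w.hST, Matrix.mul_one, w.hST]
  · calc w.T * w.T * (w.S * w.S) = w.T * (w.T * w.S) * w.S := by simp only [Matrix.mul_assoc]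
      _ = 1 := by rw [h, Matrix.mul_one, h]

/-- The collision of `σ^{1/2} P σ^{1/2}` is `tr(σ^{1/2} P σ^{1/2} P)`. -/
lemma Weight.coll_eq (w : Weight Z) (h : w.T * w.S = 1) {P : Matrix Z Z ℂ} (hP : P.IsHermitian) :
    w.coll (w.S * w.S * P * (w.S * w.S))
      = ((w.S * w.S * P * (w.S * w.S) * P).trace).re := by
  have e : w.T * (w.S * w.S * P * (w.S * w.S)) * w.T = w.S * P * w.S := by
    calc w.T * (w.S * w.S * P * (w.S * w.S)) * w.T
        = (w.T * w.S) * (w.S * P * w.S) * (w.S * w.T) := by simp only [Matrix.mul_assoc]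
      _ = _ := by rw [h, w.hST, Matrix.one_mul, Matrix.mul_one]
  have hh : (w.S * P * w.S).IsHermitian := by
    simp [Matrix.IsHermitian, conjTranspose_mul, hP.eq, w.hS.eq, Matrix.mul_assoc]
  rw [Weight.coll, e, hs_herm hh]
  congr 1
  calc (w.S * P * w.S * (w.S * P * w.S)).trace = ((w.S * P * w.S * w.S * P) * w.S).trace := by
        simp only [Matrix.mul_assoc]
    _ = (w.S * (w.S * P * w.S * w.S * P)).trace := Matrix.trace_mul_comm _ _
    _ = _ := by simp only [Matrix.mul_assoc]

/-- A witness `|tr(U V₀ V₁*)|` is expressed through contractions and `√P σ √Q`. -/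
lemma witness_eq {A T2 : Matrix Z Z ℂ} {R : Bool → Matrix Z Z ℂ} (hA : A.IsHermitian)
    (hT2A : T2 * A = 1) (hR : ∀ x, (R x).IsHermitian) (hRd : ∀ x, IsUnit (R x).det)
    (V : Bool → Matrix q Z ℂ) (U : Matrix q q ℂ) :
    (U * (V false * (V true)ᴴ)).trace
      = (((V true * T2 * (R true)⁻¹)ᴴ * U * (V false * T2 * (R false)⁻¹))
          * (R false * (A * A) * R true)).trace := by
  set C : Bool → Matrix q Z ℂ := fun x => V x * T2 * (R x)⁻¹ with hC
  have hVC : ∀ x, V x = C x * R x * A := by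
    intro x
    calc V x = V x * (T2 * A) := by rw [hT2A, Matrix.mul_one]
      _ = V x * T2 * ((R x)⁻¹ * R x) * A := by
          rw [Matrix.nonsing_inv_mul _ (hRd x), Matrix.mul_one, ← Matrix.mul_assoc]
      _ = _ := by simp only [hC, Matrix.mul_assoc]
  show _ = (((C true)ᴴ * U * C false) * _).trace
  rw [hVC false, hVC true, conjTranspose_mul, conjTranspose_mul, hA.eq, (hR true).eq]
  calc (U * (C false * R false * A * (A * (R true * (C true)ᴴ)))).trace
      = ((U * C false * (R false * (A * A) * R true)) * (C true)ᴴ).trace := by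
        simp only [Matrix.mul_assoc]
    _ = ((C true)ᴴ * (U * C false * (R false * (A * A) * R true))).trace :=
        Matrix.trace_mul_comm _ _
    _ = _ := by simp only [Matrix.mul_assoc]

/-- `V T² √P⁻¹` is a contraction when `V*V ≤ A P A`. -/
lemma contr_douglas {A T2 R P W : Matrix Z Z ℂ} (hT2 : T2.IsHermitian) (hT2A : T2 * A = 1)
    (hAT2 : A * T2 = 1) (hR : R.IsHermitian) (hRd : IsUnit R.det) (hRR : R * R = P)
    (hW : W = A * P * A) (V : Matrix q Z ℂ) (hV : (W - Vᴴ * V).PosSemidef) :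
    Contr (V * T2 * R⁻¹) := by
  have h1 : R⁻¹ * (T2 * W * T2) * R⁻¹ = 1 := by
    rw [hW, ← hRR]
    calc R⁻¹ * (T2 * (A * (R * R) * A) * T2) * R⁻¹
        = (R⁻¹ * (T2 * A) * R) * (R * (A * T2) * R⁻¹) := by simp only [Matrix.mul_assoc]
      _ = 1 := by
          rw [hT2A, hAT2, Matrix.mul_one, Matrix.mul_one, Matrix.nonsing_inv_mul _ hRd,
            Matrix.mul_nonsing_inv _ hRd, Matrix.one_mul]
  have e : (1 : Matrix Z Z ℂ) - (V * T2 * R⁻¹)ᴴ * (V * T2 * R⁻¹)
      = (T2 * R⁻¹)ᴴ * (W - Vᴴ * V) * (T2 * R⁻¹) := by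
    rw [Matrix.mul_sub, Matrix.sub_mul]
    congr 1
    · rw [← h1, conjTranspose_mul, hT2.eq, hR.inv.eq]; simp only [Matrix.mul_assoc]
    · simp only [conjTranspose_mul, hT2.eq, hR.inv.eq, Matrix.mul_assoc]
  exact psd_of_eq e (hV.conjTranspose_mul_mul_same _)

/-- Regularised weight of two Eve states whose collision sum is strictly below `tr σ` when the
fidelity `|tr(U V₀ V₁*)|` is positive. -/
lemma exists_weight_collision (ω : Bool → Matrix Z Z ℂ) (hω : ∀ x, (ω x).PosSemidef)
    (V : Bool → Matrix q Z ℂ) (hV : ∀ x, (ω x - (V x)ᴴ * V x).PosSemidef)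
    {U : Matrix q q ℂ} (hU : Contr U) {η : ℝ} (hη : 0 < η) :
    ∃ w : Weight Z, w.mass = ((ω false + ω true).trace).re + 2 * η * Fintype.card Z ∧
      w.coll (ω false) + w.coll (ω true)
        ≤ w.mass - ‖(U * (V false * (V true)ᴴ)).trace‖ ^ 2 / (3 * w.mass) := by
  set E : Matrix Z Z ℂ := (η : ℂ) • 1 with hE
  have hEp : E.PosDef := PosDef.one.smul (by exact_mod_cast hη)
  have hpd : ∀ x, (ω x + E).PosDef := fun x => PosDef.posSemidef_add (hω x) hEp
  obtain ⟨w, hAp, hAA, hTS⟩ := exists_weight ((hpd false).add (hpd true))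
  obtain ⟨hAT, hTA⟩ := w.mul_sq hTS
  set A := w.S * w.S
  set T2 := w.T * w.T
  have hT2 : T2.IsHermitian := by simp [T2, Matrix.IsHermitian, conjTranspose_mul, w.hT.eq]
  have hmass : w.mass = ((A * A).trace).re := hs_herm hAp.1
  refine ⟨w, ?_, ?_⟩
  · rw [hmass, hAA, hE]
    simp [trace_add, trace_smul, trace_one]
    ring
  set P : Bool → Matrix Z Z ℂ := fun x => T2 * (ω x + E) * T2 with hP
  have hPA : ∀ x, ω x + E = A * P x * A := fun x => by
    calc ω x + E = (A * T2) * (ω x + E) * (T2 * A) := by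
          rw [hAT, hTA, Matrix.one_mul, Matrix.mul_one]
      _ = _ := by simp only [hP, Matrix.mul_assoc]
  have hPd : ∀ x, (P x).PosDef := by
    intro x
    have h := (hpd x).conjTranspose_mul_mul_same (B := T2)
      (Matrix.mulVec_injective_of_isUnit ⟨⟨T2, A, hTA, hAT⟩, rfl⟩)
    rwa [hT2.eq] at h
  have hPQ : P false + P true = 1 := by
    rw [hP, ← Matrix.add_mul, ← Matrix.mul_add, ← hAA]
    calc T2 * (A * A) * T2 = (T2 * A) * (A * T2) := by simp only [Matrix.mul_assoc]
      _ = 1 := by rw [hTA, hAT, Matrix.one_mul]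
  set R : Bool → Matrix Z Z ℂ := fun x => CFC.sqrt (P x)
  have hRR : ∀ x, R x * R x = P x :=
    fun x => CFC.sqrt_mul_sqrt_self (P x) (hPd x).posSemidef.nonneg
  have hRp : ∀ x, (R x).PosSemidef :=
    fun x => Matrix.nonneg_iff_posSemidef.mp (CFC.sqrt_nonneg (P x))
  have hRd : ∀ x, IsUnit (R x).det := fun x => by
    refine (Matrix.isUnit_iff_isUnit_det _).mp ?_
    have := (hPd x).isUnit
    rw [← hRR x] at this
    exact isUnit_of_mul_isUnit_left this
  have hC : ∀ x, Contr (V x * T2 * (R x)⁻¹) := by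
    intro x
    refine contr_douglas hT2 hTA hAT (hRp x).1 (hRd x) (hRR x) (hPA x) (V x) ?_
    exact psd_of_eq (by abel) ((hV x).add hEp.posSemidef)
  have key := fidelity_sq_le (P := P false) (Q := P true) hAp.1 (hRp false) (hRp true)
    (hRR false) (hRR true) hPQ (contr_mul (contr_mul (contr_conjTranspose (hC true)) hU) (hC false))
  rw [← witness_eq hAp.1 hTA (fun x => (hRp x).1) hRd V U] at key
  obtain ⟨z, hz⟩ : ∃ z, z = ((A * P false * A * P true).trace).re := ⟨_, rfl⟩
  rw [← hz] at key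
  have hcoll : ∀ x, w.coll (ω x) ≤ ((A * P x * A * P x).trace).re := by
    intro x
    refine (w.coll_mono (hω x) hEp.posSemidef).trans (le_of_eq ?_)
    rw [hPA x]
    exact w.coll_eq hTS (hPd x).1
  have hzz : ((A * P true * A * P false).trace).re = z := by
    have e : (A * P true * A * P false).trace = (A * P false * A * P true).trace := by
      rw [Matrix.mul_assoc (A * P true), Matrix.trace_mul_comm, ← Matrix.mul_assoc]
    rw [e, hz]
  have hsum : ((A * A).trace).re = ((A * P false * A * P false).trace).re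
      + ((A * P true * A * P true).trace).re + 2 * z := by
    have e : A * A = A * (P false + P true) * A * (P false + P true) := by
      rw [hPQ, Matrix.mul_one, Matrix.mul_one]
    rw [e]
    simp only [Matrix.mul_add, Matrix.add_mul, trace_add, Complex.add_re]
    rw [hzz, ← hz]
    ring
  have hz0 : 0 ≤ z := by
    rw [hz]
    refine re_trace_mul_psd ?_ (hPd true).posSemidef
    have := (hPd false).posSemidef.mul_mul_conjTranspose_same A
    rwa [hAp.1.eq] at this
  have hf := hcoll false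
  have ht := hcoll true
  rw [hmass]
  set s := ((A * A).trace).re
  have : ‖(U * (V false * (V true)ᴴ)).trace‖ ^ 2 / (3 * s) ≤ 2 * z := by
    rcases le_or_gt s 0 with hs | hs
    · exact le_trans (div_nonpos_of_nonneg_of_nonpos (sq_nonneg _) (by linarith)) (by linarith)
    · rw [div_le_iff₀ (by linarith)]; nlinarith
  linarith

end Vale.Agent.P372.Key
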