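import Mathlib

/-! Choice of block size, code rates and error exponents (P372). -/

namespace Vale.Agent.P372.Key

open Filter Topology

lemma exists_block_size {e g : ℝ} (he : 0 < e) (he1 : e < 1) (hg : e < g) :
    ∃ m : ℕ, 0 < m ∧ 8 * e ^ m ≤ 1 ∧
      8 * e ^ m * (1 + Real.log (8 * e ^ m)⁻¹) < g ^ m / 30 := by
  have hg0 : 0 < g := he.trans hg
  have hq0 : 0 ≤ e / g := by positivity
  have hq : e / g < 1 := (div_lt_one hg0).mpr hg
  have h1 : Tendsto (fun m : ℕ => 240 * (e / g) ^ m + (240 * |Real.log e|) * ((m : ℝ) * (e / g) ^ m))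
      atTop (𝓝 0) := by
    simpa using ((tendsto_pow_atTop_nhds_zero_of_lt_one hq0 hq).const_mul 240).add
      ((tendsto_self_mul_const_pow_of_lt_one hq0 hq).const_mul (240 * |Real.log e|))
  have h2 : Tendsto (fun m : ℕ => 8 * e ^ m) atTop (𝓝 0) := by
    simpa using (tendsto_pow_atTop_nhds_zero_of_lt_one he.le he1).const_mul 8
  obtain ⟨m, ⟨hm1, hm2⟩, hm0⟩ := (((h1.eventually (gt_mem_nhds one_pos)).and
    (h2.eventually (gt_mem_nhds one_pos))).and (eventually_gt_atTop 0)).exists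
  refine ⟨m, hm0, hm2.le, ?_⟩
  have hL : Real.log (8 * e ^ m)⁻¹ ≤ m * |Real.log e| := by
    rw [Real.log_inv, Real.log_mul (by norm_num) (by positivity), Real.log_pow]
    have : (0 : ℝ) ≤ Real.log 8 := Real.log_nonneg (by norm_num)
    nlinarith [neg_abs_le (Real.log e), (Nat.cast_nonneg m : (0 : ℝ) ≤ m)]
  have hgm : (0 : ℝ) < g ^ m := pow_pos hg0 m
  have h3 : 240 * e ^ m * (1 + m * |Real.log e|) < g ^ m := by
    have := mul_lt_mul_of_pos_right hm1 hgm
    rw [one_mul] at this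
    refine lt_of_eq_of_lt ?_ this
    rw [div_pow]
    field_simp
  calc 8 * e ^ m * (1 + Real.log (8 * e ^ m)⁻¹)
      ≤ 8 * e ^ m * (1 + m * |Real.log e|) :=
        mul_le_mul_of_nonneg_left (by linarith) (by positivity)
    _ < g ^ m / 30 := by linarith

lemma two_pow_eq_exp (n : ℕ) : (2 : ℝ) ^ n = Real.exp (n * Real.log 2) := by
  rw [← Real.log_pow, Real.exp_log (by positivity)]

/-- With a suitable block size all error terms vanish at positive rate. -/
theorem exists_params {e g : ℝ} (he : 0 < e) (he1 : e < 1) (hg : e < g) :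
    ∃ (m : ℕ) (κ : ℝ), 0 < m ∧ 0 < κ ∧ ∀ ε : ℝ, 0 < ε → ∃ N₀ : ℕ, ∀ N : ℕ, N₀ ≤ N →
      ∀ ρ : ℝ, 0 ≤ ρ → ρ ≤ 1 - g ^ m / 60 →
      ∃ (l r k : ℕ) (s : ℝ), 0 < s ∧ s ≤ 1 ∧ κ * N ≤ l ∧
        2 * ((1 + 2 * e ^ m) ^ N / 2 ^ k + (1 + s) ^ (N + 1) / (s ^ k * 2 ^ r))
          + √(2 ^ (l + r)) * (ρ ^ N * 2) ≤ ε := by
  obtain ⟨m, hm, hν1, hβ⟩ := exists_block_size he he1 hg
  set ν := 8 * e ^ m with hν
  have hν0 : 0 < ν := by positivity
  set L := Real.log ν⁻¹ with hL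
  have hL0 : 0 ≤ L := Real.log_nonneg ((one_le_inv₀ hν0).mpr hν1)
  set β := ν * (1 + L) with hβd
  set χ := g ^ m / 60 with hχ
  set θ := (2 * χ - β) / 4 with hθd
  have hθ : 0 < θ := by rw [hθd, hχ]; linarith
  have hl2 : 0 < Real.log 2 := Real.log_pos (by norm_num)
  set c1 := (8 * Real.log 2 - 2) * e ^ m with hc1d
  have hc1 : 0 < c1 := mul_pos (by linarith [Real.log_two_gt_d9]) (by positivity)
  refine ⟨m, θ / Real.log 2, hm, by positivity, fun ε hε => ?_⟩
  have hlim : Tendsto (fun N : ℕ => 2 * Real.exp (-(c1 * N))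
      + 2 * (Real.exp (ν + L) * Real.exp (-(θ * N)))
      + 4 * Real.exp (-(θ * N))) atTop (𝓝 0) := by
    have h : ∀ c : ℝ, 0 < c → Tendsto (fun N : ℕ => Real.exp (-(c * N))) atTop (𝓝 0) := fun c hc =>
      Real.tendsto_exp_neg_atTop_nhds_zero.comp
        (tendsto_natCast_atTop_atTop.const_mul_atTop hc)
    simpa using (((h c1 hc1).const_mul 2).add (((h θ hθ).const_mul _).const_mul 2)).add
      ((h θ hθ).const_mul 4)
  obtain ⟨N₀, hN₀⟩ := eventually_atTop.mp (hlim.eventually (ge_mem_nhds hε))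
  refine ⟨N₀, fun N hN ρ hρ0 hρ => ?_⟩
  set k := ⌈ν * N⌉₊
  set r := ⌈(β + θ) / Real.log 2 * N⌉₊
  set l := ⌈θ / Real.log 2 * N⌉₊
  have hk1 : ν * N ≤ k := Nat.le_ceil _
  have hk2 : (k : ℝ) ≤ ν * N + 1 := (Nat.ceil_lt_add_one (by positivity)).le
  have hβ0 : 0 ≤ β + θ := by positivity
  have hr1 : (β + θ) * N ≤ r * Real.log 2 := by
    rw [← div_le_iff₀ hl2]; refine le_trans (le_of_eq ?_) (Nat.le_ceil _); ring
  have hr2 : (r : ℝ) * Real.log 2 ≤ (β + θ) * N + Real.log 2 := by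
    calc (r : ℝ) * Real.log 2 ≤ ((β + θ) / Real.log 2 * N + 1) * Real.log 2 :=
          mul_le_mul_of_nonneg_right (Nat.ceil_lt_add_one (by positivity)).le hl2.le
      _ = _ := by field_simp
  have hl3 : (l : ℝ) * Real.log 2 ≤ θ * N + Real.log 2 := by
    calc (l : ℝ) * Real.log 2 ≤ (θ / Real.log 2 * N + 1) * Real.log 2 :=
          mul_le_mul_of_nonneg_right (Nat.ceil_lt_add_one (by positivity)).le hl2.le
      _ = _ := by field_simp
  refine ⟨l, r, k, ν, hν0, hν1, Nat.le_ceil _, le_trans ?_ (hN₀ N hN)⟩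
  have t1 : (1 + 2 * e ^ m) ^ N / 2 ^ k ≤ Real.exp (-(c1 * N)) := by
    rw [div_le_iff₀ (by positivity), two_pow_eq_exp, ← Real.exp_add]
    refine (pow_le_pow_left₀ (by positivity) (show 1 + 2 * e ^ m ≤ Real.exp (2 * e ^ m) by linarith [Real.add_one_le_exp (2 * e ^ m)]) N).trans ?_
    rw [← Real.exp_nat_mul, Real.exp_le_exp]
    have := mul_le_mul_of_nonneg_right hk1 hl2.le
    rw [hc1d]
    have : ν * N * Real.log 2 = 8 * Real.log 2 * (e ^ m * N) := by rw [hν]; ring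
    nlinarith
  have t2 : (1 + ν) ^ (N + 1) / (ν ^ k * 2 ^ r) ≤ Real.exp (ν + L) * Real.exp (-(θ * N)) := by
    have e1 : ν ^ k = Real.exp (-(k * L)) := by
      rw [hL, Real.log_inv, mul_neg, neg_neg, ← Real.log_pow, Real.exp_log (by positivity)]
    rw [div_le_iff₀ (by positivity), e1, two_pow_eq_exp, ← Real.exp_add, ← Real.exp_add,
      ← Real.exp_add]
    refine (pow_le_pow_left₀ (by positivity) (show 1 + ν ≤ Real.exp ν by linarith [Real.add_one_le_exp ν]) (N + 1)).trans ?_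
    rw [← Real.exp_nat_mul, Real.exp_le_exp]
    have := mul_le_mul_of_nonneg_right hk2 hL0
    have : β * N = ν * N + ν * N * L := by rw [hβd]; ring
    push_cast
    linarith
  have t3 : √(2 ^ (l + r)) * (ρ ^ N * 2) ≤ 4 * Real.exp (-(θ * N)) := by
    have hs : √((2:ℝ) ^ (l + r)) = Real.exp (((l + r : ℕ) : ℝ) * Real.log 2 / 2) := by
      rw [two_pow_eq_exp, Real.sqrt_eq_rpow, ← Real.exp_mul]; ring_nf
    have hp : ρ ^ N ≤ Real.exp (-(χ * N)) := by
      have h1 : ρ ≤ Real.exp (-χ) := by linarith [Real.add_one_le_exp (-χ)]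
      refine (pow_le_pow_left₀ hρ0 h1 N).trans (le_of_eq ?_)
      rw [← Real.exp_nat_mul]; ring_nf
    rw [hs]
    calc Real.exp (((l + r : ℕ) : ℝ) * Real.log 2 / 2) * (ρ ^ N * 2)
        ≤ Real.exp (((l + r : ℕ) : ℝ) * Real.log 2 / 2) * (Real.exp (-(χ * N)) * 2) := by
          gcongr
      _ = 2 * Real.exp (((l + r : ℕ) : ℝ) * Real.log 2 / 2 + -(χ * N)) := by
          rw [Real.exp_add]; ring
      _ ≤ 2 * Real.exp (-(θ * N) + Real.log 2) := by
          refine mul_le_mul_of_nonneg_left (Real.exp_le_exp.mpr ?_) zero_le_two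
          have : 4 * (θ * N) = 2 * χ * N - β * N := by rw [hθd]; ring
          push_cast
          linarith
      _ = _ := by rw [Real.exp_add, Real.exp_log (by norm_num)]; ring
  linarith

end Vale.Agent.P372.Key
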