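import Vale.Agent.P372.Key.Amplify
import Vale.Agent.P372.Key.Eve

/-! One block: `m`-th tensor power of normalised witness data (P372). -/

namespace Vale.Agent.P372.Key

open Matrix Finset
open Vale.Agent.P372
open scoped Kronecker ComplexOrder

variable {P Q : Type} [Fintype P] [DecidableEq P] [Fintype Q] [DecidableEq Q]

/-- Alice's or Bob's POVM on a block of `m` copies: all `0`, all `1`, or failure. -/
def powMeas {R : Type} [Fintype R] [DecidableEq R] {j : ℕ} (f : Bool → Matrix (Fin j) R ℂ) (m : ℕ) :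
    Fin 3 → Matrix (Fin m → R) (Fin m → R) ℂ :=
  ![piMat (fun _ => (f false)ᴴ * f false), piMat (fun _ => (f true)ᴴ * f true),
    1 - piMat (fun _ => (f false)ᴴ * f false) - piMat (fun _ => (f true)ᴴ * f true)]

lemma powMeas_sum {R : Type} [Fintype R] [DecidableEq R] {j : ℕ} (f : Bool → Matrix (Fin j) R ℂ)
    (m : ℕ) : ∑ a, powMeas f m a = 1 := by
  simp [powMeas, Fin.sum_univ_three]

lemma powMeas_psd {R : Type} [Fintype R] [DecidableEq R] {j : ℕ} (f : Bool → Matrix (Fin j) R ℂ)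
    (hf : (1 - ((f false)ᴴ * f false + (f true)ᴴ * f true)).PosSemidef) {m : ℕ} (hm : 0 < m)
    (a : Fin 3) : (powMeas f m a).PosSemidef := by
  have hp : ∀ x, ((f x)ᴴ * f x).PosSemidef := fun x => posSemidef_conjTranspose_mul_self _
  fin_cases a
  · exact piMat_psd fun _ => hp false
  · exact piMat_psd fun _ => hp true
  · set M : Fin 3 → Matrix R R ℂ :=
      ![(f false)ᴴ * f false, (f true)ᴴ * f true, 1 - ((f false)ᴴ * f false + (f true)ᴴ * f true)]
    have hM : ∀ c, (M c).PosSemidef := fun c => by fin_cases c <;> [exact hp false; exact hp true; exact hf]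
    have hsum : ∑ c, M c = 1 := by simp [M, Fin.sum_univ_three]
    have h1 : ∑ J : Fin m → Fin 3, piMat (fun i => M (J i)) = 1 := by
      rw [piMat_sum]; simp [hsum, piMat_one]
    have hne : (fun _ : Fin m => (0 : Fin 3)) ≠ fun _ => 1 := fun h =>
      absurd (congrFun h ⟨0, hm⟩) (by decide)
    show (1 - piMat (fun _ => (f false)ᴴ * f false) - piMat (fun _ => (f true)ᴴ * f true)).PosSemidef
    rw [← h1, ← add_sum_erase _ _ (mem_univ (fun _ : Fin m => (0 : Fin 3))),
      ← add_sum_erase _ _ (mem_erase.mpr ⟨hne.symm, mem_univ _⟩ :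
        (fun _ : Fin m => (1 : Fin 3)) ∈ univ.erase (fun _ : Fin m => (0 : Fin 3)))]
    have hp2 := posSemidef_sum ((univ.erase (fun _ : Fin m => (0 : Fin 3))).erase fun _ => 1)
      (x := fun J : Fin m → Fin 3 => piMat fun i => M (J i)) fun J _ => piMat_psd fun i => hM (J i)
    refine psd_of_eq ?_ hp2
    have e0 : M 0 = (f false)ᴴ * f false := rfl
    have e1 : M 1 = (f true)ᴴ * f true := rfl
    simp only [e0, e1]
    abel

lemma contr_piMat {ι : Type} [Fintype ι] [DecidableEq ι] {Y Z : ι → Type} [∀ i, Fintype (Y i)]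
    [∀ i, Fintype (Z i)] [∀ i, DecidableEq (Z i)] {W : ∀ i, Matrix (Y i) (Z i) ℂ}
    (hW : ∀ i, Contr (W i)) : Contr (piMat W) := by
  unfold Contr at hW ⊢
  rw [piMat_conjTranspose, piMat_mul]
  set M : ∀ i, Bool → Matrix (Z i) (Z i) ℂ :=
    fun i b => if b then (W i)ᴴ * W i else 1 - (W i)ᴴ * W i
  have h1 : ∑ J : ι → Bool, piMat (fun i => M i (J i)) = 1 := by
    rw [piMat_sum]; simp [M, piMat_one]
  rw [← h1, ← add_sum_erase _ _ (mem_univ (fun _ : ι => true))]
  have hMp : ∀ i b, (M i b).PosSemidef := fun i b => by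
    cases b
    · exact hW i
    · exact posSemidef_conjTranspose_mul_self _
  have hp2 := posSemidef_sum (univ.erase fun _ : ι => true)
    (x := fun J : ι → Bool => piMat fun i => M i (J i)) fun J _ => piMat_psd fun i => hMp i (J i)
  refine psd_of_eq ?_ hp2
  simp only [M, if_true, add_sub_cancel_left]

lemma contr_map_star {n : Type*} [Fintype n] [DecidableEq n] {W : Matrix n n ℂ} (hW : Contr W) :
    Contr (W.map star) := by
  unfold Contr at hW ⊢
  refine psd_of_eq ?_ hW.transpose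
  ext i j
  simp [Matrix.mul_apply, Matrix.one_apply, eq_comm, mul_comm]

lemma map_star_mul {l m n : Type*} [Fintype m] (A : Matrix l m ℂ) (B : Matrix m n ℂ) :
    A.map star * B.map star = (A * B).map star := by
  ext i j; simp [Matrix.mul_apply]

lemma map_star_conjTranspose {l m : Type*} (A : Matrix l m ℂ) :
    (A.map star)ᴴ = Aᴴ.map star := by
  ext i j; simp

lemma pairMat_const_trace {E : Type} [Fintype E] (ψ : Matrix (P × Q) E ℂ) (m : ℕ)
    (h : (ψ * ψᴴ).trace = 1) :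
    ((pairMat (fun _ : Fin m => ψ)) * (pairMat (fun _ : Fin m => ψ))ᴴ).trace = 1 := by
  rw [pairMat_mul_conjTranspose, pairSq]
  have e : (∏ _i : Fin m, (ψ * ψᴴ).trace) = 1 := by simp [h]
  rw [← e, ← trace_piMat]
  exact Fintype.sum_equiv (Equiv.arrowProdEquivProdArrow (Fin m) (fun _ => P) (fun _ => Q)).symm
    _ _ fun p => rfl

lemma witness_conj {E : Type} [Fintype E] {k k' : ℕ}
    {σ : Matrix (P × Q) (P × Q) ℂ} (K0 K1 : Matrix (Fin k × Fin k') (P × Q) ℂ)
    (ψ : Matrix (P × Q) E ℂ) (hψ : ψ * ψᴴ = σ) (W : Matrix (Fin k × Fin k') (Fin k × Fin k') ℂ) :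
    (W.map star * ((K0 * ψ).map star * ((K1 * ψ).map star)ᴴ)).trace
      = star ((W * (K0 * σ * K1ᴴ)).trace) := by
  rw [map_star_conjTranspose, map_star_mul, map_star_mul, ← hψ, conjTranspose_mul]
  simp only [Matrix.mul_assoc, Matrix.trace, diag_apply, Matrix.map_apply, star_sum]

lemma block_arith {p00 p01 p10 p11 pam g ηd T Xm : ℝ} (h0 : 0 < p00) (h1 : 0 ≤ p01) (h2 : 0 ≤ p10)
    (h3 : 0 ≤ p11) (b0 : p00 ≤ pam) (b1 : p01 ≤ pam) (b2 : p10 ≤ pam) (b3 : p11 ≤ pam)
    (hm1 : ηd ≤ pam / 2) (hm2 : ηd ≤ g / 480) (hηd : 0 ≤ ηd) (hsq : Xm ^ 2 ≤ T)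
    (hg : g = Xm ^ 2 / pam) :
    8 * ηd - T / (6 * (p00 + p01 + p10 + p11 + 2 * ηd)) ≤ -(g / 60) := by
  have hp : 0 < pam := lt_of_lt_of_le h0 b0
  have key : Xm ^ 2 / (30 * pam) ≤ T / (6 * (p00 + p01 + p10 + p11 + 2 * ηd)) :=
    div_le_div₀ ((sq_nonneg Xm).trans hsq) hsq (by linarith) (by linarith)
  rw [show Xm ^ 2 / (30 * pam) = g / 30 by rw [hg]; field_simp] at key
  linarith

/-- The bounds for one good block. -/
theorem exists_good_block {σ : Matrix (P × Q) (P × Q) ℂ} (D : Normalised σ) (hσ1 : σ.trace = 1)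
    {E : Type} [Fintype E] [DecidableEq E] (ψ : Matrix (P × Q) E ℂ) (hψ : ψ * ψᴴ = σ)
    {m : ℕ} (hm : 0 < m) :
    badProb (pairMat fun _ : Fin m => ψ) (powMeas D.a m) (powMeas D.b m) ≤ 2 * D.e ^ m ∧
    ∃ w : Bool × Bool → Weight (Fin m → E), ∑ φ, √((w φ).mass * ∑ x', (w φ).coll
        (flagOut (pairMat fun _ : Fin m => ψ) (powMeas D.a m) (powMeas D.b m) φ x'))
      ≤ 1 - (D.X ^ 2 / D.pa) ^ m / 60 := by
  set Ψ := pairMat fun _ : Fin m => ψ
  set Am := powMeas D.a m
  set Bm := powMeas D.b m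
  set V1 : Bool → Bool → Matrix (Fin D.k × Fin D.k') E ℂ := fun x y =>
    ((D.a x ⊗ₖ D.b y) * ψ).map star with hV1
  have hev1 : ∀ x y, eveState ψ (((D.a x)ᴴ * D.a x) ⊗ₖ ((D.b y)ᴴ * D.b y)) = (V1 x y)ᴴ * V1 x y := by
    intro x y
    rw [hV1, mul_kronecker_mul, ← conjTranspose_kronecker]
    exact eveState_kraus ψ _
  have hidx : ∀ x : Bool, Am (if x then 1 else 0) = piMat (fun _ => (D.a x)ᴴ * D.a x) ∧
      Bm (if x then 1 else 0) = piMat (fun _ => (D.b x)ᴴ * D.b x) := by
    intro x; cases x <;> exact ⟨rfl, rfl⟩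
  have hout : ∀ x y : Bool, blockOut Ψ Am Bm (if x then 1 else 0) (if y then 1 else 0)
      = piMat (fun _ : Fin m => (V1 x y)ᴴ * V1 x y) := by
    intro x y
    rw [blockOut, (hidx x).1, (hidx y).2, eveState_pairMat]
    exact congrArg piMat (funext fun _ => hev1 x y)
  have htr1 : ∀ x y, ((V1 x y)ᴴ * V1 x y).trace
      = ((D.a x ⊗ₖ D.b y) * σ * (D.a x ⊗ₖ D.b y)ᴴ).trace := by
    intro x y
    rw [← hev1, eveState_trace, hψ, mul_kronecker_mul, ← conjTranspose_kronecker,
      Matrix.mul_assoc, Matrix.trace_mul_comm]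
  have htr : ∀ x y : Bool, ((blockOut Ψ Am Bm (if x then 1 else 0) (if y then 1 else 0)).trace).re
      = (((D.a x ⊗ₖ D.b y) * σ * (D.a x ⊗ₖ D.b y)ᴴ).trace).re ^ m := by
    intro x y
    rw [hout, trace_piMat, prod_const, card_univ, Fintype.card_fin, htr1]
    have hσp : σ.PosSemidef := hψ ▸ posSemidef_self_mul_conjTranspose ψ
    rw [trace_ofReal (hσp.mul_mul_conjTranspose_same _), ← Complex.ofReal_pow, Complex.ofReal_re,
      Complex.ofReal_re]
  have hσp : σ.PosSemidef := hψ ▸ posSemidef_self_mul_conjTranspose ψ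
  have hpnn := fun x y => weight_nonneg hσp (D.a x) (D.b y)
  have t00 := htr false false
  have t01 := htr false true
  have t10 := htr true false
  have t11 := htr true true
  simp only [Bool.false_eq_true, if_false, if_true] at t00 t01 t10 t11
  have b00 := t00.le.trans (pow_le_pow_left₀ (hpnn _ _) (D.hdiag false) m)
  have b01 := t01.le.trans (pow_le_pow_left₀ (hpnn _ _) (D.hoff false) m)
  have b10 := t10.le.trans (pow_le_pow_left₀ (hpnn _ _) (D.hoff true) m)
  have b11 := t11.le.trans (pow_le_pow_left₀ (hpnn _ _) (D.hdiag true) m)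
  constructor
  · have : badProb Ψ Am Bm
        = ((blockOut Ψ Am Bm 0 1).trace).re + ((blockOut Ψ Am Bm 1 0).trace).re := by
      simp [badProb, badPair, Fin.sum_univ_three]
    linarith
  have hA : ∀ a, (Am a).PosSemidef := powMeas_psd D.a D.hA hm
  have hB : ∀ a, (Bm a).PosSemidef := powMeas_psd D.b D.hB hm
  have hΨ1 : (Ψ * Ψᴴ).trace = 1 := pairMat_const_trace ψ m (hψ ▸ hσ1)
  have h1 : ∑ a, ∑ b, ((blockOut Ψ Am Bm a b).trace).re = 1 := by
    have e : ∑ a, ∑ b, Am a ⊗ₖ Bm b = 1 := by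
      rw [← one_kronecker_one (m := Fin m → P) (n := Fin m → Q), ← powMeas_sum D.a m,
        ← powMeas_sum D.b m]
      ext p q
      simp [kroneckerMap_apply, Matrix.sum_apply, sum_mul, mul_sum, Am, Bm]
      rw [sum_comm]
    have e' : ∑ a, ∑ b, blockOut Ψ Am Bm a b = eveState Ψ 1 := by
      rw [← e, eveState_sum]
      exact sum_congr rfl fun a _ => (eveState_sum _ _ _).symm
    simp only [← Complex.re_sum, ← trace_sum]
    rw [e', eveState_trace, Matrix.one_mul, hΨ1, Complex.one_re]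
  set Y := (D.a false ⊗ₖ D.b false) * σ * (D.a true ⊗ₖ D.b true)ᴴ with hY
  obtain ⟨W, hW, hWe⟩ := exists_contr_trace_eq Y
  set U := piMat (fun _ : Fin m => W.map star)
  set V : Bool → Matrix (Fin m → Fin D.k × Fin D.k') (Fin m → E) ℂ :=
    fun x => piMat fun _ => V1 x x
  set dE : ℝ := (Fintype.card (Fin m → E) : ℝ) + 1
  have hdE : 0 < dE := by positivity
  have hg0 : 0 ≤ D.X ^ 2 / D.pa := div_nonneg (sq_nonneg _) (by linarith [D.he, D.hepa])
  have hgpos : 0 < D.X ^ 2 / D.pa := by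
    have := D.he
    have := D.hepa
    refine div_pos ?_ (by linarith)
    have := D.hlt
    nlinarith
  set η : ℝ := min (D.pa ^ m / 2) ((D.X ^ 2 / D.pa) ^ m / 480) / dE
  have hpa : 0 < D.pa := by linarith [D.he, D.hepa]
  have hη : 0 < η := div_pos (lt_min (by positivity) (by positivity)) hdE
  obtain ⟨w, hw⟩ := exists_block_weights Ψ hA hB h1 V
    (by
      have := hout false false
      simp only [Bool.false_eq_true, if_false] at this
      rw [this, piMat_conjTranspose, piMat_mul])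
    (by
      have := hout true true
      simp only [if_true] at this
      rw [this, piMat_conjTranspose, piMat_mul])
    (contr_piMat fun _ : Fin m => contr_map_star hW) hη
  refine ⟨w, hw.trans ?_⟩
  have hF : D.X ^ m ≤ ‖(U * (V false * (V true)ᴴ)).trace‖ := by
    have e : U * (V false * (V true)ᴴ)
        = piMat fun _ : Fin m => W.map star * (V1 false false * (V1 true true)ᴴ) := by
      simp only [U, V, piMat_conjTranspose, piMat_mul]
    have e2 : (W.map star * (V1 false false * (V1 true true)ᴴ)).trace = star ((W * Y).trace) := by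
      rw [hY, hV1]
      exact witness_conj _ _ ψ hψ W
    rw [e, trace_piMat, prod_const, card_univ, Fintype.card_fin, norm_pow, e2, norm_star]
    exact pow_le_pow_left₀ D.hX0 ((D.hX.trans hWe.ge).trans (Complex.re_le_norm _)) m
  have hsq : (D.X ^ m) ^ 2 ≤ ‖(U * (V false * (V true)ᴴ)).trace‖ ^ 2 :=
    pow_le_pow_left₀ (pow_nonneg D.hX0 m) hF 2
  have hηd : η * Fintype.card (Fin m → E) ≤ min (D.pa ^ m / 2) ((D.X ^ 2 / D.pa) ^ m / 480) := by
    calc η * Fintype.card (Fin m → E) ≤ η * dE :=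
          mul_le_mul_of_nonneg_left (by simp [dE]) hη.le
      _ = _ := div_mul_cancel₀ _ hdE.ne'
  have hm1 := hηd.trans (min_le_left _ _)
  have hm2 := hηd.trans (min_le_right _ _)
  have hep : D.e ^ m ≤ D.pa ^ m := pow_le_pow_left₀ D.he.le D.hepa.le m
  have hF0 : 0 < D.X := by
    have := D.hlt
    have := D.hX0
    have := mul_pos hpa D.he
    nlinarith
  have hX1 : D.X ^ 2 ≤ (((D.a false ⊗ₖ D.b false) * σ * (D.a false ⊗ₖ D.b false)ᴴ).trace).re *
      (((D.a true ⊗ₖ D.b true) * σ * (D.a true ⊗ₖ D.b true)ᴴ).trace).re :=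
    (pow_le_pow_left₀ D.hX0 D.hX 2).trans (traceNorm_sq_le hσp _ _ _ _)
  have h00 := pos_of_mul_pos_left (lt_of_lt_of_le (pow_pos hF0 2) hX1) (hpnn _ _)
  have := block_arith (p00 := ((blockOut Ψ Am Bm 0 0).trace).re)
    (p01 := ((blockOut Ψ Am Bm 0 1).trace).re) (p10 := ((blockOut Ψ Am Bm 1 0).trace).re)
    (p11 := ((blockOut Ψ Am Bm 1 1).trace).re) (t00 ▸ pow_pos h00 m)
    (t01 ▸ pow_nonneg (hpnn _ _) m) (t10 ▸ pow_nonneg (hpnn _ _) m)
    (t11 ▸ pow_nonneg (hpnn _ _) m) b00 (b01.trans hep) (b10.trans hep) b11 hm1 hm2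
    (by positivity) hsq (g := (D.X ^ 2 / D.pa) ^ m)
    (by rw [div_pow, ← pow_mul, ← pow_mul, mul_comm 2 m])
  simp only [U, ← mul_assoc] at this ⊢
  linarith

end Vale.Agent.P372.Key
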