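import Vale.Agent.P372.Key.Defs
import Vale.Agent.P372.Prod
import Vale.Agent.P372.Key.Hash

/-! The distillation protocol on independent blocks: filter, announce successes, hash (P372). -/

namespace Vale.Agent.P372.Key

open Matrix Finset
open Vale.Agent.P372
open scoped Kronecker ComplexOrder

/-- A successful outcome. -/
def flag (a : Fin 3) : Bool := decide (a ≠ 2)

/-- Forget a bit on a block where the other party failed. -/
def mask (g : Bool) (a : Fin 3) : Fin 3 := if g then a else 2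

variable {ι : Type} [Fintype ι] [DecidableEq ι]

/-- Blockwise flags. -/
def flags (x : ι → Fin 3) : ι → Bool := fun i => flag (x i)

/-- Alice's string on the blocks where both succeeded. -/
def maskStr (g : ι → Bool) (x : ι → Fin 3) : ι → Fin 3 := fun i => mask (g i) (x i)

/-- Number of blocks where both succeeded and disagree. -/
def errs (x y : ι → Fin 3) : ℕ := (univ.filter fun i => x i ≠ 2 ∧ y i ≠ 2 ∧ x i ≠ y i).card

/-- Syndromes. -/
abbrev Syn (r : ℕ) : Type := Fin r → Bool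

/-- Hash functions: a key part and a syndrome part. -/
abbrev Fam (ι : Type) (l r : ℕ) : Type := (ι → Fin 3) → KeyVal l × Syn r

/-- Transcript: Alice's flags, Bob's flags, hash function and syndrome. -/
abbrev Tr (ι : Type) (l r : ℕ) : Type :=
  (ι → Bool) × ((ι → Bool) × ((Fam ι l r × Syn r) × Unit))

instance instDecEqFamSyn (l r : ℕ) : DecidableEq (Fam ι l r × Syn r) :=
  inferInstanceAs (DecidableEq (Fam ι l r × Syn r))

instance instDecEqTr (l r : ℕ) : DecidableEq (Tr ι l r) :=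
  instDecidableEqProd

/-- Bob's candidates for Alice's masked string. -/
def Cand {l r : ℕ} (k : ℕ) (t : Tr ι l r) (y x' : ι → Fin 3) : Prop :=
  (∀ i, flag (x' i) = (t.1 i && t.2.1 i)) ∧ (t.2.2.1.1 x').2 = t.2.2.1.2 ∧ errs x' y ≤ k

open Classical in
/-- Bob's decoder. -/
noncomputable def decode {l r : ℕ} (k : ℕ) (t : Tr ι l r) (y : ι → Fin 3) : KeyVal l :=
  if h : ∃ x', Cand k t y x' then (t.2.2.1.1 h.choose).1 else fun _ => false

/-- The register Kraus operators of a measurement whose flags are announced. -/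
def regK {X : Type} (L : (ι → Fin 3) → Matrix X X ℂ) (f : ι → Bool) (p : X) :
    Matrix (ι → Fin 3) X ℂ :=
  Matrix.of fun x q => if flags x = f then L x p q else 0

lemma regK_sandwich {X : Type} [Fintype X] (L : (ι → Fin 3) → Matrix X X ℂ) (f : ι → Bool)
    (g : (ι → Fin 3) → ℂ) :
    ∑ p, (regK L f p)ᴴ * diagonal g * regK L f p
      = ∑ x, (if flags x = f then g x else 0) • ((L x)ᴴ * L x) := by
  ext q q'
  simp only [Matrix.sum_apply, Matrix.mul_apply (M := (regK L f _)ᴴ * diagonal g),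
    Matrix.mul_diagonal, conjTranspose_apply, Matrix.smul_apply, smul_eq_mul]
  rw [sum_comm]
  refine sum_congr rfl fun x _ => ?_
  rw [Matrix.mul_apply, mul_sum]
  refine sum_congr rfl fun p _ => ?_
  by_cases h : flags x = f <;> simp [regK, h]
  ring

lemma regK_complete {X : Type} [Fintype X] [DecidableEq X] (L : (ι → Fin 3) → Matrix X X ℂ)
    (h1 : ∑ x, (L x)ᴴ * L x = 1) :
    ∑ f, ∑ p, (regK L f p)ᴴ * regK L f p = 1 := by
  classical
  have e : ∀ f p, (regK L f p)ᴴ * regK L f p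
      = (regK L f p)ᴴ * diagonal (fun _ : ι → Fin 3 => (1 : ℂ)) * regK L f p := by
    intro f p; rw [diagonal_one, Matrix.mul_one]
  simp only [e, regK_sandwich]
  rw [sum_comm]
  conv_rhs => rw [← h1]
  refine sum_congr rfl fun x _ => ?_
  rw [← sum_smul]
  simp

/-- The hashing Kraus operators on Alice's register. -/
noncomputable def hashK {l r : ℕ} (fB : ι → Bool) (m : Fam ι l r × Syn r) (x : ι → Fin 3) :
    Matrix (KeyVal l) (ι → Fin 3) ℂ :=
  Matrix.of fun k x' => if x' = x ∧ m.1 (maskStr fB x) = (k, m.2) then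
    ((√(Fintype.card (Fam ι l r) : ℝ))⁻¹ : ℝ) else 0

lemma hashK_sandwich {l r : ℕ} (fB : ι → Bool) (m : Fam ι l r × Syn r) (g : KeyVal l → ℂ) :
    ∑ x, (hashK fB m x)ᴴ * diagonal g * hashK fB m x
      = diagonal fun x => ((Fintype.card (Fam ι l r) : ℝ)⁻¹ : ℝ) *
          if (m.1 (maskStr fB x)).2 = m.2 then g (m.1 (maskStr fB x)).1 else 0 := by
  set c : ℝ := (√(Fintype.card (Fam ι l r) : ℝ))⁻¹ with hc
  have hc2 : (c : ℂ) * c = (((Fintype.card (Fam ι l r) : ℝ)⁻¹ : ℝ) : ℂ) := by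
    rw [← Complex.ofReal_mul, hc, ← mul_inv, Real.mul_self_sqrt (Nat.cast_nonneg _)]
  ext a b
  have h1 : ∀ x, ((hashK fB m x)ᴴ * diagonal g * hashK fB m x) a b
      = ∑ k, star (if a = x ∧ m.1 (maskStr fB x) = (k, m.2) then (c : ℂ) else 0) * g k *
          (if b = x ∧ m.1 (maskStr fB x) = (k, m.2) then (c : ℂ) else 0) := by
    intro x
    rw [Matrix.mul_apply]
    refine sum_congr rfl fun k _ => ?_
    rw [Matrix.mul_diagonal, conjTranspose_apply]
    rfl
  rw [Matrix.sum_apply]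
  simp only [h1]
  by_cases hab : a = b
  · subst hab
    rw [diagonal_apply_eq, ← hc2,
      sum_eq_single_of_mem a (mem_univ _) (fun x _ hx => by simp [hx.symm])]
    by_cases hs : (m.1 (maskStr fB a)).2 = m.2
    · rw [sum_eq_single_of_mem (m.1 (maskStr fB a)).1 (mem_univ _) (fun k _ hk => by
        simp [Prod.ext_iff, hk.symm])]
      simp [Prod.ext_iff, hs]
      ring
    · simp [Prod.ext_iff, hs]
  · rw [diagonal_apply_ne _ hab]
    refine sum_eq_zero fun x _ => sum_eq_zero fun k _ => ?_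
    by_cases ha : a = x
    · subst ha; simp [Ne.symm hab]
    · simp [ha]

lemma hashK_complete {l r : ℕ} (fB : ι → Bool) :
    ∑ m, ∑ x, (hashK (l := l) (r := r) fB m x)ᴴ * hashK fB m x = 1 := by
  have e : ∀ m x, (hashK (l := l) (r := r) fB m x)ᴴ * hashK fB m x
      = (hashK fB m x)ᴴ * diagonal (fun _ : KeyVal l => (1 : ℂ)) * hashK fB m x := by
    intro m x; rw [diagonal_one, Matrix.mul_one]
  simp only [e, hashK_sandwich]
  ext a b
  rw [Matrix.sum_apply]
  by_cases hab : a = b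
  · subst hab
    simp only [diagonal_apply_eq, one_apply_eq, ← mul_sum, Fintype.sum_prod_type, sum_ite_eq,
      mem_univ, if_true, sum_const, card_univ, nsmul_eq_mul, mul_one]
    push_cast
    exact inv_mul_cancel₀ (Nat.cast_ne_zero.mpr Fintype.card_ne_zero)
  · simp [hab]

variable {P Q : ι → Type} [∀ i, Fintype (P i)] [∀ i, DecidableEq (P i)] [∀ i, Fintype (Q i)]
  [∀ i, DecidableEq (Q i)]

/-- The effects of the protocol. -/
noncomputable def blockEff (l r k : ℕ) (A : ∀ i, Fin 3 → Matrix (P i) (P i) ℂ)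
    (B : ∀ i, Fin 3 → Matrix (Q i) (Q i) ℂ) (t : Tr ι l r) (ka kb : KeyVal l) :
    Matrix ((∀ i, P i) × (∀ i, Q i)) ((∀ i, P i) × (∀ i, Q i)) ℂ :=
  ∑ x, ∑ y, (if flags x = t.1 ∧ flags y = t.2.1 ∧
      t.2.2.1.1 (maskStr t.2.1 x) = (ka, t.2.2.1.2) ∧ decode k t y = kb
    then (((Fintype.card (Fam ι l r) : ℝ)⁻¹ : ℝ) : ℂ) else 0) •
      (piMat (fun i => A i (x i)) ⊗ₖ piMat (fun i => B i (y i)))

lemma sum_sandwich_left {X X' Y R : Type} [Fintype X] [Fintype X'] [Fintype Y] [DecidableEq Y]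
    [Fintype R] (K : R → Matrix X' X ℂ) (D : Matrix X' X' ℂ) (N : Matrix Y Y ℂ) :
    ∑ r, (K r ⊗ₖ (1 : Matrix Y Y ℂ))ᴴ * (D ⊗ₖ N) * (K r ⊗ₖ (1 : Matrix Y Y ℂ))
      = (∑ r, (K r)ᴴ * D * K r) ⊗ₖ N := by
  have e : ∀ r, (K r ⊗ₖ (1 : Matrix Y Y ℂ))ᴴ * (D ⊗ₖ N) * (K r ⊗ₖ (1 : Matrix Y Y ℂ))
      = ((K r)ᴴ * D * K r) ⊗ₖ N := fun r => by
    rw [conjTranspose_kronecker, conjTranspose_one, ← mul_kronecker_mul, ← mul_kronecker_mul,
      Matrix.one_mul, Matrix.mul_one]
  simp only [e]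
  ext p q
  simp [kroneckerMap_apply, Matrix.sum_apply, sum_mul]

lemma sum_sandwich_right {X Y Y' R : Type} [Fintype X] [DecidableEq X] [Fintype Y] [Fintype Y']
    [Fintype R] (K : R → Matrix Y' Y ℂ) (M : Matrix X X ℂ) (D : Matrix Y' Y' ℂ) :
    ∑ r, ((1 : Matrix X X ℂ) ⊗ₖ K r)ᴴ * (M ⊗ₖ D) * ((1 : Matrix X X ℂ) ⊗ₖ K r)
      = M ⊗ₖ (∑ r, (K r)ᴴ * D * K r) := by
  have e : ∀ r, ((1 : Matrix X X ℂ) ⊗ₖ K r)ᴴ * (M ⊗ₖ D) * ((1 : Matrix X X ℂ) ⊗ₖ K r)
      = M ⊗ₖ ((K r)ᴴ * D * K r) := fun r => by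
    rw [conjTranspose_kronecker, conjTranspose_one, ← mul_kronecker_mul, ← mul_kronecker_mul,
      Matrix.one_mul, Matrix.mul_one]
  simp only [e]
  ext p q
  simp [kroneckerMap_apply, Matrix.sum_apply, mul_sum]

lemma delta_psd {α : Type*} [Fintype α] [DecidableEq α] (p : α → Prop) [DecidablePred p] :
    (diagonal fun a => if p a then (1 : ℂ) else 0).PosSemidef :=
  PosSemidef.diagonal fun a => by simp only [Pi.zero_apply]; split_ifs <;> simp

/-- The block protocol is a protocol of local operations and public communication. -/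
theorem blockEff_lopc (l r k : ℕ) (A : ∀ i, Fin 3 → Matrix (P i) (P i) ℂ)
    (B : ∀ i, Fin 3 → Matrix (Q i) (Q i) ℂ) (hA : ∀ i a, (A i a).PosSemidef)
    (hA1 : ∀ i, ∑ a, A i a = 1) (hB : ∀ i a, (B i a).PosSemidef) (hB1 : ∀ i, ∑ a, B i a = 1) :
    LOPC l (∀ i, P i) (∀ i, Q i) (Tr ι l r) (blockEff l r k A B) := by
  classical
  choose LA hLA using fun x : ι → Fin 3 => psd_factor (piMat_psd fun i => hA i (x i))
  choose LB hLB using fun y : ι → Fin 3 => psd_factor (piMat_psd fun i => hB i (y i))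
  have hLA1 : ∑ x, (LA x)ᴴ * LA x = 1 := by
    simp only [← hLA]; rw [piMat_sum]; simp [hA1, piMat_one]
  have hLB1 : ∑ x, (LB x)ᴴ * LB x = 1 := by
    simp only [← hLB]; rw [piMat_sum]; simp [hB1, piMat_one]
  have h3 : ∀ (fA fB : ι → Bool) (m : Fam ι l r × Syn r), LOPC l (KeyVal l) (ι → Fin 3) Unit
      (fun _ ka kb => (diagonal fun a => if a = ka then (1 : ℂ) else 0) ⊗ₖ
        (diagonal fun y => if decode k (fA, fB, m, ()) y = kb then (1 : ℂ) else 0)) := by
    intro fA fB m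
    refine LOPC.measure _ _ (fun _ => delta_psd _) (fun _ => delta_psd _) ?_ ?_ <;>
    · ext a b
      rw [Matrix.sum_apply]
      by_cases hab : a = b
      · subst hab; simp
      · simp [hab]
  have h1 := LOPC.alice (fun fA p => regK LA fA p) (regK_complete LA hLA1) _ fun fA =>
    LOPC.bob (fun fB p => regK LB fB p) (regK_complete LB hLB1) _ fun fB =>
      LOPC.alice (fun m x => hashK fB m x) (hashK_complete fB) _ fun m => h3 fA fB m
  convert h1 using 1
  funext t ka kb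
  obtain ⟨fA, fB, m, u⟩ := t
  rw [sum_sandwich_left, hashK_sandwich, sum_sandwich_right, regK_sandwich, sum_sandwich_left,
    regK_sandwich, blockEff]
  ext p q
  rw [Matrix.sum_apply, kroneckerMap_apply, Matrix.sum_apply, Matrix.sum_apply, Finset.sum_mul_sum]
  refine sum_congr rfl fun x _ => ?_
  rw [Matrix.sum_apply]
  refine sum_congr rfl fun y _ => ?_
  rw [Matrix.smul_apply, Matrix.smul_apply, Matrix.smul_apply, ← hLA x, ← hLB y,
    kroneckerMap_apply, smul_eq_mul, smul_eq_mul, smul_eq_mul]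
  simp only [Prod.ext_iff]
  by_cases c1 : flags x = fA <;> by_cases c2 : flags y = fB <;>
    by_cases c3 : (m.1 (maskStr fB x)).2 = m.2 <;>
    by_cases c4 : (m.1 (maskStr fB x)).1 = ka <;>
    by_cases c5 : decode k (fA, fB, m, ()) y = kb <;>
    simp [c1, c2, c3, c4, c5, mul_assoc]

end Vale.Agent.P372.Key
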