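import Vale.Agent.P372.Key.Family

/-! Every entangled phase-covariant state of two qutrits has a positive key rate (P372). -/

namespace Vale.Agent.P372.Key

open Matrix Finset
open Vale.Agent.P372
open scoped Kronecker ComplexOrder

/-- A state which is a positive combination of products of positive operators is separable. -/
lemma separable_of_products {a b ι : Type} [Fintype a] [Fintype b] [Fintype ι]
    {ρ : Matrix (a × b) (a × b) ℂ} (hρ : ρ.trace = 1) (M : ι → Matrix a a ℂ) (N : ι → Matrix b b ℂ)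
    (hM : ∀ s, (M s).PosSemidef) (hN : ∀ s, (N s).PosSemidef) (h : ρ = ∑ s, M s ⊗ₖ N s) :
    Separable ρ := by
  classical
  have hρ' := hρ
  rw [h, trace_sum] at hρ'
  set p : ι → ℝ := fun s => (M s).trace.re * (N s).trace.re with hp
  have hreal : ∀ {n : Type} [Fintype n] {X : Matrix n n ℂ}, X.PosSemidef →
      X.trace = (X.trace.re : ℂ) ∧ 0 ≤ X.trace.re := by
    intro n _ X hX
    have h := Complex.le_def.mp hX.trace_nonneg
    exact ⟨Complex.ext rfl (by simpa using h.2.symm), h.1⟩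
  have hsum : ∑ s, p s = 1 := by
    have : ((∑ s, p s : ℝ) : ℂ) = 1 := by
      rw [← hρ', Complex.ofReal_sum]
      refine sum_congr rfl fun s _ => ?_
      rw [trace_kronecker, hp, Complex.ofReal_mul, ← (hreal (hM s)).1, ← (hreal (hN s)).1]
    exact_mod_cast this
  have hp0 : ∀ s, 0 ≤ p s := fun s => mul_nonneg (hreal (hM s)).2 (hreal (hN s)).2
  obtain ⟨s0, hs0⟩ : ∃ s, p s ≠ 0 := by
    by_contra hc
    push Not at hc
    simp [hc] at hsum
  have hs0' := hs0
  rw [hp, mul_ne_zero_iff] at hs0'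
  set e := Fintype.equivFin ι
  have hnorm : ∀ {n : Type} [Fintype n] {X : Matrix n n ℂ}, X.PosSemidef → X.trace.re ≠ 0 →
      IsState (((X.trace.re)⁻¹ : ℝ) • X) := by
    intro n _ X hX hne
    refine ⟨hX.smul (inv_nonneg.mpr (hreal hX).2), ?_⟩
    rw [trace_smul, (hreal hX).1]
    simp [Complex.real_smul, hne]
  set α : ι → Matrix a a ℂ := fun s =>
    if (M s).trace.re = 0 then ((M s0).trace.re)⁻¹ • M s0 else ((M s).trace.re)⁻¹ • M s
  set β : ι → Matrix b b ℂ := fun s =>
    if (N s).trace.re = 0 then ((N s0).trace.re)⁻¹ • N s0 else ((N s).trace.re)⁻¹ • N s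
  refine ⟨Fintype.card ι, fun r => p (e.symm r), fun r => α (e.symm r), fun r => β (e.symm r),
    fun r => hp0 _, by rw [Equiv.sum_comp e.symm p, hsum], fun r => ⟨?_, ?_⟩, ?_⟩
  · simp only [α]
    split_ifs with h0
    · exact hnorm (hM _) hs0'.1
    · exact hnorm (hM _) h0
  · simp only [β]
    split_ifs with h0
    · exact hnorm (hN _) hs0'.2
    · exact hnorm (hN _) h0
  · rw [h, Equiv.sum_comp e.symm fun s => (p s : ℂ) • (α s ⊗ₖ β s)]
    refine sum_congr rfl fun s _ => ?_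
    by_cases hm : (M s).trace.re = 0
    · have : M s = 0 := (hM s).trace_eq_zero_iff.mp (by rw [(hreal (hM s)).1, hm]; simp)
      simp [hp, this]
    by_cases hn : (N s).trace.re = 0
    · have : N s = 0 := (hN s).trace_eq_zero_iff.mp (by rw [(hreal (hN s)).1, hn]; simp)
      simp [hp, this]
    ext u v
    simp only [α, β, if_neg hm, if_neg hn, hp, Matrix.smul_apply, kroneckerMap_apply,
      smul_eq_mul, Complex.real_smul, Complex.ofReal_mul, Complex.ofReal_inv]
    have hm' : ((M s).trace.re : ℂ) ≠ 0 := by exact_mod_cast hm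
    have hn' : ((N s).trace.re : ℂ) ≠ 0 := by exact_mod_cast hn
    field_simp

/-- A primitive third root of unity. -/
noncomputable def cubeRoot : ℂ := ⟨-1 / 2, √3 / 2⟩

lemma cubeRoot_facts : (cubeRoot * cubeRoot = star cubeRoot) ∧ star cubeRoot * cubeRoot = 1 ∧
    1 + cubeRoot + star cubeRoot = 0 := by
  have h3 : √3 * √3 = (3 : ℝ) := Real.mul_self_sqrt (by norm_num)
  refine ⟨?_, ?_, ?_⟩ <;> apply Complex.ext <;>
    simp [cubeRoot, Complex.mul_re, Complex.mul_im] <;> linarith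

/-- The three phases. -/
noncomputable def phase : Fin 3 → ℂ := ![1, cubeRoot, star cubeRoot]

lemma phase_unit (t : Fin 3) : star (phase t) * phase t = 1 := by
  obtain ⟨-, h, -⟩ := cubeRoot_facts
  fin_cases t
  · simp [phase]
  · simpa [phase] using h
  · simpa [phase, mul_comm] using h

lemma phase_add (a b : Fin 3) : phase (a + b) = phase a * phase b := by
  obtain ⟨h1, h2, h3⟩ := cubeRoot_facts
  have h4 : star cubeRoot * star cubeRoot = cubeRoot := by rw [← star_mul', h1, star_star]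
  have h5 : cubeRoot * star cubeRoot = 1 := by rw [mul_comm, h2]
  fin_cases a <;> fin_cases b <;> simp_all [phase]

lemma phase_neg (a : Fin 3) : phase (-a) = star (phase a) := by
  fin_cases a <;> simp [phase]

lemma phase_ne_one {a : Fin 3} (h : a ≠ 0) : phase a ≠ 1 := by
  intro e
  have e' := congrArg Complex.re e
  fin_cases a <;> simp [phase, cubeRoot] at h e' <;> norm_num at e'

lemma phase_avg (i j k l : Fin 3) :
    ∑ φ : Fin 3 → Fin 3, phase (φ i) * star (phase (φ j)) * (star (phase (φ k)) * phase (φ l))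
      = if (i = j ∧ k = l) ∨ (i = k ∧ j = l) then 27 else 0 := by
  simp only [← phase_neg, ← phase_add]
  split_ifs with h
  · have h0 : ∀ φ : Fin 3 → Fin 3, φ i + -φ j + (-φ k + φ l) = 0 := by
      intro φ
      rcases h with ⟨rfl, rfl⟩ | ⟨rfl, rfl⟩ <;> abel
    simp [h0, phase]
  · have key : ∀ i j k l : Fin 3, ¬((i = j ∧ k = l) ∨ (i = k ∧ j = l)) → ∃ m : Fin 3,
        (Pi.single m 1 : Fin 3 → Fin 3) i + -(Pi.single m 1 : Fin 3 → Fin 3) j +
          (-(Pi.single m 1 : Fin 3 → Fin 3) k + (Pi.single m 1 : Fin 3 → Fin 3) l) ≠ 0 := by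
      decide
    obtain ⟨m, hm⟩ := key i j k l h
    set δ : Fin 3 → Fin 3 := Pi.single m 1
    set e := δ i + -δ j + (-δ k + δ l) with he
    set S := ∑ φ : Fin 3 → Fin 3, phase (φ i + -φ j + (-φ k + φ l))
    have hS : S = phase e * S := by
      conv_lhs => rw [show S = ∑ φ : Fin 3 → Fin 3,
        phase ((φ + δ) i + -(φ + δ) j + (-(φ + δ) k + (φ + δ) l)) from
          (Equiv.sum_comp (Equiv.addRight δ) fun φ => phase (φ i + -φ j + (-φ k + φ l))).symm]
      rw [mul_sum]
      refine sum_congr rfl fun φ _ => ?_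
      rw [← phase_add, he]
      congr 1
      simp only [Pi.add_apply]
      abel
    by_contra hne
    exact phase_ne_one hm (mul_right_cancel₀ hne (by rw [one_mul, ← hS]))

lemma exists_potential {α : Fin 3 → Fin 3 → ℝ} (hα : ∀ i j, i ≠ j → 0 < α i j)
    (h2 : ∀ i j, i ≠ j → 1 ≤ α i j * α j i)
    (h3 : ∀ i j k, i ≠ j → j ≠ k → k ≠ i → 1 ≤ α i j * α j k * α k i) :
    ∃ x : Fin 3 → ℝ, (∀ i, 0 < x i) ∧ ∀ i j, i ≠ j → x i / x j ≤ α i j := by
  have a01 := hα 0 1 (by decide)
  have a10 := hα 1 0 (by decide)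
  have a02 := hα 0 2 (by decide)
  have a20 := hα 2 0 (by decide)
  have a12 := hα 1 2 (by decide)
  have a21 := hα 2 1 (by decide)
  have t1 := h2 0 1 (by decide)
  have t2 := h2 0 2 (by decide)
  have t3 := h2 1 2 (by decide)
  have u1 := h3 0 1 2 (by decide) (by decide) (by decide)
  have u2 := h3 0 2 1 (by decide) (by decide) (by decide)
  set x1 := min (α 1 0) (α 1 2 * α 2 0) with hx1
  set x2 := min (α 2 0) (α 2 1 * α 1 0) with hx2
  have p1 : 0 < x1 := lt_min a10 (mul_pos a12 a20)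
  have p2 : 0 < x2 := lt_min a20 (mul_pos a21 a10)
  have c01 : 1 ≤ α 0 1 * x1 := by
    rw [hx1, mul_min_of_nonneg _ _ a01.le]; exact le_min t1 (by linarith)
  have c02 : 1 ≤ α 0 2 * x2 := by
    rw [hx2, mul_min_of_nonneg _ _ a02.le]; exact le_min t2 (by linarith)
  have c12 : x1 ≤ α 1 2 * x2 := by
    rw [hx2, mul_min_of_nonneg _ _ a12.le]
    exact le_min (min_le_right _ _) ((min_le_left _ _).trans (by nlinarith))
  have c21 : x2 ≤ α 2 1 * x1 := by
    rw [hx1, mul_min_of_nonneg _ _ a21.le]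
    exact le_min (min_le_right _ _) ((min_le_left _ _).trans (by nlinarith))
  refine ⟨![1, x1, x2], fun i => by fin_cases i <;> simp [p1, p2], fun i j hij => ?_⟩
  fin_cases i <;> fin_cases j <;> simp at hij ⊢
  · rwa [inv_le_iff_one_le_mul₀ p1]
  · rwa [inv_le_iff_one_le_mul₀ p2]
  · exact min_le_left _ _
  · rwa [div_le_iff₀ p2]
  · exact min_le_left _ _
  · rwa [div_le_iff₀ p1]

/-- Vectors whose products average to the coherent part. -/
noncomputable def vecA (x : Fin 3 → ℝ) (φ : Fin 3 → Fin 3) (i : Fin 3) : ℂ :=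
  ((√(x i) : ℝ) : ℂ) * phase (φ i)

/-- Bob's vectors. -/
noncomputable def vecB (x : Fin 3 → ℝ) (φ : Fin 3 → Fin 3) (i : Fin 3) : ℂ :=
  (((√(x i))⁻¹ : ℝ) : ℂ) * star (phase (φ i))

lemma avg_products {x : Fin 3 → ℝ} (hx : ∀ i, 0 < x i) :
    ∑ φ, ((1 / 27 : ℝ) : ℂ) • (vecMulVec (vecA x φ) (star (vecA x φ)) ⊗ₖ
        vecMulVec (vecB x φ) (star (vecB x φ)))
      = pcRaw fun i j => x i / x j := by
  ext ⟨i, j⟩ ⟨k, l⟩
  simp only [Matrix.sum_apply, Matrix.smul_apply, kroneckerMap_apply, vecMulVec_apply, Pi.star_apply,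
    vecA, vecB, star_mul', star_star, smul_eq_mul]
  have hreal : ∀ r : ℝ, star (r : ℂ) = r := Complex.conj_ofReal
  simp only [hreal]
  have e : ∀ φ : Fin 3 → Fin 3, ((1 / 27 : ℝ) : ℂ) *
      (((√(x i) : ℝ) : ℂ) * phase (φ i) * (((√(x k) : ℝ) : ℂ) * star (phase (φ k))) *
        ((((√(x j))⁻¹ : ℝ) : ℂ) * star (phase (φ j)) * ((((√(x l))⁻¹ : ℝ) : ℂ) * phase (φ l))))
      = ((1 / 27 * (√(x i) * √(x k) * (√(x j))⁻¹ * (√(x l))⁻¹) : ℝ) : ℂ) *
        (phase (φ i) * star (phase (φ j)) * (star (phase (φ k)) * phase (φ l))) := by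
    intro φ
    simp only [Complex.ofReal_mul]
    ring
  simp only [e, ← mul_sum, phase_avg, pcRaw, of_apply, Prod.mk.injEq]
  have si := Real.sqrt_pos.mpr (hx i)
  have sj := Real.sqrt_pos.mpr (hx j)
  by_cases h1 : i = j ∧ k = l
  · obtain ⟨rfl, rfl⟩ := h1
    have sk := Real.sqrt_pos.mpr (hx k)
    have : ((1 / 27 * (√(x i) * √(x k) * (√(x i))⁻¹ * (√(x k))⁻¹) : ℝ)) = 1 / 27 := by field_simp
    rw [this]; simp
  by_cases h2 : i = k ∧ j = l
  · obtain ⟨rfl, rfl⟩ := h2
    have hij : i ≠ j := fun h => h1 ⟨h, h⟩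
    have : ((1 / 27 * (√(x i) * √(x i) * (√(x j))⁻¹ * (√(x j))⁻¹) : ℝ)) = 1 / 27 * (x i / x j) := by
      rw [Real.mul_self_sqrt (hx i).le, mul_assoc (x i), ← mul_inv, Real.mul_self_sqrt (hx j).le]
      ring
    rw [this]
    simp [hij]
    ring
  simp [h1, h2]

lemma diag_products (c : Fin 3 → Fin 3 → ℝ) :
    ∑ p : Fin 3 × Fin 3, (c p.1 p.2 : ℂ) • (single p.1 p.1 (1 : ℂ) ⊗ₖ single p.2 p.2 (1 : ℂ))
      = diagonal fun p : Fin 3 × Fin 3 => (c p.1 p.2 : ℂ) := by
  simp only [single_kronecker_single, mul_one, smul_single, smul_eq_mul]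
  ext u v
  simp only [Matrix.sum_apply, single, of_apply, diagonal_apply]
  rw [sum_eq_single u (fun p _ hp => by simp [hp]) (by simp)]
  simp

/-- Phase-covariant weights with no light pair and no light triangle give a separable state. -/
theorem separable_of_heavy {α : Fin 3 → Fin 3 → ℝ} (hα : ∀ i j, i ≠ j → 0 ≤ α i j)
    (h2 : ∀ i j, i ≠ j → 1 ≤ α i j * α j i)
    (h3 : ∀ i j k, i ≠ j → j ≠ k → k ≠ i → 1 ≤ α i j * α j k * α k i) :
    Separable (phaseCov α) := by
  have hpos : ∀ i j, i ≠ j → 0 < α i j := fun i j hij =>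
    (hα i j hij).lt_of_ne fun h => by have := h2 i j hij; rw [← h, zero_mul] at this; linarith
  obtain ⟨x, hx, hxα⟩ := exists_potential hpos h2 h3
  set z : ℝ := (((3 : ℕ) : ℝ) + ∑ i, ∑ j, if i = j then 0 else α i j)⁻¹ with hz
  have hz0 : 0 ≤ z := (inv_pos.mpr (norm_const_pos (by norm_num) hα)).le
  set c : Fin 3 → Fin 3 → ℝ := fun i j => if i = j then 0 else α i j - x i / x j with hc
  have hc0 : ∀ i j, 0 ≤ c i j := fun i j => by
    simp only [hc]; split_ifs with h
    · exact le_rfl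
    · linarith [hxα i j h]
  have hsplit : pcRaw α = ∑ φ, ((1 / 27 : ℝ) : ℂ) • (vecMulVec (vecA x φ) (star (vecA x φ)) ⊗ₖ
        vecMulVec (vecB x φ) (star (vecB x φ)))
      + ∑ p : Fin 3 × Fin 3, (c p.1 p.2 : ℂ) • (single p.1 p.1 (1 : ℂ) ⊗ₖ single p.2 p.2 (1 : ℂ)) := by
    rw [avg_products hx, diag_products]
    ext p q
    simp only [pcRaw, Matrix.add_apply, of_apply, diagonal_apply, hc]
    by_cases h : p = q <;> by_cases h' : p.1 = p.2 <;> simp [h, h'] <;> simp_all
  have hsingle : ∀ i : Fin 3, (single i i (1 : ℂ)).PosSemidef := fun i => by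
    rw [← diagonal_single]
    exact PosSemidef.diagonal (Pi.single_nonneg.mpr zero_le_one)
  refine separable_of_products (ι := (Fin 3 → Fin 3) ⊕ (Fin 3 × Fin 3))
    (phaseCov_isState (by norm_num) hα).2
    (Sum.elim (fun φ => ((z / 27 : ℝ) : ℂ) • vecMulVec (vecA x φ) (star (vecA x φ)))
      fun p => ((z * c p.1 p.2 : ℝ) : ℂ) • single p.1 p.1 (1 : ℂ))
    (Sum.elim (fun φ => vecMulVec (vecB x φ) (star (vecB x φ))) fun p => single p.2 p.2 (1 : ℂ))
    ?_ ?_ ?_
  · rintro (φ | p)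
    · exact (posSemidef_vecMulVec_self_star _).smul (by exact_mod_cast (by positivity : 0 ≤ z / 27))
    · exact (hsingle _).smul (by exact_mod_cast mul_nonneg hz0 (hc0 p.1 p.2))
  · rintro (φ | p)
    · exact posSemidef_vecMulVec_self_star _
    · exact hsingle _
  rw [phaseCov, ← hz, hsplit, Fintype.sum_sum_type, smul_add, smul_sum, smul_sum]
  congr 1 <;> refine sum_congr rfl fun s _ => ?_ <;>
    simp only [Sum.elim_inl, Sum.elim_inr, smul_kronecker, smul_smul] <;> congr 1 <;> push_cast <;> ring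

/-- Every entangled phase-covariant state of two qutrits has a positive key rate. -/
theorem key_of_entangled_qutrit {α : Fin 3 → Fin 3 → ℝ} (hα : ∀ i j, i ≠ j → 0 ≤ α i j)
    (h : ¬ Separable (phaseCov α)) : PositiveKeyRate (phaseCov α) := by
  by_contra hk
  refine h (separable_of_heavy hα (fun i j hij => ?_) fun i j k hij hjk hki => ?_)
  · by_contra hc
    exact hk (key_of_light_pair hα hij (lt_of_not_ge hc))
  · by_contra hc
    exact hk (key_of_light_triangle hα hij hjk hki (lt_of_not_ge hc))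

end Vale.Agent.P372.Key
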