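import Vale.Agent.P372.Key.Security
import Vale.Agent.P372.Key.Eve

/-! Relabelling of basis states (P372). -/

namespace Vale.Agent.P372.Key

open Matrix Finset
open Vale.Agent.P372
open scoped Kronecker ComplexOrder

lemma kron_submatrix {A A' B B' C C' D D' : Type*} (M : Matrix A B ℂ) (N : Matrix C D ℂ)
    (fA : A' → A) (fB : B' → B) (fC : C' → C) (fD : D' → D) :
    M.submatrix fA fB ⊗ₖ N.submatrix fC fD
      = (M ⊗ₖ N).submatrix (Prod.map fA fC) (Prod.map fB fD) := by
  ext p q; simp [kroneckerMap_apply]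

lemma psd_submatrix {A B : Type*} {M : Matrix A A ℂ} (hM : M.PosSemidef) (f : B → A) :
    (M.submatrix f f).PosSemidef := hM.submatrix f

/-- Relabelling Alice's and Bob's bases maps protocols to protocols. -/
theorem LOPC.relabel {l : ℕ} {X Y T : Type}
    {Eff : T → KeyVal l → KeyVal l → Matrix (X × Y) (X × Y) ℂ} (h : LOPC l X Y T Eff) :
    ∀ {X' Y' : Type} [Fintype X'] [DecidableEq X'] [Fintype Y'] [DecidableEq Y']
      (eX : X' ≃ X) (eY : Y' ≃ Y),
      LOPC l X' Y' T fun t ka kb => (Eff t ka kb).submatrix (eX.prodCongr eY) (eX.prodCongr eY) := by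
  induction h with
  | measure M N hM hN hM1 hN1 =>
    intro X' Y' _ _ _ _ eX eY
    have := LOPC.measure (l := l) (fun k => (M k).submatrix eX eX) (fun k => (N k).submatrix eY eY)
      (fun k => psd_submatrix (hM k) _) (fun k => psd_submatrix (hN k) _)
      (by rw [← submatrix_one_equiv eX, ← hM1]; ext; simp [Matrix.sum_apply])
      (by rw [← submatrix_one_equiv eY, ← hN1]; ext; simp [Matrix.sum_apply])
    convert this using 1
    funext t ka kb
    exact (kron_submatrix _ _ _ _ _ _).symm
  | @alice X X₁ Y T Msg R _ _ _ _ _ _ _ _ _ K hK Eff h ih =>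
    intro X' Y' _ _ _ _ eX eY
    have hK' : ∑ m, ∑ r, ((K m r).submatrix id eX)ᴴ * (K m r).submatrix id eX = 1 := by
      rw [← submatrix_one_equiv eX, ← hK]
      ext i j
      simp [Matrix.sum_apply, Matrix.mul_apply]
    have := LOPC.alice (l := l) (fun m r => (K m r).submatrix id eX) hK' _
      fun m => ih m (Equiv.refl X₁) eY
    convert this using 1
    funext t ka kb
    ext p q
    simp only [submatrix_apply, Matrix.sum_apply]
    refine sum_congr rfl fun r _ => ?_
    have e : (K t.1 r).submatrix id eX ⊗ₖ (1 : Matrix Y' Y' ℂ)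
        = (K t.1 r ⊗ₖ (1 : Matrix Y Y ℂ)).submatrix ((Equiv.refl X₁).prodCongr eY)
            (eX.prodCongr eY) := by
      rw [← submatrix_one_equiv eY, kron_submatrix]
      rfl
    rw [e, conjTranspose_submatrix, submatrix_mul_equiv, submatrix_mul_equiv]
    rfl
  | @bob X Y Y₁ T Msg R _ _ _ _ _ _ _ _ _ K hK Eff h ih =>
    intro X' Y' _ _ _ _ eX eY
    have hK' : ∑ m, ∑ r, ((K m r).submatrix id eY)ᴴ * (K m r).submatrix id eY = 1 := by
      rw [← submatrix_one_equiv eY, ← hK]
      ext i j
      simp [Matrix.sum_apply, Matrix.mul_apply]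
    have := LOPC.bob (l := l) (fun m r => (K m r).submatrix id eY) hK' _
      fun m => ih m eX (Equiv.refl Y₁)
    convert this using 1
    funext t ka kb
    ext p q
    simp only [submatrix_apply, Matrix.sum_apply]
    refine sum_congr rfl fun r _ => ?_
    have e : (1 : Matrix X' X' ℂ) ⊗ₖ (K t.1 r).submatrix id eY
        = ((1 : Matrix X X ℂ) ⊗ₖ K t.1 r).submatrix (eX.prodCongr (Equiv.refl Y₁))
            (eX.prodCongr eY) := by
      rw [← submatrix_one_equiv eX, kron_submatrix]
      rfl
    rw [e, conjTranspose_submatrix, submatrix_mul_equiv, submatrix_mul_equiv]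
    rfl

/-- The final state only depends on the labelling through a relabelling of Eve. -/
lemma finalState_relabel {l : ℕ} {T X X' Z Z' : Type} [DecidableEq T] [Fintype X] [Fintype X']
    (eX : X' ≃ X) (eZ : Z' ≃ Z) (Ψ : Matrix X Z ℂ)
    (Eff : T → KeyVal l → KeyVal l → Matrix X X ℂ) :
    finalState (Ψ.submatrix eX eZ) (fun t ka kb => (Eff t ka kb).submatrix eX eX)
      = (finalState Ψ Eff).submatrix ((Equiv.refl _).prodCongr ((Equiv.refl T).prodCongr eZ))
          ((Equiv.refl _).prodCongr ((Equiv.refl T).prodCongr eZ)) := by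
  ext ⟨c, t, z⟩ ⟨c', t', z'⟩
  simp only [finalState, of_apply, submatrix_apply, Equiv.prodCongr_apply, Prod.map,
    Equiv.refl_apply, eveState]
  congr 1
  exact Fintype.sum_equiv eX _ _ fun x => Fintype.sum_equiv eX _ _ fun y => rfl

lemma isState_relabel {n m : Type*} [Fintype n] [Fintype m] (e : n ≃ m) {σ : Matrix m m ℂ}
    (h : IsState σ) : IsState (σ.submatrix e e) := by
  refine ⟨h.1.submatrix e, ?_⟩
  rw [← h.2]
  exact Fintype.sum_equiv e _ _ fun i => rfl

lemma idealState_relabel {l : ℕ} {T Z Z' : Type} (eZ : Z' ≃ Z)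
    (σ : Matrix (T × Z) (T × Z) ℂ) :
    idealState (l := l) (σ.submatrix ((Equiv.refl T).prodCongr eZ) ((Equiv.refl T).prodCongr eZ))
      = (idealState σ).submatrix ((Equiv.refl _).prodCongr ((Equiv.refl T).prodCongr eZ))
          ((Equiv.refl _).prodCongr ((Equiv.refl T).prodCongr eZ)) := by
  ext ⟨c, t, z⟩ ⟨c', t', z'⟩
  simp [idealState]

end Vale.Agent.P372.Key
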