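import Vale.Agent.P372.Key.Error
import Vale.Agent.P372.Key.Power
import Vale.Agent.P372.Key.Params
import Vale.Agent.P372.Key.Transport

/-! A key witness on some number of copies gives a positive key rate (P372). -/

namespace Vale.Agent.P372.Key

open Matrix Finset
open Vale.Agent.P372
open scoped Kronecker ComplexOrder

/-- `N` blocks of `m` super-copies of `q` copies, and one block of `R` unused copies. -/
def Blk (m q R N : ℕ) (α : Type) : Option (Fin N) → Type
  | none => Fin R → α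
  | some _ => Fin m → Fin q → α

instance instFintypeBlk (m q R N : ℕ) (α : Type) [Fintype α] [DecidableEq α] :
    ∀ i, Fintype (Blk m q R N α i)
  | none => inferInstanceAs (Fintype (Fin R → α))
  | some _ => inferInstanceAs (Fintype (Fin m → Fin q → α))

instance instDecEqBlk (m q R N : ℕ) (α : Type) [DecidableEq α] :
    ∀ i, DecidableEq (Blk m q R N α i)
  | none => inferInstanceAs (DecidableEq (Fin R → α))
  | some _ => inferInstanceAs (DecidableEq (Fin m → Fin q → α))

/-- Regrouping of copies into blocks. -/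
def blkEquiv {m q R N n : ℕ} (c : Fin n ≃ Fin R ⊕ (Fin N × (Fin m × Fin q))) (α : Type) :
    (∀ i, Blk m q R N α i) ≃ (Fin n → α) where
  toFun g k := Sum.elim (fun j => g none j) (fun p => g (some p.1) p.2.1 p.2.2) (c k)
  invFun h i := match i with
    | none => fun j => h (c.symm (Sum.inl j))
    | some i => fun a b => h (c.symm (Sum.inr (i, a, b)))
  left_inv g := by
    funext i
    cases i
    · funext j; simp
    · funext a b; simp
  right_inv h := by
    funext k
    obtain ⟨x, rfl⟩ := c.symm.surjective k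
    rcases x with j | ⟨i, a, b⟩ <;> simp

variable {dA dB : ℕ}

/-- Purifications of the blocks. -/
def blkPsi {E : Type} (ψ : Matrix (Fin dA × Fin dB) E ℂ) (m q R N : ℕ) :
    ∀ i, Matrix (Blk m q R N (Fin dA) i × Blk m q R N (Fin dB) i) (Blk m q R N E i) ℂ
  | none => powPsi ψ R
  | some _ => pairMat fun _ : Fin m => powPsi ψ q

/-- Measurements on the blocks: the unused copies always fail. -/
def blkMeas {d : ℕ} (m q R N : ℕ) (F : Fin 3 → Matrix (Fin m → Copies d q) (Fin m → Copies d q) ℂ) :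
    ∀ i, Fin 3 → Matrix (Blk m q R N (Fin d) i) (Blk m q R N (Fin d) i) ℂ
  | none => ![(0 : Matrix (Copies d R) (Copies d R) ℂ), 0, 1]
  | some _ => F

lemma powPsi_regroup {E : Type} (ψ : Matrix (Fin dA × Fin dB) E ℂ) {m q R N n : ℕ}
    (c : Fin n ≃ Fin R ⊕ (Fin N × (Fin m × Fin q))) :
    powPsi ψ n = (pairMat (blkPsi ψ m q R N)).submatrix
      ((blkEquiv c (Fin dA)).symm.prodCongr (blkEquiv c (Fin dB)).symm) (blkEquiv c E).symm := by
  ext p z
  simp only [powPsi, of_apply, submatrix_apply, pairMat, piMat, id, Equiv.prodCongr_apply,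
    Prod.map_fst, Prod.map_snd, Fintype.prod_option]
  rw [← c.symm.prod_comp, Fintype.prod_sum_type, Fintype.prod_prod_type]
  refine congrArg₂ (· * ·) rfl (prod_congr rfl fun i _ => ?_)
  rw [Fintype.prod_prod_type]
  rfl

lemma powPsi_mul_conjTranspose {E : Type} [Fintype E] {ψ : Matrix (Fin dA × Fin dB) E ℂ}
    {ρ : Matrix (Fin dA × Fin dB) (Fin dA × Fin dB) ℂ} (hψ : ψ * ψᴴ = ρ) (n : ℕ) :
    powPsi ψ n * (powPsi ψ n)ᴴ = powState ρ n := by
  have h : pairMat (fun _ : Fin n => ψ) * (pairMat fun _ : Fin n => ψ)ᴴ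
      = pairSq fun _ : Fin n => ψ * ψᴴ := pairMat_mul_conjTranspose _
  rw [hψ] at h
  exact h

lemma powState_trace {ρ : Matrix (Fin dA × Fin dB) (Fin dA × Fin dB) ℂ} (hρ : IsState ρ) (n : ℕ) :
    (powState ρ n).trace = 1 := by
  obtain ⟨L, hL⟩ := psd_factor hρ.1
  have hψ : Lᴴ * Lᴴᴴ = ρ := by rw [conjTranspose_conjTranspose, ← hL]
  have := pairMat_const_trace Lᴴ n (by rw [hψ]; exact hρ.2)
  rw [← powPsi_mul_conjTranspose hψ n]
  exact this

lemma powState_psd {ρ : Matrix (Fin dA × Fin dB) (Fin dA × Fin dB) ℂ} (hρ : IsState ρ) (n : ℕ) :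
    (powState ρ n).PosSemidef := by
  obtain ⟨L, hL⟩ := psd_factor hρ.1
  have hψ : Lᴴ * Lᴴᴴ = ρ := by rw [conjTranspose_conjTranspose, ← hL]
  rw [← powPsi_mul_conjTranspose hψ n]
  exact posSemidef_self_mul_conjTranspose _

lemma trivial_meas {R : Type} [Fintype R] [DecidableEq R] :
    (∀ a, ((![0, 0, 1] : Fin 3 → Matrix R R ℂ) a).PosSemidef) ∧
      ∑ a, (![0, 0, 1] : Fin 3 → Matrix R R ℂ) a = 1 := by
  refine ⟨fun a => ?_, by simp [Fin.sum_univ_three]⟩
  fin_cases a <;> simp [PosSemidef.zero, PosSemidef.one]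

/-- The block of unused copies. -/
lemma trash_block {P Q E : Type} [Fintype P] [DecidableEq P] [Fintype Q] [DecidableEq Q] [Fintype E]
    [DecidableEq E] (ψ : Matrix (P × Q) E ℂ) (h : (ψ * ψᴴ).trace = 1) :
    badProb ψ ![0, 0, 1] ![0, 0, 1] = 0 ∧ ∃ w : Bool × Bool → Weight E,
      ∑ φ, √((w φ).mass * ∑ x', (w φ).coll
        (flagOut ψ (![0, 0, 1] : Fin 3 → Matrix P P ℂ) ![0, 0, 1] φ x')) ≤ 2 := by
  set A : Fin 3 → Matrix P P ℂ := ![0, 0, 1]
  set B : Fin 3 → Matrix Q Q ℂ := ![0, 0, 1]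
  have h0 : ∀ a b : Fin 3, (a ≠ 2 ∨ b ≠ 2) → blockOut ψ A B a b = 0 := by
    intro a b hab
    fin_cases a <;> fin_cases b <;> first | (simp at hab; done) | simp [blockOut, A, B, eveState_zero]
  have h22 : ((blockOut ψ A B 2 2).trace).re = 1 := by
    simp [blockOut, A, B, eveState_trace, h]
  constructor
  · refine sum_eq_zero fun a _ => sum_eq_zero fun b _ => ?_
    split_ifs with hb
    · rw [h0 a b (Or.inl hb.1)]; simp
    · rfl
  have h1 : ∑ a, ∑ b, ((blockOut ψ A B a b).trace).re = 1 := by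
    simp [Fin.sum_univ_three, h0, h22]
  obtain ⟨w, hw⟩ := exists_block_weights ψ trivial_meas.1 trivial_meas.1 h1
    (fun _ => (0 : Matrix Unit E ℂ))
    (by rw [h0 0 0 (Or.inl (by decide))]; simp) (by rw [h0 1 1 (Or.inl (by decide))]; simp) (U := 1) contr_one
    (η := (8 * ((Fintype.card E : ℝ) + 1))⁻¹) (by positivity)
  refine ⟨w, hw.trans ?_⟩
  simp only [Matrix.zero_mul, Matrix.mul_zero, trace_zero, norm_zero, ne_eq, OfNat.ofNat_ne_zero,
    not_false_eq_true, zero_pow, zero_div, sub_zero]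
  have : 8 * (8 * ((Fintype.card E : ℝ) + 1))⁻¹ * Fintype.card E ≤ 1 := by
    field_simp; linarith
  linarith

lemma blkMeas_povm {d : ℕ} {m q R N : ℕ}
    {F : Fin 3 → Matrix (Fin m → Copies d q) (Fin m → Copies d q) ℂ}
    (h : ∀ a, (F a).PosSemidef) (h1 : ∑ a, F a = 1) :
    (∀ i a, (blkMeas m q R N F i a).PosSemidef) ∧ ∀ i, ∑ a, blkMeas m q R N F i a = 1 := by
  constructor
  · rintro (_ | i) a
    · exact trivial_meas.1 a
    · exact h a
  · rintro (_ | i)
    · exact trivial_meas.2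
    · exact h1

lemma blkPsi_trace {ρ : Matrix (Fin dA × Fin dB) (Fin dA × Fin dB) ℂ} (hρ : IsState ρ) {E : Type}
    [Fintype E] [DecidableEq E] {ψ : Matrix (Fin dA × Fin dB) E ℂ} (hψ : ψ * ψᴴ = ρ)
    (m q R N : ℕ) (i : Option (Fin N)) :
    (blkPsi ψ m q R N i * (blkPsi ψ m q R N i)ᴴ).trace = 1 := by
  cases i
  · exact (congrArg Matrix.trace (powPsi_mul_conjTranspose hψ R)).trans (powState_trace hρ R)
  · exact pairMat_const_trace _ m
      ((congrArg Matrix.trace (powPsi_mul_conjTranspose hψ q)).trans (powState_trace hρ q))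

/-- The error of the protocol on `N` blocks and one unused block. -/
lemma blocks_error {ρ : Matrix (Fin dA × Fin dB) (Fin dA × Fin dB) ℂ} (hρ : IsState ρ) {q : ℕ}
    (D : Normalised (powState ρ q)) {m : ℕ} (hm : 0 < m) (R N : ℕ) {l r k : ℕ} {s : ℝ}
    (hs : 0 < s) (hs1 : s ≤ 1) {E : Type} [Fintype E] [DecidableEq E]
    {ψ : Matrix (Fin dA × Fin dB) E ℂ} (hψ : ψ * ψᴴ = ρ) :
    traceNorm (finalState (pairMat (blkPsi ψ m q R N))
        (blockEff l r k (blkMeas m q R N (powMeas D.a m)) (blkMeas m q R N (powMeas D.b m)))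
      - idealState (sigmaOf (blkPsi ψ m q R N) (blkMeas m q R N (powMeas D.a m))
          (blkMeas m q R N (powMeas D.b m)) l r))
      ≤ 2 * ((1 + 2 * D.e ^ m) ^ N / 2 ^ k + (1 + s) ^ (N + 1) / (s ^ k * 2 ^ r))
        + √(2 ^ (l + r)) * ((1 - (D.X ^ 2 / D.pa) ^ m / 60) ^ N * 2) := by
  classical
  obtain ⟨hA, hA1⟩ := blkMeas_povm (R := R) (N := N) (powMeas_psd D.a D.hA hm) (powMeas_sum D.a m)
  obtain ⟨hB, hB1⟩ := blkMeas_povm (R := R) (N := N) (powMeas_psd D.b D.hB hm) (powMeas_sum D.b m)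
  have hblock : ∀ i, badProb (blkPsi ψ m q R N i) (blkMeas m q R N (powMeas D.a m) i)
        (blkMeas m q R N (powMeas D.b m) i) ≤ (if i.isSome then 2 * D.e ^ m else 0) ∧
      ∃ w : Bool × Bool → Weight (Blk m q R N E i),
        ∑ φ, √((w φ).mass * ∑ x', (w φ).coll (flagOut (blkPsi ψ m q R N i)
          (blkMeas m q R N (powMeas D.a m) i) (blkMeas m q R N (powMeas D.b m) i) φ x'))
          ≤ if i.isSome then 1 - (D.X ^ 2 / D.pa) ^ m / 60 else 2 := by
    rintro (_ | i)
    · obtain ⟨h1, h2⟩ := trash_block (powPsi ψ R)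
        ((congrArg Matrix.trace (powPsi_mul_conjTranspose hψ R)).trans (powState_trace hρ R))
      exact ⟨h1.le, h2⟩
    · exact exists_good_block D (powState_trace hρ q) _ (powPsi_mul_conjTranspose hψ q) hm
  choose hbad w hw using hblock
  refine (protocol_error hs hs1 hA hB hA1 hB1 (blkPsi_trace hρ hψ m q R N) w).trans ?_
  rw [Fintype.card_option, Fintype.card_fin]
  refine add_le_add (mul_le_mul_of_nonneg_left (add_le_add ?_ le_rfl) zero_le_two)
    (mul_le_mul_of_nonneg_left ?_ (Real.sqrt_nonneg _))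
  · refine div_le_div_of_nonneg_right ?_ (by positivity)
    refine (prod_le_prod (fun i _ => ?_) fun i _ => add_le_add le_rfl (hbad i)).trans (le_of_eq ?_)
    · refine add_nonneg zero_le_one (sum_nonneg fun a _ => sum_nonneg fun b _ => ?_)
      split_ifs
      · exact (Complex.le_def.mp (blockOut_psd _ (hA i) (hB i) a b).trace_nonneg).1
      · exact le_rfl
    · simp [Fintype.prod_option]
  · refine (prod_le_prod (fun i _ => sum_nonneg fun _ _ => Real.sqrt_nonneg _)
      fun i _ => hw i).trans (le_of_eq ?_)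
    simp [Fintype.prod_option, mul_comm]

lemma traceNorm_relabel_le {l : ℕ} {T X X' Z Z' : Type} [Fintype T] [DecidableEq T] [Fintype X]
    [Fintype X'] [Fintype Z] [DecidableEq Z] [Fintype Z'] [DecidableEq Z'] (eX : X' ≃ X)
    (eZ : Z' ≃ Z) (Ψ : Matrix X Z ℂ) (Eff : T → KeyVal l → KeyVal l → Matrix X X ℂ)
    (σ : Matrix (T × Z) (T × Z) ℂ) :
    traceNorm (finalState (Ψ.submatrix eX eZ) (fun t ka kb => (Eff t ka kb).submatrix eX eX)
      - idealState (σ.submatrix ((Equiv.refl T).prodCongr eZ) ((Equiv.refl T).prodCongr eZ)))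
      ≤ traceNorm (finalState Ψ Eff - idealState σ) := by
  rw [finalState_relabel, idealState_relabel]
  set e := (Equiv.refl (KeyVal l × KeyVal l)).prodCongr ((Equiv.refl T).prodCongr eZ)
  have h : (finalState Ψ Eff).submatrix e e - (idealState σ).submatrix e e
      = (finalState Ψ Eff - idealState σ).submatrix e e := by
    ext p q
    simp only [Matrix.sub_apply, submatrix_apply]
  rw [h]
  exact traceNorm_submatrix_equiv_le e _

/-- A key witness on some number of copies gives a positive key rate. -/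
theorem positiveKeyRate_of_witness {ρ : Matrix (Fin dA × Fin dB) (Fin dA × Fin dB) ℂ}
    (hρ : IsState ρ) {q : ℕ} (hq : 0 < q) (h : KeyWitness (powState ρ q)) :
    PositiveKeyRate ρ := by
  classical
  obtain ⟨D⟩ := normalise (powState_psd hρ q) h
  have hpa : 0 < D.pa := D.he.trans D.hepa
  obtain ⟨m, κ, hm, hκ, hpar⟩ := exists_params D.he D.he1
    (g := D.X ^ 2 / D.pa) (by rw [lt_div_iff₀ hpa, mul_comm]; exact D.hlt)
  have hbs : 0 < m * q := Nat.mul_pos hm hq
  have hχ : 0 ≤ 1 - (D.X ^ 2 / D.pa) ^ m / 60 := by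
    obtain ⟨L, hL⟩ := psd_factor hρ.1
    have hψ : Lᴴ * Lᴴᴴ = ρ := by rw [conjTranspose_conjTranspose, ← hL]
    obtain ⟨-, w, hw⟩ := exists_good_block D (powState_trace hρ q) _
      (powPsi_mul_conjTranspose hψ q) hm
    exact le_trans (sum_nonneg fun _ _ => Real.sqrt_nonneg _) hw
  refine ⟨κ / (2 * (m * q : ℕ)), by positivity, fun ε hε => ?_⟩
  obtain ⟨N₀, hN₀⟩ := hpar ε hε
  refine ⟨(max N₀ 1) * (m * q), fun n hn => ?_⟩
  obtain ⟨N, hNd⟩ : ∃ N, N = n / (m * q) := ⟨_, rfl⟩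
  obtain ⟨R, hRd⟩ : ∃ R, R = n % (m * q) := ⟨_, rfl⟩
  have hN : max N₀ 1 ≤ N := hNd ▸ (Nat.le_div_iff_mul_le hbs).mpr hn
  have hnNR : n = R + N * (m * q) := by
    rw [hNd, hRd, mul_comm (n / (m * q)), Nat.mod_add_div]
  obtain ⟨l, r, k, s, hs, hs1, hl, herr⟩ := hN₀ N (le_of_max_le_left hN) _ hχ le_rfl
  obtain ⟨c⟩ : Nonempty (Fin n ≃ Fin R ⊕ (Fin N × (Fin m × Fin q))) :=
    ⟨(Fintype.equivFinOfCardEq (by simp [← hnNR])).symm⟩
  obtain ⟨hA, hA1⟩ := blkMeas_povm (R := R) (N := N) (powMeas_psd D.a D.hA hm) (powMeas_sum D.a m)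
  obtain ⟨hB, hB1⟩ := blkMeas_povm (R := R) (N := N) (powMeas_psd D.b D.hB hm) (powMeas_sum D.b m)
  refine ⟨l, Tr (Option (Fin N)) l r, inferInstance, inferInstance, _,
    (blockEff_lopc l r k _ _ hA hA1 hB hB1).relabel (blkEquiv c (Fin dA)).symm
      (blkEquiv c (Fin dB)).symm, ?_, ?_⟩
  · refine le_trans ?_ hl
    have h1 : (n : ℝ) ≤ 2 * (m * q : ℕ) * N := by
      have : R < m * q := hRd ▸ Nat.mod_lt n hbs
      have : m * q ≤ N * (m * q) := Nat.le_mul_of_pos_left _ (le_of_max_le_right hN)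
      have h3 : n ≤ 2 * (m * q) * N := by
        rw [mul_assoc, mul_comm (m * q) N]
        omega
      exact_mod_cast h3
    rw [div_mul_eq_mul_div, div_le_iff₀ (by positivity)]
    calc κ * n ≤ κ * (2 * (m * q : ℕ) * N) := mul_le_mul_of_nonneg_left h1 hκ.le
      _ = _ := by ring
  intro E _ _ ψ hψ
  refine ⟨(sigmaOf (blkPsi ψ m q R N) (blkMeas m q R N (powMeas D.a m))
      (blkMeas m q R N (powMeas D.b m)) l r).submatrix
      ((Equiv.refl _).prodCongr (blkEquiv c E).symm)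
      ((Equiv.refl _).prodCongr (blkEquiv c E).symm),
    isState_relabel _ (sigmaOf_isState l r hA hB hA1 hB1 (blkPsi_trace hρ hψ m q R N)), ?_⟩
  rw [powPsi_regroup ψ c]
  exact (traceNorm_relabel_le _ _ _ _ _).trans ((blocks_error hρ D hm R N hs hs1 hψ).trans herr)

end Vale.Agent.P372.Key
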