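import Vale.Agent.P372.Key.Security

/-! The key of the block protocol is correct and secret (P372). -/

namespace Vale.Agent.P372.Key

open Matrix Finset
open Vale.Agent.P372
open scoped Kronecker ComplexOrder

variable {ι : Type} [Fintype ι] [DecidableEq ι] {P Q E : ι → Type} [∀ i, Fintype (P i)]
  [∀ i, DecidableEq (P i)] [∀ i, Fintype (Q i)] [∀ i, DecidableEq (Q i)] [∀ i, Fintype (E i)]
  [∀ i, DecidableEq (E i)]

variable (ψ : ∀ i, Matrix (P i × Q i) (E i) ℂ) (A : ∀ i, Fin 3 → Matrix (P i) (P i) ℂ)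
  (B : ∀ i, Fin 3 → Matrix (Q i) (Q i) ℂ)

/-- Eve's state for given flags and masked string, as a sum over outcome strings. -/
lemma piMat_flagOut (fA fB : ι → Bool) (x' : ι → Fin 3) :
    piMat (fun i => flagOut (ψ i) (A i) (B i) (fA i, fB i) (x' i))
      = ∑ x, ∑ y, (if flags x = fA ∧ flags y = fB ∧ maskStr fB x = x' then (1 : ℂ) else 0) •
          strOut ψ A B x y := by
  unfold flagOut
  rw [← piMat_sum]
  refine sum_congr rfl fun x _ => ?_
  rw [← piMat_sum]
  refine sum_congr rfl fun y _ => ?_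
  rw [piMat_smul, strOut_eq]
  congr 1
  rw [Fintype.prod_boole]
  simp only [flags, maskStr, funext_iff, forall_and]

/-- Eve's state for given flags. -/
noncomputable def flagTot (fA fB : ι → Bool) : Matrix (∀ i, E i) (∀ i, E i) ℂ :=
  ∑ x' : ι → Fin 3, piMat (fun i => flagOut (ψ i) (A i) (B i) (fA i, fB i) (x' i))

lemma flagTot_eq (fA fB : ι → Bool) :
    flagTot ψ A B fA fB
      = ∑ x, ∑ y, (if flags x = fA ∧ flags y = fB then (1 : ℂ) else 0) • strOut ψ A B x y := by
  simp only [flagTot, piMat_flagOut]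
  rw [sum_comm]
  refine sum_congr rfl fun x _ => ?_
  rw [sum_comm]
  refine sum_congr rfl fun y _ => ?_
  rw [← sum_smul]
  congr 1
  by_cases h1 : flags x = fA <;> by_cases h2 : flags y = fB <;> simp [h1, h2]

/-- The state `σ` of Eve and the transcript in the ideal state. -/
noncomputable def sigmaOf (l r : ℕ) :
    Matrix (Tr ι l r × (∀ i, E i)) (Tr ι l r × (∀ i, E i)) ℂ :=
  Matrix.of fun p q : Tr ι l r × (∀ i, E i) => if p.1 = q.1 then
    ((((Fintype.card (Fam ι l r) : ℝ)⁻¹ * (2 ^ r : ℝ)⁻¹ : ℝ) : ℂ) •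
      flagTot ψ A B p.1.1 p.1.2.1) p.2 q.2 else 0

variable {ψ A B}

lemma strOut_psd (hA : ∀ i a, (A i a).PosSemidef) (hB : ∀ i a, (B i a).PosSemidef)
    (x y : ι → Fin 3) : (strOut ψ A B x y).PosSemidef :=
  eveState_psd _ ((piMat_psd fun i => hA i (x i)).kronecker (piMat_psd fun i => hB i (y i)))

lemma flagTot_psd (hA : ∀ i a, (A i a).PosSemidef) (hB : ∀ i a, (B i a).PosSemidef)
    (fA fB : ι → Bool) : (flagTot ψ A B fA fB).PosSemidef := by
  rw [flagTot_eq]
  refine posSemidef_sum _ fun x _ => posSemidef_sum _ fun y _ => ?_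
  split_ifs
  · simpa using strOut_psd hA hB x y
  · simp [PosSemidef.zero]

lemma sum_prob (hA1 : ∀ i, ∑ a, A i a = 1) (hB1 : ∀ i, ∑ a, B i a = 1)
    (hψ : ∀ i, (ψ i * (ψ i)ᴴ).trace = 1) :
    ∑ x, ∑ y, (strOut ψ A B x y).trace = 1 := by
  simp only [strOut_eq, trace_piMat]
  have e : ∀ x : ι → Fin 3, ∑ y : ι → Fin 3, ∏ i, (blockOut (ψ i) (A i) (B i) (x i) (y i)).trace
      = ∏ i, ∑ b, (blockOut (ψ i) (A i) (B i) (x i) b).trace := fun x =>
    (Fintype.prod_sum fun i b => (blockOut (ψ i) (A i) (B i) (x i) b).trace).symm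
  simp only [e]
  rw [← Fintype.prod_sum (fun i a => ∑ b, (blockOut (ψ i) (A i) (B i) a b).trace)]
  refine prod_eq_one fun i _ => ?_
  simp only [← trace_sum, blockOut, ← eveState_sum]
  have : ∑ a, ∑ b, A i a ⊗ₖ B i b = 1 := by
    have e : ∀ a, ∑ b, A i a ⊗ₖ B i b = A i a ⊗ₖ (1 : Matrix (Q i) (Q i) ℂ) := by
      intro a; rw [← hB1 i]; ext p q; simp [kroneckerMap_apply, Matrix.sum_apply, mul_sum]
    simp only [e]
    rw [← one_kronecker_one (m := P i) (n := Q i), ← hA1 i]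
    ext p q
    simp [kroneckerMap_apply, Matrix.sum_apply, sum_mul]
  rw [this, eveState_trace, Matrix.one_mul, hψ i]

lemma sigmaOf_isState (l r : ℕ) (hA : ∀ i a, (A i a).PosSemidef)
    (hB : ∀ i a, (B i a).PosSemidef) (hA1 : ∀ i, ∑ a, A i a = 1) (hB1 : ∀ i, ∑ a, B i a = 1)
    (hψ : ∀ i, (ψ i * (ψ i)ᴴ).trace = 1) : IsState (sigmaOf ψ A B l r) := by
  constructor
  · set S : Tr ι l r → Matrix (∀ i, E i) (∀ i, E i) ℂ := fun t =>
      (((Fintype.card (Fam ι l r) : ℝ)⁻¹ * (2 ^ r : ℝ)⁻¹ : ℝ) : ℂ) • flagTot ψ A B t.1 t.2.1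
    choose L hL using fun t => psd_factor
      (psd_smul_real (flagTot_psd (ψ := ψ) hA hB t.1 t.2.1)
        (show (0 : ℝ) ≤ (Fintype.card (Fam ι l r) : ℝ)⁻¹ * (2 ^ r : ℝ)⁻¹ by positivity) :
        (S t).PosSemidef)
    have e : sigmaOf ψ A B l r = ((blockDiagonal L)ᴴ * blockDiagonal L).submatrix
        Prod.swap Prod.swap := by
      rw [blockDiagonal_conjTranspose, ← blockDiagonal_mul]
      ext p q
      simp only [sigmaOf, of_apply, submatrix_apply, blockDiagonal_apply, Prod.fst_swap,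
        Prod.snd_swap]
      by_cases h : p.1 = q.1
      · rw [if_pos h, if_pos h]
        exact congrFun (congrFun (hL p.1) p.2) q.2
      · rw [if_neg h, if_neg h]
    rw [e]
    exact (posSemidef_conjTranspose_mul_self _).submatrix _
  · have h0 : (sigmaOf ψ A B l r).trace
        = ∑ t : Tr ι l r, (((Fintype.card (Fam ι l r) : ℝ)⁻¹ * (2 ^ r : ℝ)⁻¹ : ℝ) : ℂ) *
          (flagTot ψ A B t.1 t.2.1).trace := by
      simp only [Matrix.trace, diag_apply, sigmaOf, of_apply, if_true, Matrix.smul_apply,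
        smul_eq_mul, mul_sum]
      rw [Fintype.sum_prod_type]
    have hx : ∑ fA : ι → Bool, ∑ fB : ι → Bool, (flagTot ψ A B fA fB).trace = 1 := by
      simp only [flagTot_eq, trace_sum, trace_smul, smul_eq_mul]
      conv_lhs => enter [2, fA]; rw [sum_comm]; enter [2, x]; rw [sum_comm]
      rw [sum_comm]
      refine Eq.trans ?_ (sum_prob (ψ := ψ) hA1 hB1 hψ)
      refine sum_congr rfl fun x _ => ?_
      rw [sum_comm]
      refine sum_congr rfl fun y _ => ?_
      simp [ite_and]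
    rw [h0, ← mul_sum]
    simp only [Fintype.sum_prod_type, sum_const, card_univ, nsmul_eq_mul, ← mul_sum]
    rw [hx]
    simp only [Fintype.card_prod, Fintype.card_unit]
    simp only [Nat.cast_one, one_mul, Fintype.card_fun, Fintype.card_bool, Fintype.card_fin,
      mul_one]
    push_cast
    field_simp

end Vale.Agent.P372.Key
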