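import Vale.Agent.P372.Key.Proto
import Vale.Agent.P372.Key.Eve

/-! Error bound for the block protocol (P372). -/

namespace Vale.Agent.P372.Key

open Matrix Finset
open Vale.Agent.P372
open scoped Kronecker ComplexOrder

/-- Trace norm does not increase under relabelling. -/
lemma traceNorm_submatrix_equiv_le {n m : Type*} [Fintype n] [DecidableEq n] [Fintype m]
    [DecidableEq m] (e : n ≃ m) (X : Matrix m m ℂ) :
    traceNorm (X.submatrix e e) ≤ traceNorm X := by
  refine traceNorm_le fun W hW => ?_
  have hW' : Contr (W.submatrix e.symm e.symm) := by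
    unfold Contr at hW ⊢
    rw [conjTranspose_submatrix, submatrix_mul_equiv]
    have h := hW.submatrix e.symm
    simp only [submatrix_sub, Pi.sub_apply, submatrix_one_equiv] at h
    exact h
  refine le_of_eq_of_le ?_ (re_trace_le_traceNorm hW' X)
  congr 1
  simp only [Matrix.trace, diag_apply, Matrix.mul_apply, submatrix_apply]
  exact Fintype.sum_equiv e _ _ fun a => Fintype.sum_equiv e _ _ fun b => by simp

/-- Trace norm of a block diagonal matrix through one contraction per block. -/
lemma exists_contr_blocks {C n : Type*} [Fintype C] [DecidableEq C] [Fintype n] [DecidableEq n]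
    (B : C → Matrix n n ℂ) :
    ∃ W : C → Matrix n n ℂ, (∀ c, Contr (W c)) ∧
      traceNorm (Matrix.of fun p q : C × n => if p.1 = q.1 then B p.1 p.2 q.2 else 0)
        ≤ ∑ c, ((W c * B c).trace).re := by
  set X := Matrix.of fun p q : C × n => if p.1 = q.1 then B p.1 p.2 q.2 else 0
  obtain ⟨W, hW, e⟩ := exists_contr_trace_eq X
  refine ⟨fun c => W.submatrix (fun i : n => (c, i)) (fun i : n => (c, i)),
    fun c => contr_block hW c, le_of_eq ?_⟩
  rw [← e, ← Complex.re_sum]
  congr 1
  simp only [X, Matrix.trace, diag_apply, Matrix.mul_apply, Fintype.sum_prod_type, of_apply,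
    mul_ite, mul_zero, submatrix_apply]
  refine sum_congr rfl fun c _ => sum_congr rfl fun i _ => ?_
  rw [Finset.sum_comm]
  simp

variable {ι : Type} [Fintype ι] [DecidableEq ι] {P Q E : ι → Type} [∀ i, Fintype (P i)]
  [∀ i, DecidableEq (P i)] [∀ i, Fintype (Q i)] [∀ i, DecidableEq (Q i)] [∀ i, Fintype (E i)]
  [∀ i, DecidableEq (E i)]

/-- A disagreement on a block where both succeeded. -/
def badPair (a b : Fin 3) : Prop := a ≠ 2 ∧ b ≠ 2 ∧ a ≠ b

instance (a b : Fin 3) : Decidable (badPair a b) := by unfold badPair; infer_instance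

lemma pow_errs (s : ℝ) (x y : ι → Fin 3) :
    s ^ errs x y = ∏ i, if badPair (x i) (y i) then s else 1 := by
  rw [prod_ite, prod_const, prod_const, one_pow, mul_one]
  rfl

/-- Eve's state on one block for outcomes `a`, `b`. -/
def blockOut {P Q E : Type} [Fintype P] [Fintype Q] (ψ : Matrix (P × Q) E ℂ)
    (A : Fin 3 → Matrix P P ℂ) (B : Fin 3 → Matrix Q Q ℂ) (a b : Fin 3) : Matrix E E ℂ :=
  eveState ψ (A a ⊗ₖ B b)

/-- Eve's state on one block for given flags and given masked bit of Alice. -/
def flagOut {P Q E : Type} [Fintype P] [Fintype Q] (ψ : Matrix (P × Q) E ℂ)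
    (A : Fin 3 → Matrix P P ℂ) (B : Fin 3 → Matrix Q Q ℂ) (φ : Bool × Bool) (x' : Fin 3) :
    Matrix E E ℂ :=
  ∑ a, ∑ b, (if flag a = φ.1 ∧ flag b = φ.2 ∧ mask φ.2 a = x' then (1 : ℂ) else 0) •
    blockOut ψ A B a b

/-- Probability of a disagreement on one block. -/
def badProb {P Q E : Type} [Fintype P] [Fintype Q] [Fintype E] (ψ : Matrix (P × Q) E ℂ)
    (A : Fin 3 → Matrix P P ℂ) (B : Fin 3 → Matrix Q Q ℂ) : ℝ :=
  ∑ a, ∑ b, if badPair a b then ((blockOut ψ A B a b).trace).re else 0

variable (ψ : ∀ i, Matrix (P i × Q i) (E i) ℂ) (A : ∀ i, Fin 3 → Matrix (P i) (P i) ℂ)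
  (B : ∀ i, Fin 3 → Matrix (Q i) (Q i) ℂ)

/-- Eve's global state for outcome strings. -/
def strOut (x y : ι → Fin 3) : Matrix (∀ i, E i) (∀ i, E i) ℂ :=
  eveState (pairMat ψ) (piMat (fun i => A i (x i)) ⊗ₖ piMat (fun i => B i (y i)))

lemma strOut_eq (x y : ι → Fin 3) :
    strOut ψ A B x y = piMat fun i => blockOut (ψ i) (A i) (B i) (x i) (y i) :=
  eveState_pairMat ψ _ _

lemma flag_mask (g : ι → Bool) (x y : ι → Fin 3) (hg : flags y = g) :
    (∀ i, flag (maskStr g x i) = (flags x i && g i)) ∧ errs (maskStr g x) y = errs x y := by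
  subst hg
  constructor
  · intro i
    have h : ∀ a b : Fin 3, flag (mask (flag b) a) = (flag a && flag b) := by decide
    exact h (x i) (y i)
  · unfold errs
    congr 1
    ext i
    simp only [mem_filter, mem_univ, true_and, maskStr, mask, flags, flag, ne_eq,
      decide_eq_true_eq]
    by_cases h : y i = 2 <;> simp [h]

/-- The union bound for a decoding failure. -/
lemma fail_le {l r k : ℕ} {s : ℝ} (hs : 0 < s) (hs1 : s ≤ 1) (h : Fam ι l r) (x y : ι → Fin 3) :
    (if decode k (flags x, flags y, (h, (h (maskStr (flags y) x)).2), ()) y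
        = (h (maskStr (flags y) x)).1 then (0 : ℝ) else 1)
      ≤ 2 ^ errs x y / 2 ^ k + ∑ x' : ι → Fin 3,
          (if x' ≠ maskStr (flags y) x ∧ (h x').2 = (h (maskStr (flags y) x)).2 then (1 : ℝ) else 0) *
            ((if ∀ i, flag (x' i) = (flags x i && flags y i) then s ^ errs x' y else 0) / s ^ k) := by
  classical
  set xm := maskStr (flags y) x with hxm
  have hnn : ∀ x' : ι → Fin 3, 0 ≤
      (if x' ≠ xm ∧ (h x').2 = (h xm).2 then (1 : ℝ) else 0) *
        ((if ∀ i, flag (x' i) = (flags x i && flags y i) then s ^ errs x' y else 0) / s ^ k) := by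
    intro x'; split_ifs <;> positivity
  split_ifs with hok
  · exact add_nonneg (by positivity) (sum_nonneg fun x' _ => hnn x')
  by_cases hk : errs x y ≤ k
  · obtain ⟨hfl, her⟩ := flag_mask (flags y) x y rfl
    set t : Tr ι l r := (flags x, flags y, (h, (h xm).2), ())
    have hex : ∃ x', Cand k t y x' := ⟨xm, hfl, rfl, by rw [her]; exact hk⟩
    obtain ⟨hc1, hc2, hc3⟩ := hex.choose_spec
    have hne : hex.choose ≠ xm := by
      intro he
      apply hok
      rw [decode, dif_pos hex]
      show (h hex.choose).1 = (h xm).1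
      rw [he]
    refine le_add_of_nonneg_of_le (by positivity) ?_
    refine le_trans ?_ (single_le_sum (fun x' _ => hnn x') (mem_univ hex.choose))
    rw [if_pos ⟨hne, hc2⟩, if_pos hc1, one_mul, one_le_div (by positivity)]
    exact pow_le_pow_of_le_one hs.le hs1 hc3
  · refine le_add_of_le_of_nonneg ?_ (sum_nonneg fun x' _ => hnn x')
    rw [one_le_div (by positivity)]
    exact pow_le_pow_right₀ (by norm_num) (by omega)

lemma card_syn_collide {l r : ℕ} {x x' : ι → Fin 3} (hx : x ≠ x') :
    (∑ h : Fam ι l r, if (h x).2 = (h x').2 then (1 : ℝ) else 0)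
      = Fintype.card (Fam ι l r) / 2 ^ r := by
  rw [← Equiv.sum_comp (Equiv.arrowProdEquivProdArrow (ι → Fin 3) (fun _ => KeyVal l)
    (fun _ => Syn r)).symm, Fintype.sum_prod_type]
  simp only [Equiv.arrowProdEquivProdArrow_symm_apply]
  have h := sum_ite_collide (β := Syn r) (x := x) (x' := x')
  rw [if_neg hx, sub_eq_zero] at h
  simp only [h, sum_const, card_univ, nsmul_eq_mul, Fintype.card_fun, Fintype.card_prod,
    Fintype.card_bool, Fintype.card_fin, mul_pow]
  push_cast
  ring

lemma sum_pattern_le {s : ℝ} (hs : 0 ≤ s) (x y : ι → Fin 3) :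
    ∑ x' : ι → Fin 3, (if ∀ i, flag (x' i) = (flags x i && flags y i) then s ^ errs x' y else 0)
      ≤ (1 + s) ^ Fintype.card ι := by
  have e : ∀ x' : ι → Fin 3,
      (if ∀ i, flag (x' i) = (flags x i && flags y i) then s ^ errs x' y else 0)
        = ∏ i, if flag (x' i) = (flag (x i) && flag (y i)) then
            (if badPair (x' i) (y i) then s else 1) else 0 := by
    intro x'
    by_cases h : ∀ i, flag (x' i) = (flags x i && flags y i)
    · rw [if_pos h, pow_errs]; exact prod_congr rfl fun i _ => (if_pos (h i)).symm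
    · rw [if_neg h]
      obtain ⟨i, hi⟩ := not_forall.mp h
      exact (prod_eq_zero (mem_univ i) (if_neg hi)).symm
  simp only [e]
  rw [← Fintype.prod_sum (fun i a => if flag a = (flag (x i) && flag (y i)) then
    (if badPair a (y i) then s else 1) else 0), ← card_univ, ← prod_const]
  refine prod_le_prod (fun i _ => sum_nonneg fun a _ => ?_) fun i _ => ?_
  · split_ifs <;> linarith
  · rw [Fin.sum_univ_three]
    generalize x i = a
    generalize y i = b
    fin_cases a <;> fin_cases b <;> simp [flag, badPair] <;> linarith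

end Vale.Agent.P372.Key
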